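import Vale.Agent.P219.Relax.Seven.Strict

/-!
# P219, dimension seven: strictness of the gain and of the mixed pairs at one distance

The bounds on the mixed pairs are those of the point of dimension five with the same kernel; three
margins, linear in the weight and its derivative and free of the cosines, make them strict.
-/

noncomputable section

open Set

namespace Vale.Agent.P219.CH.Relax.Seven.Strictly

open _root_.Vale.Agent.P219.CH.Relax.Five (Pt one_sub_sq_nonneg)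

/-- The margins of the gain and of the mixed pairs. -/
structure GainMargin (o : Pt) : Prop where
  neg : o.G < 0
  g_pos : 0 < o.g
  p_nonneg : 0 ≤ o.p
  low : 0 < 1 + (o.U' + 5 * o.p * o.U + o.g * o.G)
  weight : 0 < 1 + (6 * o.p - o.g) * o.U + 6 * o.G
  slope' : o.G' ≤ 6 * o.U

variable {o : Pt}

/-- The gain and the mixed pairs are strict. -/
theorem gainLt_of_margin (h : GainPt o) (hm : GainMargin o)
    (hx : ∀ c ∈ Icc (0 : ℝ) 1, ∀ d ∈ Icc (0 : ℝ) 1,
      2 * (c * d) * (o.g * o.U) ≤ Five.symB (outFive o) c (-d))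
    (ho : ∀ c ∈ Icc (0 : ℝ) 1, ∀ d ∈ Icc (0 : ℝ) 1, 0 ≤ Five.symB (outFive o) (-c) (-d)) :
    GainLt o := by
  have hU : 0 < o.U := by linarith [h.weight_pos, hm.neg]
  have hG5 : (outFive o).G < 0 := by
    simp only [outFive]
    linarith [hm.neg]
  have hg5 : 0 < (outFive o).g := mul_pos (by norm_num) hm.g_pos
  refine ⟨fun c hc d hd => ?_, fun c hc d hd => ?_⟩
  · have hg := h.gain c ⟨by linarith [hc.1], hc.2⟩ d ⟨by linarith [hd.1], hd.2⟩
    rw [abs_of_pos (mul_pos hc.1 hd.1)] at hg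
    have hu : ∀ x : ℝ, x ∈ Ioc (0 : ℝ) 1 → 0 < o.U + x * o.G ∧ o.U + x * o.G < o.U := fun x hx =>
      ⟨by linarith [mul_le_mul_of_nonpos_right hx.2 hm.neg.le, h.weight_pos],
        by linarith [mul_neg_of_pos_of_neg hx.1 hm.neg]⟩
    have hs : Real.sqrt ((o.U + c * o.G) * (o.U + d * o.G)) < o.U := by
      rw [Real.sqrt_lt' ((hu c hc).1.trans (hu c hc).2), sq]
      exact mul_lt_mul (hu c hc).2 (hu d hd).2.le (hu d hd).1 ((hu c hc).1.trans (hu c hc).2).le
    linarith [mul_lt_mul_of_pos_left hs (mul_pos (mul_pos (mul_pos two_pos (mul_pos hc.1 hd.1))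
      hm.g_pos) one_pos)]
  have hn : ∀ x : ℝ, x ∈ Icc (0 : ℝ) 1 → x ∈ Icc (-1 : ℝ) 1 ∧ -x ∈ Icc (-1 : ℝ) 1 := fun x hx =>
    ⟨⟨by linarith [hx.1], hx.2⟩, by linarith [hx.2], by linarith [hx.1]⟩
  rw [← symX_outFive, ← symX_outFive]
  rcases ne_or_eq c d with hne | rfl
  · have h1 : |c| ≠ |-d| := by rwa [abs_neg, abs_of_nonneg hc.1, abs_of_nonneg hd.1]
    have h2 : |-c| ≠ |-d| := by rwa [abs_neg, abs_neg, abs_of_nonneg hc.1, abs_of_nonneg hd.1]
    exact ⟨(hx c hc d hd).trans_lt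
        (Five.Strictly.symB_lt_symX hG5 hg5 (hn c hc).1 (hn d hd).2 h1),
      (ho c hc d hd).trans_lt
        (Five.Strictly.symB_lt_symX hG5 hg5 (hn c hc).2 (hn d hd).2 h2)⟩
  have hcI := hn c hc
  obtain ⟨hc0, hc1⟩ := hc
  have hc2 : 0 ≤ 1 - c ^ 2 := sub_nonneg.2 (pow_le_one₀ hc0 hc1)
  have hE : 0 < Five.symB (outFive o) c (-c) - 2 * (c * c) * (o.g * o.U) := by
    have a1 : 0 < 1 + (o.U' + 5 * o.p * o.U + o.g * o.G * c) := by
      linarith [hm.low,
        mul_le_mul_of_nonpos_left hc1 (mul_nonpos_of_nonneg_of_nonpos hm.g_pos.le hm.neg.le)]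
    have e : Five.symB (outFive o) c (-c) - 2 * (c * c) * (o.g * o.U) =
        2 * ((1 - c ^ 2) * (1 + (o.U' + 5 * o.p * o.U + o.g * o.G * c)) +
          c ^ 2 * (1 + (6 * o.p - o.g) * o.U + 6 * o.G)) := by
      simp only [Five.symB, Five.ker, outFive, abs_neg, abs_of_nonneg hc0]
      ring
    rw [e]
    refine mul_pos two_pos ?_
    rcases hc2.eq_or_lt with h' | h'
    · rw [← h', show c ^ 2 = 1 by linarith, one_mul, zero_mul, zero_add]
      exact hm.weight
    · exact add_pos_of_pos_of_nonneg (mul_pos h' a1) (mul_nonneg (sq_nonneg c) hm.weight.le)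
  have h5 : ∀ {x y : ℝ}, x ∈ Icc (-1 : ℝ) 1 → y ∈ Icc (-1 : ℝ) 1 →
      Five.symB (outFive o) x y ≤ Five.symX (outFive o) x y :=
    fun hx hy => Five.symB_le_symX hG5.le hg5.le hx hy
  refine ⟨lt_of_lt_of_le (by linarith) (h5 hcI.1 hcI.2), lt_of_lt_of_le ?_ (h5 hcI.2 hcI.2)⟩
  have a3 : 0 ≤ 6 * o.U - (o.G' * (1 - c ^ 2) + o.p * o.G * (5 + c ^ 2)) := by
    have b1 := mul_le_mul_of_nonneg_right hm.slope' hc2
    have b2 := mul_nonpos_of_nonpos_of_nonneg
      (mul_nonpos_of_nonneg_of_nonpos hm.p_nonneg hm.neg.le) (show 0 ≤ 5 + c ^ 2 by positivity)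
    have b3 := mul_nonneg hU.le (sq_nonneg c)
    linarith
  have e : Five.symB (outFive o) (-c) (-c) = Five.symB (outFive o) c (-c) +
      2 * c * (6 * o.U - (o.G' * (1 - c ^ 2) + o.p * o.G * (5 + c ^ 2))) - 24 * c ^ 2 * o.G := by
    simp only [Five.symB, Five.ker, outFive, abs_neg, abs_of_nonneg hc0]
    ring
  have a4 := mul_nonneg hc0 a3
  have a5 := mul_nonneg (mul_self_nonneg c) (mul_nonneg hm.g_pos.le hU.le)
  have a6 := mul_nonpos_of_nonneg_of_nonpos (sq_nonneg c) hm.neg.le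
  rw [e]
  linarith

/-- Two equal inward cosines off the contact pay strictly more. -/
theorem pair_lt_diag {q t c : ℝ} (hq : q ∈ Ico (0 : ℝ) 1) (ht : t ∈ Ioc (0 : ℝ) 1)
    (hc : c ∈ Ioc (0 : ℝ) 1) (hct : c ≠ t) (hdown : slope o t ≤ 0) (h0 : 0 ≤ k0 o)
    (h1 : 0 < (2 + t) * k0 o + t * k1 o) :
    c * c * (tanSum o t (c + c) +
        slope o t * (hLoss q t c * (c - t) ^ 2 + hLoss q t c * (c - t) ^ 2)) < symX o c c := by
  have ht0 := ht.1
  have hX : symX o c c = 2 * diag o c := by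
    rw [symX, Real.mul_self_sqrt (one_sub_sq_nonneg ⟨by linarith [hc.1], hc.2⟩),
      abs_of_nonneg hc.1.le]
    simp only [ker, diag, k0, k1, k2, k3]
    ring
  have e : 2 * diag o c - c * c * tanSum o t (c + c) = 2 * ((c - t) ^ 2 *
      ((1 - c) * (k0 o * t) + c * ((2 + t) * k0 o + t * k1 o)) / t ^ 3) := by
    rw [tanSum, slope, diag, diag]
    field_simp
    ring
  have h2 : 0 < 2 * ((c - t) ^ 2 *
      ((1 - c) * (k0 o * t) + c * ((2 + t) * k0 o + t * k1 o)) / t ^ 3) :=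
    mul_pos two_pos (div_pos (mul_pos (pow_two_pos_of_ne_zero (sub_ne_zero.2 hct))
      (add_pos_of_nonneg_of_pos (mul_nonneg (sub_nonneg.2 hc.2) (mul_nonneg h0 ht0.le))
        (mul_pos hc.1 h1))) (pow_pos ht0 3))
  have h3 := mul_nonpos_of_nonpos_of_nonneg hdown
    (mul_nonneg (mul_self_nonneg c) (add_nonneg
      (mul_nonneg (hLoss_nonneg hq ht (Ioc_subset_Icc_self hc)) (sq_nonneg (c - t)))
      (mul_nonneg (hLoss_nonneg hq ht (Ioc_subset_Icc_self hc)) (sq_nonneg (c - t)))))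
  rw [hX]
  linarith

end Vale.Agent.P219.CH.Relax.Seven.Strictly
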