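import Vale.Agent.P219.Relax.Seven.ConcTan
import Vale.Agent.P219.Relax.Seven.StrictGain

/-!
# P219, dimension seven: from a solution to both certificates

A solution is a pair of free functions and four constants with the facts at each contact, one sign
each for the slope and for the concavity of the marginal coefficient, and the box beyond.
-/

noncomputable section

open Set

namespace Vale.Agent.P219.CH.Relax.Seven

open _root_.Vale.Agent.P219.CH.Relax.Five (Pt)
open _root_.Vale.Agent.P219.CH.Relax.Six (zc)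

/-- What a contact provides, with the loss of the constant `c`. -/
structure InFacts (c : ℝ) (o : Pt) (t : ℝ) : Prop where
  gain : GainPt o
  pair : ∀ x ∈ Icc (0 : ℝ) 1, ∀ y ∈ Icc (0 : ℝ) 1,
    x * y * (tanSum o t (x + y) + slope o t *
      (hLoss c t x * (x - t) ^ 2 + hLoss c t y * (y - t) ^ 2)) ≤ symX o x y
  gain_lt : Strictly.GainLt o
  pair_lt : ∀ x ∈ Ioc (0 : ℝ) 1, ∀ y ∈ Ioc (0 : ℝ) 1, ¬(x = t ∧ y = t) →
    x * y * (tanSum o t (x + y) + slope o t *
      (hLoss c t x * (x - t) ^ 2 + hLoss c t y * (y - t) ^ 2)) < symX o x y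

/-- A solution at `e`: free functions `q` with fourth derivatives `j`, the constant `c` of the
concavity and the two constants `A`, `B` of the slope beyond the diameter. -/
structure SolFacts (e : ℝ) (q : Gen) (j : q.Four) (c A B : ℝ) : Prop where
  isDeriv : q.IsDeriv
  c_zero : q.C 0 = -(26 * q.b / 15 + 2 * q.b * e / 5)
  rate_nonneg : 0 ≤ q.b
  c_mem : c ∈ Ico (0 : ℝ) 1
  slope_end : (Tan.wtOf e q).P 1 = -A
  slope_end' : (1 - e) / 2 * (Tan.wtOf e q).P1 1 = (1 + e) / 2 * (A - B)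
  a_pos : 0 < A
  box : OutBox e (xlOf e (Tan.wtOf e q).V) (kOf e q.b) A B
  down : ∀ t ∈ Ioc (0 : ℝ) 1, t * Tan.ao e q (t ^ 2) + Tan.ae e q (t ^ 2) ≤ 0
  conc : ∀ t ∈ Ioo (0 : ℝ) 1, 0 ≤ c * t * (3 + c * t ^ 2) *
      (t * Tan.ao e q (t ^ 2) + Tan.ae e q (t ^ 2)) - zc c t * nq c t *
      (Tan.ao e q (t ^ 2) + 2 * t ^ 2 * Tan.ao1 e j (t ^ 2) + 2 * t * Tan.ae1 e j (t ^ 2))
  inside : ∀ t ∈ Ioc (0 : ℝ) 1, InFacts c (ptIn e (Tan.wtOf e q) t) t

variable {e : ℝ} {q : Gen} {j : q.Four} {c A B : ℝ}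

lemma SolFacts.base (he : e ∈ Ioo (0 : ℝ) 1) (h : SolFacts e q j c A B) :
    Base e q.b (Tan.wtOf e q) (hOut A B) (h1Out A B) :=
  Tan.base he h.isDeriv h.c_zero h.rate_nonneg (by rw [h.slope_end, hOut]; ring)
    (by rw [h.slope_end', h1Out]; ring) (fun s _ => hasDerivAt_hOut A B s)
    (continuous_h1Out A B).continuousOn

lemma SolFacts.certFacts (he : e ∈ Ioo (0 : ℝ) 1) (h : SolFacts e q j c A B) :
    CertFacts e q.b c (Tan.wtOf e q) (hOut A B) (h1Out A B) :=
  have hd := Tan.slopeDown_of_sign he h.isDeriv h.down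
  have ho := certOut he (h.base he) hd h.box
  ⟨h.c_mem, fun t ht => (h.inside t ht).gain, ho.1, hd,
    Tan.conc_of_deriv he h.isDeriv j h.c_mem h.conc, fun t ht => (h.inside t ht).pair, ho.2.1,
    ho.2.2⟩

lemma SolFacts.strictFacts (he : e ∈ Ioo (0 : ℝ) 1) (h : SolFacts e q j c A B) :
    Strictly.StrictFacts e q.b c (Tan.wtOf e q) (hOut A B) (h1Out A B) :=
  Strictly.strictOut he (h.base he) (Tan.slopeDown_of_sign he h.isDeriv h.down) h.box h.a_pos
    (fun t ht => (h.inside t ht).gain_lt) fun t ht => (h.inside t ht).pair_lt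

/-- Solutions for every `e` give both certificates. -/
theorem certs_seven
    (h : ∀ e ∈ Ioo (0 : ℝ) 1, ∃ (q : Gen) (j : q.Four) (c A B : ℝ), SolFacts e q j c A B) :
    Cert 7 ∧ Rigid.StrictCert 7 := by
  refine ⟨cert_seven_of_sol fun e he => ?_, Strictly.strictCert_seven_of_sol fun e he => ?_⟩
  · obtain ⟨q, j, c, A, B, hs⟩ := h e he
    exact ⟨_, _, _, _, _, hs.base he, hs.certFacts he⟩
  · obtain ⟨q, j, c, A, B, hs⟩ := h e he
    exact ⟨_, _, _, _, _, hs.base he, hs.certFacts he, hs.strictFacts he⟩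

end Vale.Agent.P219.CH.Relax.Seven
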