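import Vale.Agent.P219.Relax.Seven.ConcTan
import Vale.Agent.P219.Relax.Six.RootGen

/-!
# P219, dimension seven: free functions in the root of the common factor

Both free functions may be combinations of integer powers of the root `ω` of `1 - e x`, as in
dimension six; all their derivatives are combinations of the same kind.
-/

noncomputable section

open Set Real

namespace Vale.Agent.P219.CH.Relax.Seven.RootGen

open _root_.Vale.Agent.P219.CH.Relax.Six.RootGen (val der)

/-- The free functions of two combinations. -/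
def gen (e b : ℝ) (L M : List (ℝ × ℤ)) : Gen where
  b := b
  C x := val L √(Tan.yl e x)
  C1 x := val (der e L) √(Tan.yl e x)
  C2 x := val (der e (der e L)) √(Tan.yl e x)
  C3 x := val (der e (der e (der e L))) √(Tan.yl e x)
  F x := val M √(Tan.yl e x)
  F1 x := val (der e M) √(Tan.yl e x)
  F2 x := val (der e (der e M)) √(Tan.yl e x)
  F3 x := val (der e (der e (der e M))) √(Tan.yl e x)

variable {e b : ℝ}

lemma hasDerivAt_comb (he : e ∈ Ioo (0 : ℝ) 1) (L : List (ℝ × ℤ)) {x : ℝ}
    (hx : x ∈ Icc (0 : ℝ) 1) :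
    HasDerivAt (fun z => val L √(Tan.yl e z)) (val (der e L) √(Tan.yl e x)) x :=
  _root_.Vale.Agent.P219.CH.Relax.Six.RootGen.hasDerivAt_val
    (show 0 < _root_.Vale.Agent.P219.CH.Relax.Six.Tan.yl e x from Tan.yl_pos he hx) L

theorem isDeriv (he : e ∈ Ioo (0 : ℝ) 1) (b : ℝ) (L M : List (ℝ × ℤ)) :
    (gen e b L M).IsDeriv where
  dC _ hx := hasDerivAt_comb he L hx
  dC1 _ hx := hasDerivAt_comb he _ hx
  dC2 _ hx := hasDerivAt_comb he _ hx
  dF _ hx := hasDerivAt_comb he M hx
  dF1 _ hx := hasDerivAt_comb he _ hx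
  dF2 _ hx := hasDerivAt_comb he _ hx
  contC _ hx := (hasDerivAt_comb he _ hx).continuousAt.continuousWithinAt
  contF _ hx := (hasDerivAt_comb he _ hx).continuousAt.continuousWithinAt

/-- Their fourth derivatives. -/
def four (he : e ∈ Ioo (0 : ℝ) 1) (b : ℝ) (L M : List (ℝ × ℤ)) : (gen e b L M).Four where
  C4 x := val (der e (der e (der e (der e L)))) √(Tan.yl e x)
  F4 x := val (der e (der e (der e (der e M)))) √(Tan.yl e x)
  dC3 _ hx := hasDerivAt_comb he _ hx
  dF3 _ hx := hasDerivAt_comb he _ hx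

/-- The value of a combination at the centre. -/
lemma val_zero (L : List (ℝ × ℤ)) : val L √(Tan.yl e 0) = (L.map Prod.fst).sum := by
  simp [val, Tan.yl]

end Vale.Agent.P219.CH.Relax.Seven.RootGen
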