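import Vale.Agent.P219.Relax.Seven.InPair
import Vale.Agent.P219.Relax.Seven.Assembly

/-!
# P219, dimension seven: all facts at a contact from the rows and four margins
-/

noncomputable section

open Set

namespace Vale.Agent.P219.CH.Relax.Seven

open _root_.Vale.Agent.P219.CH.Relax.Five (Pt)

variable {o : Pt} {q t : ℝ}

/-- The rows and the margins give the facts at a contact. -/
theorem InPt.inFacts (h : InPt q o t) (hm : Strictly.GainMargin o)
    (hconv : 0 < (2 + t) * k0 o + t * k1 o) (hq : q ∈ Ico (0 : ℝ) 1) (ht : t ∈ Ioc (0 : ℝ) 1) :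
    InFacts q o t where
  gain := h.gainPt hm.g_pos.le
  pair _ hx _ hy := h.pair hq ht hm.g_pos.le hx hy
  gain_lt := Strictly.gainLt_of_margin (h.gainPt hm.g_pos.le) hm h.mixed h.outward
  pair_lt x hx y hy hne := by
    rcases eq_or_ne x y with rfl | hxy
    · exact Strictly.pair_lt_diag hq ht hx (fun h' => hne ⟨h', h'⟩) h.down h.conv₀ hconv
    · exact h.pair_lt hq ht hm.neg hm.g_pos ⟨hx.1.le, hx.2⟩ ⟨hy.1.le, hy.2⟩ hxy

end Vale.Agent.P219.CH.Relax.Seven
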