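import Vale.Agent.P219.Relax.Six.Conc

/-!
# P219, dimension seven: quantitative concavity of the marginal coefficient

If `-A' * zc ^ 2 / nq` increases, the coefficient lies below its tangent at `t` less an exact
rational loss, as `nq / zc ^ 2` is the derivative of `x * (1 - q * x ^ 2 / 2) / zc`.
-/

noncomputable section

open Set

namespace Vale.Agent.P219.CH.Relax.Seven

open _root_.Vale.Agent.P219.CH.Relax.Six (zc zc_pos)

/-- The numerator of the comparison factor. -/
def nq (q x : ℝ) : ℝ := 1 - q * x ^ 2 / 2 + q ^ 2 * x ^ 4 / 2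

/-- The comparison factor. -/
def phi (q x : ℝ) : ℝ := zc q x ^ 2 / nq q x

/-- The loss of a tangent per squared distance from the contact. -/
def hLoss (q t c : ℝ) : ℝ := q / 2 * (2 * t + c + q * t ^ 2 * c) / (nq q t * zc q c)

variable {q t c : ℝ}

lemma nq_pos (q x : ℝ) : 0 < nq q x := by
  rw [nq]
  linarith [sq_nonneg (q * x ^ 2 - 1 / 2)]

lemma phi_pos (hq : q ∈ Ico (0 : ℝ) 1) {x : ℝ} (hx : x ∈ Icc (0 : ℝ) 1) : 0 < phi q x :=
  div_pos (pow_pos (zc_pos hq hx) 2) (nq_pos q x)

lemma hLoss_nonneg (hq : q ∈ Ico (0 : ℝ) 1) (ht : t ∈ Ioc (0 : ℝ) 1) (hc : c ∈ Icc (0 : ℝ) 1) :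
    0 ≤ hLoss q t c := by
  have hz := zc_pos hq hc
  have := nq_pos q t
  have := hq.1
  have := ht.1
  have := hc.1
  rw [hLoss]
  positivity

/-- The coefficient lies below its tangent less the loss. -/
theorem le_tanLoss (hq : q ∈ Ico (0 : ℝ) 1) {A A' : ℝ → ℝ}
    (hd : ∀ x ∈ Ioc (0 : ℝ) 1, HasDerivAt A (A' x) x)
    (hm : MonotoneOn (fun x => -A' x * phi q x) (Ioc 0 1))
    (ht : t ∈ Ioc (0 : ℝ) 1) (hc : c ∈ Ioc (0 : ℝ) 1) :
    A c ≤ A t + A' t * (c - t) + A' t * (hLoss q t c * (c - t) ^ 2) := by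
  obtain ⟨K, hK⟩ : ∃ K, K = A' t * phi q t := ⟨_, rfl⟩
  obtain ⟨G, hG⟩ : ∃ G : ℝ → ℝ, ∀ x, G x = A x - K * (x * (1 - q * x ^ 2 / 2) / zc q x) :=
    ⟨_, fun _ => rfl⟩
  have hGd : ∀ x ∈ Ioc (0 : ℝ) 1, HasDerivAt G (A' x - K / phi q x) x := fun x hx => by
    have hz := (zc_pos hq (Ioc_subset_Icc_self hx)).ne'
    have hid := hasDerivAt_id x
    have hp : HasDerivAt (fun x => x * (1 - q * x ^ 2 / 2) / zc q x) (1 / phi q x) x := by
      have hzd : HasDerivAt (zc q) (-(q * (2 * x))) x := by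
        refine (((hasDerivAt_pow 2 x).const_mul q).const_sub 1 :
          HasDerivAt (zc q) _ x).congr_deriv ?_
        push_cast
        ring
      refine ((hid.mul ((((hasDerivAt_pow 2 x).const_mul q).div_const 2).const_sub 1)).div hzd hz :
        HasDerivAt (fun x => x * (1 - q * x ^ 2 / 2) / zc q x) _ x).congr_deriv ?_
      have := nq_pos q x
      simp only [phi, Pi.mul_apply, id_eq]
      field_simp
      simp only [zc, nq]
      push_cast
      ring
    refine (((hd x hx).sub (hp.const_mul K)).congr_of_eventuallyEq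
      (.of_forall fun y => hG y)).congr_deriv ?_
    ring
  have hsign : ∀ x ∈ Ioc (0 : ℝ) 1, (t ≤ x → A' x - K / phi q x ≤ 0) ∧
      (x ≤ t → 0 ≤ A' x - K / phi q x) := fun x hx => by
    have hp := phi_pos hq (Ioc_subset_Icc_self hx)
    refine ⟨fun h => ?_, fun h => ?_⟩
    · rw [sub_nonpos, le_div_iff₀ hp, hK]
      linarith [hm ht hx h]
    · rw [sub_nonneg, div_le_iff₀ hp, hK]
      linarith [hm hx ht h]
  have hmax : G c ≤ G t := by
    rcases le_total t c with h | h
    · have hs : ∀ x ∈ Icc t c, x ∈ Ioc (0 : ℝ) 1 := fun x hx =>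
        ⟨ht.1.trans_le hx.1, hx.2.trans hc.2⟩
      refine antitoneOn_of_deriv_nonpos (convex_Icc t c)
        (fun x hx => (hGd x (hs x hx)).continuousAt.continuousWithinAt)
        (fun x hx => (hGd x (hs x (interior_subset hx))).differentiableAt.differentiableWithinAt)
        (fun x hx => ?_) (left_mem_Icc.2 h) (right_mem_Icc.2 h) h
      rw [(hGd x (hs x (interior_subset hx))).deriv]
      exact (hsign x (hs x (interior_subset hx))).1 (interior_subset hx).1
    · have hs : ∀ x ∈ Icc c t, x ∈ Ioc (0 : ℝ) 1 := fun x hx =>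
        ⟨hc.1.trans_le hx.1, hx.2.trans ht.2⟩
      refine monotoneOn_of_deriv_nonneg (convex_Icc c t)
        (fun x hx => (hGd x (hs x hx)).continuousAt.continuousWithinAt)
        (fun x hx => (hGd x (hs x (interior_subset hx))).differentiableAt.differentiableWithinAt)
        (fun x hx => ?_) (left_mem_Icc.2 h) (right_mem_Icc.2 h) h
      rw [(hGd x (hs x (interior_subset hx))).deriv]
      exact (hsign x (hs x (interior_subset hx))).2 (interior_subset hx).2
  have hzt := zc_pos hq (Ioc_subset_Icc_self ht)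
  have hzc := zc_pos hq (Ioc_subset_Icc_self hc)
  have hn0 := nq_pos q t
  have e : G c - G t = A c - A t - A' t * (c - t) -
      A' t * (q / 2 * (2 * t + c + q * t ^ 2 * c) / (nq q t * zc q c) * (c - t) ^ 2) := by
    rw [hG, hG, hK, phi]
    field_simp
    simp only [zc, nq]
    ring
  rw [hLoss]
  linarith

end Vale.Agent.P219.CH.Relax.Seven
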