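import Vale.Agent.P219.Relax.Seven.Pt
import Vale.Agent.P219.Relax.Six.Value
import Vale.Agent.P219.Relax.Five.Cert
import Vale.Agent.P219.Gen.Law

/-!
# P219, dimension seven: the value clause

Against `c * (1 - c ^ 2) ^ 2` the weight at the contact contributes the exact derivative of
`c ^ 5 (1 - c ^ 2) ^ 3 V / y ^ 5`, and what is left is elementary; so the mean does not depend on
the weight.
-/

noncomputable section

open MeasureTheory Set Filter Topology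

namespace Vale.Agent.P219.CH.Relax.Seven.Val

open _root_.Vale.Agent.P219.CH.Relax.Six.Val
  (lg hasDerivAt_lg arg_pos continuousOn_lg hasDerivAt_yf)
open Five (yf yf_pos tanh_sq_mem)
open GenK.Four (tanh_pos cosh_sq_inv)

/-- The marginal coefficient over the cosine. -/
def margSeven (R β : ℝ) (V DV : ℝ → ℝ) (c : ℝ) : ℝ :=
  64 * Real.tanh R ^ 6 * c ^ 4 / yf (Real.tanh R ^ 2) c ^ 6 *
      (1 + (1 - c ^ 2) * yf (Real.tanh R ^ 2) c * DV c / 2 +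
        contactNum (Real.tanh R ^ 2) (c ^ 2) / (2 * c) * V c) -
    β * lg (Real.tanh R) c

/-- An antiderivative of `c ^ 5 (1 - c ^ 2) ^ 2 / y ^ 6`. -/
def ratPrim (e c : ℝ) : ℝ :=
  ((c ^ 2 / yf e c) ^ 3 / 3 - (1 - e) * (c ^ 2 / yf e c) ^ 4 / 2 +
    (1 - e) ^ 2 * (c ^ 2 / yf e c) ^ 5 / 5) / 2

/-- An antiderivative of `c (1 - c ^ 2) ^ 2 lg T c`. -/
def distPrim (T c : ℝ) : ℝ :=
  -((1 - c ^ 2) ^ 3 * lg T c) / 6 + T / (3 * (T ^ 2) ^ 3) *
    ((1 - 3 * (1 - T ^ 2) + 3 * (1 - T ^ 2) ^ 2) * c +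
      (3 * (1 - T ^ 2) - 2) * T ^ 2 / 3 * c ^ 3 + (T ^ 2) ^ 2 / 5 * c ^ 5 -
      (1 - T ^ 2) ^ 3 * lg T c / (2 * T))

lemma hasDerivAt_ratPrim {e t : ℝ} (he : e ∈ Ioo (0 : ℝ) 1) (ht : t ∈ Icc (0 : ℝ) 1) :
    HasDerivAt (ratPrim e) (t ^ 5 * (1 - t ^ 2) ^ 2 / yf e t ^ 6) t := by
  have hy := (yf_pos he ht).ne'
  have hu := (hasDerivAt_pow 2 t).div (hasDerivAt_yf e t) hy
  refine (((((hu.pow 3).div_const 3).sub (((hu.pow 4).const_mul (1 - e)).div_const 2)).add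
    (((hu.pow 5).const_mul ((1 - e) ^ 2)).div_const 5)).div_const 2 :
      HasDerivAt (ratPrim e) _ t).congr_deriv ?_
  simp only [Pi.div_apply]
  push_cast
  field_simp
  simp only [yf]
  ring

lemma hasDerivAt_distPrim {R : ℝ} (hR : 0 < R) {t : ℝ} (ht : t ∈ Icc (0 : ℝ) 1) :
    HasDerivAt (distPrim (Real.tanh R)) (t * (1 - t ^ 2) ^ 2 * lg (Real.tanh R) t) t := by
  obtain ⟨h1, h2⟩ := arg_pos hR ht
  have hT0 := (tanh_pos hR).ne'
  have hy := (yf_pos (tanh_sq_mem hR) ht).ne'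
  have hl := hasDerivAt_lg h1 h2
  have e1 : (1 - Real.tanh R * t) * (1 + Real.tanh R * t) = yf (Real.tanh R ^ 2) t := by
    unfold yf; ring
  rw [e1] at hl
  refine (((((hasDerivAt_pow 2 t).const_sub 1).pow 3).mul hl).neg.div_const 6).add
    ((((((hasDerivAt_id t).const_mul (1 - 3 * (1 - Real.tanh R ^ 2) +
      3 * (1 - Real.tanh R ^ 2) ^ 2)).add
      ((hasDerivAt_pow 3 t).const_mul ((3 * (1 - Real.tanh R ^ 2) - 2) * Real.tanh R ^ 2 / 3))).add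
      ((hasDerivAt_pow 5 t).const_mul ((Real.tanh R ^ 2) ^ 2 / 5))).sub
      ((hl.const_mul ((1 - Real.tanh R ^ 2) ^ 3)).div_const (2 * Real.tanh R))).const_mul
      (Real.tanh R / (3 * (Real.tanh R ^ 2) ^ 3))) |>.congr_deriv ?_
  obtain ⟨ℓ, hℓ⟩ : ∃ ℓ, ℓ = lg (Real.tanh R) t := ⟨_, rfl⟩
  simp only [Pi.pow_apply, ← hℓ]
  push_cast
  field_simp
  simp only [yf]
  ring

lemma integral_sinh_six (R : ℝ) :
    ∫ t in (0 : ℝ)..R, Real.sinh t ^ 6 =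
      Real.sinh R * Real.cosh R * (Real.sinh R ^ 4 / 6 - 5 * Real.sinh R ^ 2 / 24 + 5 / 16) -
        5 * R / 16 := by
  have hd : ∀ t ∈ uIcc (0 : ℝ) R, HasDerivAt
      (fun t => Real.sinh t * Real.cosh t *
        (Real.sinh t ^ 4 / 6 - 5 * Real.sinh t ^ 2 / 24 + 5 / 16) - 5 * t / 16)
      (Real.sinh t ^ 6) t := by
    intro t _
    refine ((((Real.hasDerivAt_sinh t).mul (Real.hasDerivAt_cosh t)).mul
      (((((Real.hasDerivAt_sinh t).pow 4).div_const 6).sub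
        ((((Real.hasDerivAt_sinh t).pow 2).const_mul 5).div_const 24)).add_const (5 / 16))).sub
      (((hasDerivAt_id t).const_mul 5).div_const 16)).congr_deriv ?_
    simp only [Pi.mul_apply, Pi.pow_apply, Pi.sub_apply]
    push_cast
    linear_combination (5 * Real.sinh t ^ 4 / 6 - 5 * Real.sinh t ^ 2 / 8 + 5 / 16) *
      Real.cosh_sq t
  rw [intervalIntegral.integral_eq_sub_of_hasDerivAt hd
    ((Real.continuous_sinh.pow 6).intervalIntegrable _ _)]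
  simp only [Real.sinh_zero]
  ring

/-- The value clause, an equality, for any weight at the contact. -/
theorem value_seven {R β : ℝ} {a V DV : ℝ → ℝ} (hR : 0 < R)
    (ha : ∀ c ∈ Ioc (0 : ℝ) 1, a c = c * margSeven R β V DV c) (hm : Measurable a)
    (hac : ContinuousOn a (Icc 0 1)) (hneg : ∀ c ∈ Icc (0 : ℝ) 1, a c ≤ 0)
    (hV : ∀ t ∈ Ioo (0 : ℝ) 1, HasDerivAt V (DV t) t)
    (hVc : ContinuousOn (fun t => t ^ 5 * V t) (Icc 0 1)) :
    Real.sinh R ^ (2 * (7 - 1)) + Gen.cmean 7 (fun c => -a c) * Real.sinh R ^ (7 - 1) ≤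
      β * ∫ t in (0 : ℝ)..R, Real.sinh t ^ (7 - 1) := by
  refine le_of_eq ?_
  have he := tanh_sq_mem hR
  have hT := tanh_pos hR
  obtain ⟨B, hB⟩ := isCompact_Icc.exists_bound_of_continuousOn hac
  have hmean := Gen.Law.cmean_eq 2 (g := fun c => -a c) (B := B) hm.neg hac.neg
    fun c hc => ⟨neg_nonneg.2 (hneg c hc), (neg_le_abs _).trans (hB c hc)⟩
  have hK : (∫ c in (-1 : ℝ)..1, (1 - c ^ 2) ^ 2) = 16 / 15 := by
    have e : ∀ c ∈ uIcc (-1 : ℝ) 1, (1 - c ^ 2) ^ 2 = 1 * c ^ 0 - 2 * c ^ 2 + 1 * c ^ 4 :=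
      fun c _ => by ring
    rw [intervalIntegral.integral_congr e]
    simp (disch := exact Continuous.intervalIntegrable (by fun_prop) _ _) only
      [intervalIntegral.integral_add, intervalIntegral.integral_sub,
        intervalIntegral.integral_const_mul, integral_pow]
    norm_num
  rw [hK] at hmean
  change Gen.cmean 7 (fun c => -a c) * (16 / 15) =
    ∫ c in (0 : ℝ)..1, -a c * (1 - c ^ 2) ^ 2 at hmean
  set T := Real.tanh R with hTd
  obtain ⟨Φ, hΦ⟩ : ∃ Φ : ℝ → ℝ, Φ = fun c =>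
      β * distPrim T c - 64 * T ^ 6 * ratPrim (T ^ 2) c -
        32 * T ^ 6 * ((c ^ 5 * V c) * ((1 - c ^ 2) ^ 3 / yf (T ^ 2) c ^ 5)) := ⟨_, rfl⟩
  have hy0 : ∀ c ∈ Icc (0 : ℝ) 1, yf (T ^ 2) c ^ 5 ≠ 0 :=
    fun c hc => pow_ne_zero 5 (yf_pos he hc).ne'
  have hcont : ContinuousOn Φ (Icc 0 1) := by
    rw [hΦ]
    refine ((continuousOn_const.mul fun c hc => ?_).sub
      (continuousOn_const.mul fun c hc => ?_)).sub (continuousOn_const.mul (hVc.mul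
        (ContinuousOn.div (by fun_prop) (by unfold yf; fun_prop) hy0)))
    · exact (hasDerivAt_distPrim hR hc).continuousAt.continuousWithinAt
    · exact (hasDerivAt_ratPrim he hc).continuousAt.continuousWithinAt
  have hd : ∀ t ∈ Ioo (0 : ℝ) 1, HasDerivAt Φ (-a t * (1 - t ^ 2) ^ 2) t := by
    intro t ht
    have hy := yf_pos he (Ioo_subset_Icc_self ht)
    have h3 := (((hasDerivAt_pow 5 t).mul (hV t ht)).mul
      ((((hasDerivAt_pow 2 t).const_sub 1).pow 3).div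
        ((hasDerivAt_yf (T ^ 2) t).pow 5) (pow_ne_zero 5 hy.ne'))).const_mul (32 * T ^ 6)
    have h := (((hasDerivAt_distPrim hR (Ioo_subset_Icc_self ht)).const_mul β).sub
      ((hasDerivAt_ratPrim he (Ioo_subset_Icc_self ht)).const_mul (64 * T ^ 6))).sub h3
    rw [hΦ]
    refine h.congr_deriv ?_
    have ht0 := ht.1.ne'
    rw [ha t (Ioo_subset_Ioc_self ht), margSeven, ← hTd]
    simp only [Pi.mul_apply, Pi.pow_apply, Pi.div_apply]
    obtain ⟨ℓ, hℓ⟩ : ∃ ℓ, ℓ = lg T t := ⟨_, rfl⟩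
    rw [← hℓ]
    obtain ⟨y, hyd⟩ : ∃ y, y = yf (T ^ 2) t := ⟨_, rfl⟩
    rw [← hyd] at hy ⊢
    push_cast
    field_simp
    rw [hyd, yf, contactNum]
    ring
  have hI : ∫ c in (0 : ℝ)..1, -a c * (1 - c ^ 2) ^ 2 = Φ 1 - Φ 0 :=
    intervalIntegral.integral_eq_sub_of_hasDerivAt_of_le zero_le_one hcont hd
      ((hac.neg.mul (by fun_prop : ContinuousOn (fun c : ℝ => (1 - c ^ 2) ^ 2) (Icc 0 1)))
        |>.intervalIntegrable_of_Icc zero_le_one)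
  rw [hI] at hmean
  have hd0 : (0 : ℝ) < 1 - T ^ 2 := sub_pos.2 he.2
  have hl1 : lg T 1 = 2 * R := by
    have h := Five.log_tc hR (2 * R)
    rw [Five.tc_diam hR] at h
    exact h
  have hend : Φ 1 - Φ 0 = β * (T / (3 * (T ^ 2) ^ 3)) *
      (1 - 8 * T ^ 2 / 3 + 11 * (T ^ 2) ^ 2 / 5 - (1 - T ^ 2) ^ 3 * R / T) -
      16 * T ^ 6 / (15 * (1 - T ^ 2) ^ 3) := by
    have hl0 : lg T 0 = 0 := by simp [lg]
    have hT0 : T ≠ 0 := hT.ne'
    have hd1 : (1 : ℝ) - T ^ 2 ≠ 0 := hd0.ne'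
    simp only [hΦ, distPrim, ratPrim, hl0, hl1, yf]
    field_simp
    ring
  rw [hend] at hmean
  have hcm : Gen.cmean 7 (fun c => -a c) = 15 / 16 * (β * (T / (3 * (T ^ 2) ^ 3)) *
      (1 - 8 * T ^ 2 / 3 + 11 * (T ^ 2) ^ 2 / 5 - (1 - T ^ 2) ^ 3 * R / T) -
      16 * T ^ 6 / (15 * (1 - T ^ 2) ^ 3)) := by linarith
  rw [hcm, show 2 * (7 - 1) = 12 from rfl, show 7 - 1 = 6 from rfl, integral_sinh_six]
  obtain ⟨C, hC⟩ : ∃ C, C = Real.cosh R := ⟨_, rfl⟩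
  have hC0 : 0 < C := hC ▸ Real.cosh_pos R
  have hd1 : 1 - T ^ 2 = (1 / C) ^ 2 := by rw [hC, cosh_sq_inv]
  have hS : Real.sinh R = T * C := by
    rw [hTd, hC, Real.tanh_eq_sinh_div_cosh, div_mul_cancel₀ _ (Real.cosh_pos R).ne']
  have hC2 : C ^ 2 = 1 / (1 - T ^ 2) := by rw [hd1]; field_simp
  have hT0 : T ≠ 0 := hT.ne'
  have hd2 : (1 : ℝ) - T ^ 2 ≠ 0 := hd0.ne'
  rw [hS, ← hC, show T * C * C = T * C ^ 2 by ring,
    show (T * C) ^ 12 = T ^ 12 * (C ^ 2) ^ 6 by ring,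
    show (T * C) ^ 6 = T ^ 6 * (C ^ 2) ^ 3 by ring,
    show (T * C) ^ 4 = T ^ 4 * (C ^ 2) ^ 2 by ring,
    show (T * C) ^ 2 = T ^ 2 * C ^ 2 by ring, hC2]
  field_simp
  ring

end Vale.Agent.P219.CH.Relax.Seven.Val
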