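import Vale.Agent.P219.Relax.Seven.Profile
import Vale.Agent.P219.Relax.Seven.Value

/-!
# P219, dimension seven: the value clause from a solution

The marginal coefficient over the cosine starts at zero and falls at the rate of the slope at the
contact, so the coefficient is continuous and nonpositive.
-/

noncomputable section

open Set Filter Topology

namespace Vale.Agent.P219.CH.Relax.Seven

open Five (yf yf_pos tanh_sq_mem)
open _root_.Vale.Agent.P219.CH.Relax.Six.Val (lg hasDerivAt_lg arg_pos)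
open GenK.Four (tanh_pos)

/-- The volume coefficient. -/
def betaSeven (R b : ℝ) : ℝ := 32 * Real.tanh R ^ 5 * b

/-- The marginal coefficient over the cosine. -/
def margSeven (R b : ℝ) (W : Wt) (c : ℝ) : ℝ :=
  64 * Real.tanh R ^ 6 * margRat (Real.tanh R ^ 2) W c -
    betaSeven R b * lg (Real.tanh R) c

/-- The marginal coefficient, zero outside the unit interval. -/
def aSeven (R b : ℝ) (W : Wt) : ℝ → ℝ :=
  (Ioc (0 : ℝ) 1).indicator fun c => c * margSeven R b W c

/-- The marginal coefficient falls. -/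
def SlopeDown (e : ℝ) (W : Wt) : Prop := ∀ t ∈ Ioc (0 : ℝ) 1, slope (ptIn e W t) t ≤ 0

variable {R b : ℝ} {W : Wt} {h h1 : ℝ → ℝ}

lemma margSeven_eq (R b : ℝ) (W : Wt) {c : ℝ} (hc : c ≠ 0) :
    margSeven R b W c = Val.margSeven R (betaSeven R b) W.V W.V1 c := by
  rw [margSeven, margRat, Val.margSeven, diag_ptIn hc]
  ring

/-- The coefficient falls at the rate of the slope at the contact. -/
lemma hasDerivAt_margSeven (hR : 0 < R) (hs : Base (Real.tanh R ^ 2) b W h h1) {t : ℝ}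
    (ht : t ∈ Ioc (0 : ℝ) 1) :
    HasDerivAt (margSeven R b W)
      (64 * Real.tanh R ^ 6 * aSlope (Real.tanh R ^ 2) W t) t := by
  obtain ⟨h₁, h₂⟩ := arg_pos hR (Ioc_subset_Icc_self ht)
  have hy := (yf_pos (tanh_sq_mem hR) (Ioc_subset_Icc_self ht)).ne'
  refine (((hs.tangency t ht).const_mul (64 * Real.tanh R ^ 6)).sub
    ((hasDerivAt_lg h₁ h₂).const_mul (betaSeven R b))).congr_deriv ?_
  have e1 : (1 - Real.tanh R * t) * (1 + Real.tanh R * t) = yf (Real.tanh R ^ 2) t := by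
    unfold yf; ring
  rw [e1, betaSeven]
  field_simp
  ring

lemma margSeven_deriv_nonpos (hR : 0 < R) (hd : SlopeDown (Real.tanh R ^ 2) W) {t : ℝ}
    (ht : t ∈ Ioc (0 : ℝ) 1) : 64 * Real.tanh R ^ 6 * aSlope (Real.tanh R ^ 2) W t ≤ 0 :=
  mul_nonpos_of_nonneg_of_nonpos (mul_nonneg (by norm_num) (pow_nonneg (tanh_pos hR).le 6))
    (mul_nonpos_of_nonneg_of_nonpos (div_nonneg (pow_nonneg ht.1.le 6)
      (pow_nonneg (yf_pos (tanh_sq_mem hR) (Ioc_subset_Icc_self ht)).le 6)) (hd t ht))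

/-- Near the centre the coefficient over the cosine is small. -/
lemma tendsto_margSeven (hR : 0 < R) (hs : Base (Real.tanh R ^ 2) b W h h1) :
    Tendsto (margSeven R b W) (𝓝[>] 0) (𝓝 0) := by
  obtain ⟨C, hC⟩ := hs.centre
  obtain ⟨T, hT⟩ : ∃ T, T = Real.tanh R := ⟨_, rfl⟩
  have he := tanh_sq_mem hR
  rw [← hT] at he
  have hd : (0 : ℝ) < 1 - T ^ 2 := sub_pos.2 he.2
  have hlg : Tendsto (lg T) (𝓝[>] 0) (𝓝 0) := by
    have h' := (hasDerivAt_lg (T := T) (t := 0) (by simp) (by simp)).continuousAt.tendsto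
    rw [show lg T 0 = 0 by simp [lg]] at h'
    exact h'.mono_left nhdsWithin_le_nhds
  have hrat : Tendsto (margRat (T ^ 2) W) (𝓝[>] 0) (𝓝 0) := by
    refine squeeze_zero_norm' (a := fun t => t * ((1 + 9 * |C|) / (1 - T ^ 2) ^ 6)) ?_ ?_
    · filter_upwards [Ioc_mem_nhdsGT zero_lt_one] with t ht
      obtain ⟨hv, hv'⟩ := hC t ht
      have hyp := yf_pos he (Ioc_subset_Icc_self ht)
      have ht2 : t ^ 2 ≤ 1 := pow_le_one₀ ht.1.le ht.2
      have hx := mul_le_one₀ he.2.le (sq_nonneg t) ht2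
      have hx0 := mul_nonneg he.1.le (sq_nonneg t)
      have hy1 : 1 - T ^ 2 ≤ yf (T ^ 2) t := by
        rw [yf]; linarith [mul_le_mul_of_nonneg_left ht2 he.1.le]
      have hy2 : yf (T ^ 2) t ≤ 1 := by rw [yf]; linarith
      have e1 : t ^ 4 * diag (ptIn (T ^ 2) W t) t = t * (t ^ 3 +
          (1 - t ^ 2) * (yf (T ^ 2) t / 2) * (t ^ 3 * W.V1 t) +
          contactNum (T ^ 2) (t ^ 2) / 2 * (t ^ 2 * W.V t)) := by
        have := ht.1.ne'
        rw [diag_ptIn this]
        field_simp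
      have hk : |contactNum (T ^ 2) (t ^ 2)| ≤ 16 := by
        have h4 := mul_le_mul_of_nonneg_left ht2 hx0
        have h4' := mul_nonneg hx0 (sq_nonneg t)
        rw [contactNum, abs_le]
        constructor <;> linarith [sq_nonneg t]
      have a1 : |t ^ 3| ≤ 1 := by
        rw [abs_of_pos (pow_pos ht.1 3)]; exact pow_le_one₀ ht.1.le ht.2
      have a2 : |(1 - t ^ 2) * (yf (T ^ 2) t / 2) * (t ^ 3 * W.V1 t)| ≤ 1 * |C| := by
        rw [abs_mul]
        refine mul_le_mul ?_ (hv'.trans (le_abs_self C)) (abs_nonneg _) zero_le_one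
        rw [abs_mul, abs_of_nonneg (sub_nonneg.2 ht2),
          abs_of_nonneg (div_nonneg hyp.le zero_le_two)]
        exact mul_le_one₀ (by linarith [sq_nonneg t]) (by linarith) (by linarith)
      have a3 : |contactNum (T ^ 2) (t ^ 2) / 2 * (t ^ 2 * W.V t)| ≤ 8 * |C| := by
        rw [abs_mul, abs_div, abs_two]
        exact mul_le_mul (by linarith) (hv.trans (le_abs_self C)) (abs_nonneg _) (by norm_num)
      have hq : |t ^ 4 * diag (ptIn (T ^ 2) W t) t| ≤ t * (1 + 9 * |C|) := by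
        rw [e1, abs_mul, abs_of_pos ht.1]
        refine mul_le_mul_of_nonneg_left ((abs_add_three _ _ _).trans ?_) ht.1.le
        linarith
      rw [Real.norm_eq_abs, margRat, abs_div, abs_of_pos (pow_pos hyp 6), ← mul_div_assoc]
      exact div_le_div₀ (mul_nonneg ht.1.le (by positivity)) hq (pow_pos hd 6)
        (pow_le_pow_left₀ hd.le hy1 6)
    · have hl : Continuous fun t : ℝ => t * ((1 + 9 * |C|) / (1 - T ^ 2) ^ 6) :=
        continuous_id.mul continuous_const
      exact (hl.tendsto' 0 0 (zero_mul _)).mono_left nhdsWithin_le_nhds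
  have h' := (hrat.const_mul (64 * T ^ 6)).sub (hlg.const_mul (betaSeven R b))
  simp only [mul_zero, sub_zero] at h'
  refine h'.congr fun t => ?_
  rw [margSeven, ← hT]

lemma margSeven_nonpos (hR : 0 < R) (hs : Base (Real.tanh R ^ 2) b W h h1)
    (hd : SlopeDown (Real.tanh R ^ 2) W) {c : ℝ} (hc : c ∈ Ioc (0 : ℝ) 1) :
    margSeven R b W c ≤ 0 := by
  have hanti : AntitoneOn (margSeven R b W) (Ioc 0 1) :=
    antitoneOn_of_hasDerivWithinAt_nonpos (convex_Ioc 0 1)
      (fun t ht => (hasDerivAt_margSeven hR hs ht).continuousAt.continuousWithinAt)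
      (fun t ht => (hasDerivAt_margSeven hR hs (interior_subset ht)).hasDerivWithinAt)
      fun t ht => margSeven_deriv_nonpos hR hd (interior_subset ht)
  refine ge_of_tendsto (tendsto_margSeven hR hs) ?_
  filter_upwards [Ioc_mem_nhdsGT hc.1] with x hx
  exact hanti ⟨hx.1, hx.2.trans hc.2⟩ hc hx.2

lemma aSeven_eq (R b : ℝ) (W : Wt) {c : ℝ} (hc : c ∈ Ioc (0 : ℝ) 1) :
    aSeven R b W c = c * margSeven R b W c := by
  rw [aSeven, indicator_of_mem hc]

lemma aSeven_zero (R b : ℝ) (W : Wt) : aSeven R b W 0 = 0 := by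
  rw [aSeven, indicator_of_notMem fun h => lt_irrefl _ h.1]

lemma aSeven_nonpos (hR : 0 < R) (hs : Base (Real.tanh R ^ 2) b W h h1)
    (hd : SlopeDown (Real.tanh R ^ 2) W) {c : ℝ} (hc : c ∈ Icc (0 : ℝ) 1) :
    aSeven R b W c ≤ 0 := by
  rcases eq_or_lt_of_le hc.1 with h' | h'
  · rw [← h', aSeven_zero]
  · rw [aSeven_eq R b W ⟨h', hc.2⟩]
    exact mul_nonpos_of_nonneg_of_nonpos hc.1 (margSeven_nonpos hR hs hd ⟨h', hc.2⟩)

lemma continuousOn_aSeven (hR : 0 < R) (hs : Base (Real.tanh R ^ 2) b W h h1) :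
    ContinuousOn (aSeven R b W) (Icc 0 1) := by
  intro c hc
  rcases eq_or_lt_of_le hc.1 with rfl | h'
  · rw [← Set.insert_eq_of_mem (left_mem_Icc.2 zero_le_one : (0 : ℝ) ∈ Icc (0 : ℝ) 1)]
    refine continuousWithinAt_insert_self.2 ?_
    rw [← Icc_union_Ioc_eq_Icc (le_refl (0 : ℝ)) zero_le_one, Icc_self]
    refine ContinuousWithinAt.union continuousWithinAt_singleton ?_
    rw [ContinuousWithinAt, nhdsWithin_Ioc_eq_nhdsGT zero_lt_one, aSeven_zero]
    have hlim := ((continuous_id.tendsto' (0 : ℝ) 0 rfl).mono_left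
      (nhdsWithin_le_nhds (s := Ioi 0))).mul (tendsto_margSeven hR hs)
    rw [mul_zero] at hlim
    refine hlim.congr' ?_
    filter_upwards [Ioc_mem_nhdsGT zero_lt_one] with x hx
    rw [aSeven_eq R b W hx, id]
  · have hm := (hasDerivAt_margSeven hR hs ⟨h', hc.2⟩).continuousAt
    refine ((continuousWithinAt_id.mul hm.continuousWithinAt).congr_of_eventuallyEq ?_
      (aSeven_eq R b W ⟨h', hc.2⟩))
    filter_upwards [nhdsWithin_le_nhds (Ioi_mem_nhds h'), self_mem_nhdsWithin] with x hx hx'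
    rw [aSeven_eq R b W ⟨hx, hx'.2⟩]
    rfl

lemma measurable_aSeven (hR : 0 < R) (hs : Base (Real.tanh R ^ 2) b W h h1) :
    Measurable (aSeven R b W) := by
  have hm := ((continuousOn_aSeven hR hs).mono Ioc_subset_Icc_self).measurable_piecewise
    (g := fun _ => (0 : ℝ)) continuous_const.continuousOn measurableSet_Ioc
  convert hm using 1
  funext c
  by_cases hc : c ∈ Ioc (0 : ℝ) 1
  · rw [piecewise_eq_of_mem _ _ _ hc]
  · rw [piecewise_eq_of_notMem _ _ _ hc, aSeven, indicator_of_notMem hc]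

/-- The value clause of the certificate. -/
theorem value_aSeven (hR : 0 < R) (hs : Base (Real.tanh R ^ 2) b W h h1)
    (hd : SlopeDown (Real.tanh R ^ 2) W) :
    Real.sinh R ^ (2 * (7 - 1)) +
        Gen.cmean 7 (fun c => -aSeven R b W c) * Real.sinh R ^ (7 - 1) ≤
      betaSeven R b * ∫ t in (0 : ℝ)..R, Real.sinh t ^ (7 - 1) := by
  refine Val.value_seven (V := W.V) (DV := W.V1) hR (fun c hc => ?_) (measurable_aSeven hR hs)
    (continuousOn_aSeven hR hs) (fun c hc => aSeven_nonpos hR hs hd hc)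
    (fun t ht => hs.deriv t (Ioo_subset_Ioc_self ht)) ?_
  · rw [aSeven_eq R b W hc, margSeven_eq R b W hc.1.ne']
  · obtain ⟨C, hC⟩ := hs.centre
    intro c hc
    rcases eq_or_lt_of_le hc.1 with rfl | h'
    · have hb : ∀ᶠ t in 𝓝[Icc (0 : ℝ) 1] 0, ‖t ^ 5 * W.V t‖ ≤ t ^ 3 * C := by
        filter_upwards [self_mem_nhdsWithin] with t ht
        rcases eq_or_lt_of_le ht.1 with rfl | h'
        · simp
        · rw [Real.norm_eq_abs, show t ^ 5 * W.V t = t ^ 3 * (t ^ 2 * W.V t) by ring, abs_mul,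
            abs_of_nonneg (pow_nonneg ht.1 3)]
          exact mul_le_mul_of_nonneg_left (hC t ⟨h', ht.2⟩).1 (pow_nonneg ht.1 3)
      rw [ContinuousWithinAt, zero_pow (by norm_num), zero_mul]
      refine squeeze_zero_norm' hb ?_
      have h3 : Continuous fun t : ℝ => t ^ 3 * C := by fun_prop
      exact (h3.tendsto' 0 0 (by simp)).mono_left nhdsWithin_le_nhds
    · exact ((continuousAt_id.pow 5).mul
        (hs.deriv c ⟨h', hc.2⟩).continuousAt).continuousWithinAt

end Vale.Agent.P219.CH.Relax.Seven
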