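import Vale.Agent.P219.Relax.Seven.Sym
import Vale.Agent.P219.Relax.Seven.ValueSol
import Vale.Agent.P219.Relax.Seven.Loss
import Vale.Agent.P219.Relax.Six.Cert

/-!
# P219, dimension seven: the certificate from the facts at each distance

Inside the diameter the pair bound is paid by the tangent of the marginal coefficient less its loss
from quantitative concavity; beyond it the plain tangent at cosine one suffices.
-/

noncomputable section

open Set Filter Topology MeasureTheory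

namespace Vale.Agent.P219.CH.Relax.Seven

open Five (Pt tc pc gc yf yf_pos tanh_sq_mem tc_mem tc_diam log_tc sinh_tc)
open _root_.Vale.Agent.P219.CH.Relax.Six
  (ratF ratF_far)
open GenK.Four (tanh_pos tanh_lt_one')

variable {R b q : ℝ} {W : Wt} {h h1 : ℝ → ℝ}

/-- The facts that the certificate needs beside the structural ones: `q` is the constant of the
concavity of the marginal coefficient. -/
structure CertFacts (e b q : ℝ) (W : Wt) (h h1 : ℝ → ℝ) : Prop where
  q_mem : q ∈ Ico (0 : ℝ) 1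
  gain_in : ∀ t ∈ Ioc (0 : ℝ) 1, GainPt (ptIn e W t)
  gain_out : ∀ p g, Five.OutRange e p g → GainPt (ptOut e (xlOf e W.V) (kOf e b) h h1 p g)
  down : SlopeDown e W
  conc : MonotoneOn (fun t => -aSlope e W t * phi q t) (Ioc 0 1)
  pair_in : ∀ t ∈ Ioc (0 : ℝ) 1, ∀ c ∈ Icc (0 : ℝ) 1, ∀ d ∈ Icc (0 : ℝ) 1,
    c * d * (tanSum (ptIn e W t) t (c + d) + slope (ptIn e W t) t *
      (hLoss q t c * (c - t) ^ 2 + hLoss q t d * (d - t) ^ 2)) ≤ symX (ptIn e W t) c d
  pair_out : ∀ p g, Five.OutRange e p g → ∀ c ∈ Icc (0 : ℝ) 1, ∀ d ∈ Icc (0 : ℝ) 1,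
    c * d * tanSum (ptOut e (xlOf e W.V) (kOf e b) h h1 p g) 1 (c + d) ≤
      symX (ptOut e (xlOf e W.V) (kOf e b) h h1 p g) c d
  slope_out : ∀ p g, Five.OutRange e p g →
    slope (ptOut e (xlOf e W.V) (kOf e b) h h1 p g) 1 ≤ ratF e g ^ 6 * slope (ptIn e W 1) 1

/-- The coefficient lies below the tangent at `t` less the quadratic loss. -/
lemma margSeven_le (hR : 0 < R) (hs : Base (Real.tanh R ^ 2) b W h h1)
    (hf : CertFacts (Real.tanh R ^ 2) b q W h h1) {t c : ℝ}
    (ht : t ∈ Ioc (0 : ℝ) 1) (hc : c ∈ Ioc (0 : ℝ) 1) :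
    margSeven R b W c ≤ margSeven R b W t +
      64 * Real.tanh R ^ 6 * aSlope (Real.tanh R ^ 2) W t * (c - t) +
      64 * Real.tanh R ^ 6 * aSlope (Real.tanh R ^ 2) W t * (hLoss q t c * (c - t) ^ 2) := by
  refine le_tanLoss hf.q_mem (fun x hx => hasDerivAt_margSeven hR hs hx) ?_ ht hc
  intro x hx y hy hxy
  have := mul_le_mul_of_nonneg_left (hf.conc hx hy hxy)
    (by have := tanh_pos hR; positivity : 0 ≤ 64 * Real.tanh R ^ 6)
  simp only at this ⊢
  linarith

lemma symU_eq {r : ℝ} (hR : 0 < R) (hr : 0 < r) (hG : (ptR R b W h h1 r).G ≤ 0) (c d : ℝ) :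
    Profile2D.symU 7 R (fun r c => uU R b W h h1 r + c * uG R b W h h1 r)
        (fun r c => (ptR R b W h h1 r).U' + c * (ptR R b W h h1 r).G')
        (fun r _ => uG R b W h h1 r) r c d =
      symX (ptR R b W h h1 r) c d := by
  have hT := (tanh_pos hR).ne'
  have hsr := (Real.sinh_pos_iff.2 hr).ne'
  obtain ⟨hp, hg⟩ := ptR_pg (b := b) (W := W) (h := h) (h1 := h1) hR hr
  have habs : |uG R b W h h1 r| = -(Real.tanh R * (ptR R b W h h1 r).G) := by
    rw [uG, abs_of_nonpos (mul_nonpos_of_nonneg_of_nonpos (tanh_pos hR).le hG)]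
  simp only [Profile2D.symU, Profile2D.kerU, habs, symX, ker]
  rw [hp, hg]
  have hH : GenK.modelH 7 R = 6 / Real.tanh R := by
    rw [GenK.modelH, Real.tanh_eq_sinh_div_cosh]
    have := (Real.sinh_pos_iff.2 hR).ne'
    have := (Real.cosh_pos R).ne'
    push_cast
    field_simp
    ring
  rw [hH]
  simp only [uU, uG, pc, gc]
  push_cast
  field_simp
  ring

/-- The facts at one distance. -/
lemma gain_at (hR : 0 < R) (hf : CertFacts (Real.tanh R ^ 2) b q W h h1) {r : ℝ} (hr : 0 < r) :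
    GainPt (ptR R b W h h1 r) ∧ 0 ≤ (ptR R b W h h1 r).g := by
  refine ⟨?_, ?_⟩
  · rcases le_or_gt r (2 * R) with h' | h'
    · rw [ptR, if_pos h']
      exact hf.gain_in _ (tc_mem hR ⟨hr, h'⟩)
    · rw [ptR, if_neg (not_le.2 h')]
      exact hf.gain_out _ _ (Five.outRange hR h'.le)
  · rw [(ptR_pg hR hr).2, gc]
    exact div_nonneg (tanh_pos hR).le (Real.sinh_pos_iff.2 hr).le

/-- Inside the diameter the two values and the volume term are below the tangents less the
losses. -/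
lemma pair_in_le (hR : 0 < R) (hs : Base (Real.tanh R ^ 2) b W h h1)
    (hf : CertFacts (Real.tanh R ^ 2) b q W h h1) {r c d t : ℝ} (htd : t = tc R r)
    (ht : t ∈ Ioc (0 : ℝ) 1) (hc : c ∈ Ioc (0 : ℝ) 1) (hd : d ∈ Ioc (0 : ℝ) 1) :
    c * d * (margSeven R b W c + margSeven R b W d + 2 * betaSeven R b * r) ≤
      Real.sinh r ^ 6 * (c * d *
        (tanSum (ptIn (Real.tanh R ^ 2) W t) t (c + d) + slope (ptIn (Real.tanh R ^ 2) W t) t *
          (hLoss q t c * (c - t) ^ 2 + hLoss q t d * (d - t) ^ 2))) := by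
  have hT := tanh_pos hR
  have hcd : 0 ≤ c * d := (mul_pos hc.1 hd.1).le
  have hy := yf_pos (tanh_sq_mem hR) (Ioc_subset_Icc_self ht)
  have ht0 := ht.1.ne'
  have g1 := margSeven_le hR hs hf ht hc
  have g2 := margSeven_le hR hs hf ht hd
  have hsh : Real.sinh r = 2 * Real.tanh R * t / yf (Real.tanh R ^ 2) t := htd ▸ sinh_tc hR r
  have e1 : Real.sinh r ^ 6 * (diag (ptIn (Real.tanh R ^ 2) W t) t / t ^ 2) =
      margSeven R b W t + betaSeven R b * r := by
    have hl : _root_.Vale.Agent.P219.CH.Relax.Six.Val.lg (Real.tanh R) t = r := htd ▸ log_tc hR r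
    rw [margSeven, margRat, hl, hsh]
    field_simp
    ring
  have e2 : Real.sinh r ^ 6 * slope (ptIn (Real.tanh R ^ 2) W t) t =
      64 * Real.tanh R ^ 6 * aSlope (Real.tanh R ^ 2) W t := by
    rw [aSlope, hsh]
    field_simp
    ring
  have g3 : margSeven R b W c + margSeven R b W d + 2 * betaSeven R b * r ≤ Real.sinh r ^ 6 *
      (tanSum (ptIn (Real.tanh R ^ 2) W t) t (c + d) + slope (ptIn (Real.tanh R ^ 2) W t) t *
        (hLoss q t c * (c - t) ^ 2 + hLoss q t d * (d - t) ^ 2)) := by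
    rw [tanSum, mul_add, mul_add, mul_div_assoc, mul_left_comm, e1,
      ← mul_assoc (Real.sinh r ^ 6) (slope _ t), e2, ← mul_assoc (Real.sinh r ^ 6) (slope _ t), e2]
    linarith
  exact (mul_le_mul_of_nonneg_left g3 hcd).trans_eq (by ring)

/-- Beyond the diameter they are below the tangent at cosine one. -/
lemma pair_out_le (hR : 0 < R) (hs : Base (Real.tanh R ^ 2) b W h h1)
    (hf : CertFacts (Real.tanh R ^ 2) b q W h h1) {r c d : ℝ} (h' : 2 * R < r)
    (hc : c ∈ Ioc (0 : ℝ) 1) (hd : d ∈ Ioc (0 : ℝ) 1) :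
    c * d * (margSeven R b W c + margSeven R b W d + 2 * betaSeven R b * r) ≤
      Real.sinh r ^ 6 * (c * d * tanSum
        (ptFar R (xlOf (Real.tanh R ^ 2) W.V) (kOf (Real.tanh R ^ 2) b) h h1 r) 1 (c + d)) := by
  have hr : 0 < r := by linarith
  have hcd : 0 ≤ c * d := (mul_pos hc.1 hd.1).le
  have hT := tanh_pos hR
  have hsl := hf.slope_out _ _ (Five.outRange hR h'.le)
  have he := tanh_sq_mem hR
  have hj := join_eq hR hs
  obtain ⟨e, hed⟩ : ∃ e, e = Real.tanh R ^ 2 := ⟨_, rfl⟩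
  rw [← hed] at he hj hsl ⊢
  obtain ⟨o, hoo⟩ : ∃ o, o = ptFar R (xlOf e W.V) (kOf e b) h h1 r := ⟨_, rfl⟩
  rw [show ptOut e (xlOf e W.V) (kOf e b) h h1 (pc R r) (gc R r) = o by
    rw [hoo, ptFar, ← hed]] at hsl
  rw [← hoo]
  obtain ⟨L, hL⟩ : ∃ L, L = Real.sinh (2 * R) := ⟨_, rfl⟩
  obtain ⟨s, hsd⟩ : ∃ s, s = Real.sinh r := ⟨_, rfl⟩
  have hs0 : 0 < s := hsd ▸ Real.sinh_pos_iff.2 hr
  have h1e : 0 < 1 - e := sub_pos.2 he.2
  have he0 : 0 < 1 + e := by linarith [he.1]
  have hLe : L = 2 * Real.tanh R / (1 - e) := by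
    rw [hL, hed, GenK.Four.sinh_eq, show 2 * R / 2 = R by ring]
  have hy1 : yf e 1 = 1 - e := by rw [yf]; ring
  have hd1 : diag (ptIn e W 1) 1 = xlOf e W.V := by
    rw [← hj, ptFar, diag_out_one _ (Five.pc_lt_one hR le_rfl), ← hed, hed, ratF_far hR,
      div_self (Real.sinh_pos_iff.2 (by linarith)).ne', XF]
    ring
  have hA1 : margSeven R b W 1 + betaSeven R b * (2 * R) = L ^ 6 * xlOf e W.V := by
    have hl : _root_.Vale.Agent.P219.CH.Relax.Six.Val.lg (Real.tanh R) 1 = 2 * R := by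
      have hl := log_tc hR (2 * R)
      rw [tc_diam hR] at hl
      exact hl
    rw [margSeven, margRat, hl, ← hed, hd1, hy1, hLe]
    field_simp
    ring
  have hK : 0 ≤ kOf e b := by
    rw [kOf]
    exact div_nonneg (mul_nonneg hs.rate_nonneg (pow_nonneg h1e.le 6)) (by linarith)
  have hX : margSeven R b W 1 + betaSeven R b * r ≤ s ^ 6 * diag o 1 := by
    have h'' := affine_le_far (XL := xlOf e W.V) (h := h) (h1 := h1) hR h'.le hK
    have hrate : farRate R (kOf e b) = betaSeven R b := hed ▸ farRate_kOf hR b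
    rw [← hoo, ← hsd, ← hL, hrate] at h''
    linarith
  have hslope : s ^ 6 * slope o 1 ≤ 64 * Real.tanh R ^ 6 * aSlope e W 1 := by
    refine (mul_le_mul_of_nonneg_left hsl (pow_nonneg hs0.le 6)).trans_eq ?_
    rw [hed, ratF_far hR, ← hL, ← hsd, ← hed, aSlope, hy1, hLe]
    field_simp
    ring
  have htan : ∀ x ∈ Ioc (0 : ℝ) 1, margSeven R b W x ≤
      margSeven R b W 1 + 64 * Real.tanh R ^ 6 * aSlope e W 1 * (x - 1) := fun x hx => by
    have h'' := margSeven_le hR hs hf (t := 1) ⟨zero_lt_one, le_rfl⟩ hx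
    have := mul_nonpos_of_nonpos_of_nonneg
      (margSeven_deriv_nonpos hR hf.down ⟨zero_lt_one, le_rfl⟩)
      (mul_nonneg (hLoss_nonneg (t := 1) hf.q_mem ⟨zero_lt_one, le_rfl⟩ (Ioc_subset_Icc_self hx)) (sq_nonneg (x - 1)))
    rw [hed]
    linarith
  have g1 := htan c hc
  have g2 := htan d hd
  have g3 : margSeven R b W c + margSeven R b W d + 2 * betaSeven R b * r ≤
      s ^ 6 * tanSum o 1 (c + d) := by
    have hneg : c + d - 2 ≤ 0 := by linarith [hc.2, hd.2]
    have := mul_le_mul_of_nonpos_right hslope hneg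
    rw [tanSum, one_pow, div_one, mul_one]
    linarith
  rw [← hsd]
  exact (mul_le_mul_of_nonneg_left g3 hcd).trans_eq (by ring)

/-- An inward pair pays its two values and the volume term. -/
lemma pair_facts (hR : 0 < R) (hs : Base (Real.tanh R ^ 2) b W h h1)
    (hf : CertFacts (Real.tanh R ^ 2) b q W h h1) {r c d : ℝ} (hr : 0 < r)
    (hc : c ∈ Ioc (0 : ℝ) 1) (hd : d ∈ Ioc (0 : ℝ) 1) :
    c * d * (margSeven R b W c + margSeven R b W d + 2 * betaSeven R b * r) ≤
      Real.sinh r ^ 6 * symX (ptR R b W h h1 r) c d := by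
  have hS : 0 ≤ Real.sinh r ^ 6 := pow_nonneg (Real.sinh_pos_iff.2 hr).le 6
  rcases le_or_gt r (2 * R) with h' | h'
  · have ht := tc_mem hR ⟨hr, h'⟩
    rw [ptR, if_pos h']
    exact (pair_in_le hR hs hf rfl ht hc hd).trans (mul_le_mul_of_nonneg_left
      (hf.pair_in _ ht c (Ioc_subset_Icc_self hc) d (Ioc_subset_Icc_self hd)) hS)
  · rw [ptR, if_neg (not_le.2 h')]
    exact (pair_out_le hR hs hf h' hc hd).trans (mul_le_mul_of_nonneg_left
      (hf.pair_out _ _ (Five.outRange hR h'.le) c (Ioc_subset_Icc_self hc) d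
        (Ioc_subset_Icc_self hd)) hS)

/-- `sinh r ^ 5` times the weight at cosine zero increases. -/
lemma five_mono (hR : 0 < R) (hs : Base (Real.tanh R ^ 2) b W h h1)
    (hf : CertFacts (Real.tanh R ^ 2) b q W h h1) :
    MonotoneOn (fun r => Real.sinh r ^ 5 * uU R b W h h1 r) (Ioi 0) := by
  have hd : ∀ x, 0 < x → HasDerivAt (fun x => Real.sinh x ^ 5 * uU R b W h h1 x)
      (5 * Real.sinh x ^ 4 * Real.cosh x * uU R b W h h1 x +
        Real.sinh x ^ 5 * (ptR R b W h h1 x).U') x := fun x hx =>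
    (((Real.hasDerivAt_sinh x).pow 5).mul (hasDerivAt_uU hR hs hx).1).congr_deriv (by simp)
  refine monotoneOn_of_deriv_nonneg (convex_Ioi 0)
    (fun x hx => (hd x hx).continuousAt.continuousWithinAt)
    (fun x hx => (hd x (interior_subset hx)).differentiableAt.differentiableWithinAt) fun x hx => ?_
  have hx0 : 0 < x := interior_subset (s := Ioi (0 : ℝ)) hx
  have hsx := Real.sinh_pos_iff.2 hx0
  rw [(hd x hx0).deriv]
  have := mul_nonneg (pow_nonneg hsx.le 5) (gain_at hR hf hx0).1.mono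
  rw [(ptR_pg hR hx0).1, pc] at this
  refine this.trans_eq ?_
  rw [uU]
  field_simp
  ring

/-- The pointwise facts of the profile. -/
theorem facts_seven (hR : 0 < R) (hs : Base (Real.tanh R ^ 2) b W h h1)
    (hf : CertFacts (Real.tanh R ^ 2) b q W h h1) :
    Profile2D.Facts 7 R (aSeven R b W) (betaSeven R b)
      (fun r c => uU R b W h h1 r + c * uG R b W h h1 r)
      (fun r c => (ptR R b W h h1 r).U' + c * (ptR R b W h h1 r).G') (fun r _ => uG R b W h h1 r)
      (fun r _ => 2 * (Real.sinh r ^ 5 * uU R b W h h1 r)) := by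
  have hT := tanh_pos hR
  have hsym : ∀ r : ℝ, 0 < r → ∀ c d : ℝ,
      Profile2D.symU 7 R (fun r c => uU R b W h h1 r + c * uG R b W h h1 r)
        (fun r c => (ptR R b W h h1 r).U' + c * (ptR R b W h h1 r).G') (fun r _ => uG R b W h h1 r) r c d =
        symX (ptR R b W h h1 r) c d := fun r hr c d =>
    symU_eq (b := b) (W := W) (h := h) (h1 := h1) hR hr (gain_at hR hf hr).1.slope_nonpos c d
  have hconv : ∀ r, 0 < r → Real.sinh r ^ 6 * ((ptR R b W h h1 r).g * (ptR R b W h h1 r).U) =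
      Real.sinh r ^ 5 * uU R b W h h1 r := fun r hr => by
    have := (Real.sinh_pos_iff.2 hr).ne'
    rw [(ptR_pg hR hr).2, gc, uU]
    field_simp
  have hweight : ∀ r, 0 < r → ∀ c ∈ Icc (-1 : ℝ) 1,
      0 ≤ (ptR R b W h h1 r).U + c * (ptR R b W h h1 r).G := fun r hr c hc => by
    have g1 := (gain_at hR hf hr).1.weight_pos
    have g2 := (gain_at hR hf hr).1.slope_nonpos
    linarith [mul_le_mul_of_nonpos_right hc.2 g2]
  have hu : ∀ r c, uU R b W h h1 r + c * uG R b W h h1 r =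
      Real.tanh R * ((ptR R b W h h1 r).U + c * (ptR R b W h h1 r).G) := fun r c => by
    rw [uU, uG]; ring
  have hcube : ∀ r, 0 < r → 0 ≤ Real.sinh r ^ 5 * uU R b W h h1 r := fun r hr =>
    mul_nonneg (pow_nonneg (Real.sinh_pos_iff.2 hr).le 5) (mul_nonneg hT.le (by
      simpa using hweight r hr 0 ⟨by norm_num, zero_le_one⟩))
  refine ⟨fun r hr c hc => ?_, fun r hr c hc d hd => ?_, fun r hr c hc d hd => ?_,
    fun r hr c hc d hd => ?_, fun r hr c _ => ?_,
    fun c _ x hx y hy hxy => ?_, fun r hr c hc d hd => ?_, fun r hr c hc d hd => ?_⟩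
  · rw [hu]
    exact mul_nonneg hT.le (hweight r hr c hc)
  · have hg' := (gain_at hR hf hr).1.gain c hc d hd
    rw [hsym r hr, hu, hu, show Real.tanh R * ((ptR R b W h h1 r).U + c * (ptR R b W h h1 r).G) *
        (Real.tanh R * ((ptR R b W h h1 r).U + d * (ptR R b W h h1 r).G)) = Real.tanh R ^ 2 *
          (((ptR R b W h h1 r).U + c * (ptR R b W h h1 r).G) *
            ((ptR R b W h h1 r).U + d * (ptR R b W h h1 r).G)) by ring,
      Real.sqrt_mul (sq_nonneg _), Real.sqrt_sq hT.le]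
    refine hg'.trans_eq ?_
    rw [(ptR_pg hR hr).2, gc]
    ring
  · rw [hsym r hr, aSeven_eq R b W hc, aSeven_eq R b W hd, mul_div_cancel_left₀ _ hc.1.ne',
      mul_div_cancel_left₀ _ hd.1.ne']
    exact pair_facts hR hs hf hr hc hd
  · obtain ⟨g1, g2⟩ := (gain_at hR hf hr).1.mixed c (Ioc_subset_Icc_self hc) d
      (Ioc_subset_Icc_self hd)
    rw [hsym r hr, hsym r hr]
    refine ⟨le_trans (mul_nonneg (mul_nonneg zero_le_two (mul_pos hc.1 hd.1).le)
      (mul_nonneg (gain_at hR hf hr).2 ?_)) g1, g2⟩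
    simpa using hweight r hr 0 ⟨by norm_num, zero_le_one⟩
  · exact mul_nonneg zero_le_two (hcube r hr)
  · exact mul_le_mul_of_nonneg_left (five_mono hR hs hf hx hy hxy) zero_le_two
  · have hcI : c ∈ Icc (-1 : ℝ) 1 := ⟨by linarith [hc.1], hc.2⟩
    have hdI : d ∈ Icc (-1 : ℝ) 1 := ⟨by linarith [hd.1], hd.2⟩
    obtain ⟨⟨h0, h2, -, hgain, -⟩, hg⟩ := gain_at hR hf hr
    have hsq : Real.sqrt (((ptR R b W h h1 r).U + c * (ptR R b W h h1 r).G) *
        ((ptR R b W h h1 r).U + d * (ptR R b W h h1 r).G)) ≤ (ptR R b W h h1 r).U := by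
      have hU : 0 ≤ (ptR R b W h h1 r).U := by linarith
      rw [Real.sqrt_le_iff, sq]
      refine ⟨hU, mul_le_mul ?_ ?_ (hweight r hr d hdI) hU⟩
      · linarith [mul_nonpos_of_nonneg_of_nonpos hc.1.le h2]
      · linarith [mul_nonpos_of_nonneg_of_nonpos hd.1.le h2]
    have hgc := hgain c hcI d hdI
    rw [abs_of_pos (mul_pos hc.1 hd.1)] at hgc
    have h5 := mul_le_mul_of_nonneg_left hsq
      (mul_nonneg (mul_nonneg zero_le_two (mul_pos hc.1 hd.1).le) hg)
    have h6 : -(2 * (c * d) * ((ptR R b W h h1 r).g * (ptR R b W h h1 r).U)) ≤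
        symX (ptR R b W h h1 r) c d := by linarith
    have h7 := mul_le_mul_of_nonneg_left h6 (pow_nonneg (Real.sinh_pos_iff.2 hr).le 6)
    rw [hsym r hr, ← hconv r hr]
    show -(c * d * _) ≤ Real.sinh r ^ 6 * _
    linarith
  · obtain ⟨g1, -⟩ := (gain_at hR hf hr).1.mixed c (Ioc_subset_Icc_self hc) d
      (Ioc_subset_Icc_self hd)
    have h7 := mul_le_mul_of_nonneg_left g1 (pow_nonneg (Real.sinh_pos_iff.2 hr).le 6)
    rw [hsym r hr, ← hconv r hr]
    show c * d * _ ≤ Real.sinh r ^ 6 * _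
    linarith

/-- The certificate against the ball of radius `R`. -/
theorem certAt_seven (hR : 0 < R) (hs : Base (Real.tanh R ^ 2) b W h h1)
    (hf : CertFacts (Real.tanh R ^ 2) b q W h h1) :
    CertAt 7 R (aSeven R b W) (betaSeven R b) := by
  have hT := tanh_pos hR
  refine Profile2D.certAt_of_profile (by norm_num) hR (smooth_seven hR hs) (facts_seven hR hs hf)
    (mul_nonneg (by positivity) hs.rate_nonneg) (measurable_aSeven hR hs)
    (fun c hc => aSeven_nonpos hR hs hf.down hc) ?_ (value_aSeven hR hs hf.down)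
  obtain ⟨M, hM⟩ := isCompact_Icc.exists_bound_of_continuousOn (continuousOn_aSeven hR hs)
  exact ⟨M, fun c hc => (abs_le.1 (hM c hc)).1⟩

/-- Solutions for every `e` give certificates against every ball. -/
theorem cert_seven_of_sol
    (hsol : ∀ e ∈ Ioo (0 : ℝ) 1, ∃ (b q : ℝ) (W : Wt) (h h1 : ℝ → ℝ),
      Base e b W h h1 ∧ CertFacts e b q W h h1) : Cert 7 := by
  intro R hR
  obtain ⟨b, q, W, h, h1, hs, hf⟩ := hsol _ (tanh_sq_mem hR)
  exact ⟨_, _, certAt_seven hR hs hf⟩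

end Vale.Agent.P219.CH.Relax.Seven
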