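import Vale.Agent.P219.Relax.Seven.Tangency
import Vale.Agent.P219.Relax.Seven.ValueSol
import Vale.Agent.P219.Relax.Seven.Loss

/-!
# P219, dimension seven: concavity of the marginal coefficient of the free functions

With fourth derivatives of the free functions the slope of the marginal coefficient is `t * ao + ae`
for explicit functions of `x = t ^ 2`, smooth on the closed interval, so its sign and the concavity
asked of a solution are one inequality each.
-/

noncomputable section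

open Set Filter Topology

namespace Vale.Agent.P219.CH.Relax.Seven

open Five (yf yf_pos)
open _root_.Vale.Agent.P219.CH.Relax.Six (zc zc_pos)

/-- The fourth derivatives of the two free functions. -/
structure Gen.Four (q : Gen) where
  /-- The fourth derivative of the odd one. -/
  C4 : ℝ → ℝ
  /-- The fourth derivative of the even one. -/
  F4 : ℝ → ℝ
  /-- It is the derivative of the third. -/
  dC3 : ∀ x ∈ Icc (0 : ℝ) 1, HasDerivAt q.C3 (C4 x) x
  /-- It is the derivative of the third. -/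
  dF3 : ∀ x ∈ Icc (0 : ℝ) 1, HasDerivAt q.F3 (F4 x) x

namespace Tan

variable {e x : ℝ} {q : Gen}

/-- The fourth derivative of the odd free function. -/
def fa4 (j : q.Four) (x : ℝ) : ℝ := 4 * q.C3 x + x * j.C4 x

/-- The third derivative of the odd source. -/
def rt3 (e : ℝ) (j : q.Four) (x : ℝ) : ℝ :=
  15 * fa3 q x - 3 * q.C3 x - 2 * (1 - x) * fa4 j x - 12 * q.b * e ^ 4 / yl e x ^ 4

/-- The third derivative of the even source. -/
def ro3 (j : q.Four) (x : ℝ) : ℝ :=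
  48 * q.F2 x + (24 * x - 12) * q.F3 x - 2 * x * (1 - x) * j.F4 x

/-- The third derivative of the part of the weight over `x`. -/
def wa3 (e : ℝ) (j : q.Four) (x : ℝ) : ℝ :=
  (yl e x ^ 6 * rt3 e j x - 18 * e * yl e x ^ 5 * rt2 e q x +
    90 * e ^ 2 * yl e x ^ 4 * rt1 e q x - 120 * e ^ 3 * yl e x ^ 3 * rt e q x) / 12

/-- The third derivative of the part of the weight over `t`. -/
def wo3 (e : ℝ) (j : q.Four) (x : ℝ) : ℝ :=
  12 * e ^ 3 / yl e x ^ 4 + (yl e x ^ 6 * ro3 j x - 18 * e * yl e x ^ 5 * ro2 q x +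
    90 * e ^ 2 * yl e x ^ 4 * ro1 q x - 120 * e ^ 3 * yl e x ^ 3 * ro q x) / 12

/-- The product of the two complements. -/
def lc (e x : ℝ) : ℝ := (1 - x) * yl e x

/-- Its derivative. -/
def lc1 (e x : ℝ) : ℝ := -(1 + e) + 2 * e * x

/-- The derivative of the numerator at the contact. -/
def cn1 (e x : ℝ) : ℝ := 5 * e - 11 + 2 * e * x

/-- The first derivative of `ma`. -/
def ma1 (e : ℝ) (q : Gen) (x : ℝ) : ℝ :=
  (lc1 e x * (2 * x * wa1 e q x - 2 * wa e q x) + lc e x * (2 * x * wa2 e q x) +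
    cn1 e x * wa e q x + contactNum e x * wa1 e q x) / 2

/-- Its second derivative. -/
def ma2 (e : ℝ) (j : q.Four) (x : ℝ) : ℝ :=
  (2 * e * (2 * x * wa1 e q x - 2 * wa e q x) + 2 * lc1 e x * (2 * x * wa2 e q x) +
    lc e x * (2 * wa2 e q x + 2 * x * wa3 e j x) + 2 * e * wa e q x +
    2 * cn1 e x * wa1 e q x + contactNum e x * wa2 e q x) / 2

/-- The first derivative of `mo`. -/
def mo1 (e : ℝ) (q : Gen) (x : ℝ) : ℝ :=
  1 + (lc1 e x * (2 * x * wo1 e q x - wo e q x) + lc e x * (wo1 e q x + 2 * x * wo2 e q x) +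
    cn1 e x * wo e q x + contactNum e x * wo1 e q x) / 2

/-- Its second derivative. -/
def mo2 (e : ℝ) (j : q.Four) (x : ℝ) : ℝ :=
  (2 * e * (2 * x * wo1 e q x - wo e q x) + 2 * lc1 e x * (wo1 e q x + 2 * x * wo2 e q x) +
    lc e x * (3 * wo2 e q x + 2 * x * wo3 e j x) + 2 * e * wo e q x +
    2 * cn1 e x * wo1 e q x + contactNum e x * wo2 e q x) / 2

/-- The even part of the slope of the marginal coefficient. -/
def ae (e : ℝ) (q : Gen) (x : ℝ) : ℝ :=
  (ma e q x + 2 * x * ma1 e q x) / yl e x ^ 6 + 12 * e * x * ma e q x / yl e x ^ 7 - q.b / yl e x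

/-- Its derivative. -/
def ae1 (e : ℝ) (j : q.Four) (x : ℝ) : ℝ :=
  (3 * ma1 e q x + 2 * x * ma2 e j x) / yl e x ^ 6 +
    6 * e * (ma e q x + 2 * x * ma1 e q x) / yl e x ^ 7 +
    12 * e * (ma e q x + x * ma1 e q x) / yl e x ^ 7 +
    84 * e ^ 2 * x * ma e q x / yl e x ^ 8 - q.b * e / yl e x ^ 2

/-- The odd part over `t`. -/
def ao (e : ℝ) (q : Gen) (x : ℝ) : ℝ :=
  2 * (mo e q x + x * mo1 e q x) / yl e x ^ 6 + 12 * e * x * mo e q x / yl e x ^ 7

/-- Its derivative. -/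
def ao1 (e : ℝ) (j : q.Four) (x : ℝ) : ℝ :=
  2 * (2 * mo1 e q x + x * mo2 e j x) / yl e x ^ 6 +
    24 * e * (mo e q x + x * mo1 e q x) / yl e x ^ 7 +
    84 * e ^ 2 * x * mo e q x / yl e x ^ 8

lemma deriv_third (he : e ∈ Ioo (0 : ℝ) 1) (hq : q.IsDeriv) (j : q.Four)
    (hx : x ∈ Icc (0 : ℝ) 1) :
    HasDerivAt (wa2 e q) (wa3 e j x) x ∧ HasDerivAt (wo2 e q) (wo3 e j x) x := by
  obtain ⟨-, h1, h2⟩ := deriv_fa hq hx
  obtain ⟨hr0, hr1⟩ := deriv_rt he hq hx
  obtain ⟨hs0, hs1⟩ := deriv_ro hq hx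
  have hy := hasDerivAt_yl e x
  have hy0 := (yl_pos he hx).ne'
  have hid := hasDerivAt_id x
  have h3 : HasDerivAt (fa3 q) (fa4 j x) x := by
    refine (((hq.dC2 x hx).const_mul 3).add (hid.mul (j.dC3 x hx)) :
      HasDerivAt (fa3 q) _ x).congr_deriv ?_
    simp only [fa4, id_eq]; ring
  have hw : HasDerivAt (fun z : ℝ => 2 * (1 - z)) (-2) x :=
    ((hid.const_sub 1).const_mul 2).congr_deriv (by ring)
  have hr2 : HasDerivAt (rt2 e q) (rt3 e j x) x := by
    refine ((((h2.const_mul 13).sub ((hq.dC2 x hx).const_mul 3)).sub (hw.mul h3)).sub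
      ((hasDerivAt_const x (4 * q.b * e ^ 3)).div (hy.pow 3) (pow_ne_zero 3 hy0)) :
        HasDerivAt (rt2 e q) _ x).congr_deriv ?_
    simp only [rt3]
    push_cast
    field_simp
    ring
  have hs2 : HasDerivAt (ro2 q) (ro3 j x) x := by
    refine ((((hq.dF1 x hx).const_mul 28).add
      (((hid.const_mul 20).sub_const 10).mul (hq.dF2 x hx))).sub
        (((hid.const_mul 2).mul (hid.const_sub 1)).mul (j.dF3 x hx)) :
      HasDerivAt (ro2 q) _ x).congr_deriv ?_
    simp only [ro3, id_eq, Pi.mul_apply]; ring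
  constructor
  · refine ((((hy.pow 6).mul hr2).sub (((hy.pow 5).const_mul (12 * e)).mul hr1)).add
      (((hy.pow 4).const_mul (30 * e ^ 2)).mul hr0) |>.div_const 12 :
      HasDerivAt (wa2 e q) _ x).congr_deriv ?_
    simp only [wa3, Pi.pow_apply]
    push_cast
    ring
  · refine (((hasDerivAt_const x (4 * e ^ 2)).div (hy.pow 3) (pow_ne_zero 3 hy0)).add
      (((((hy.pow 6).mul hs2).sub (((hy.pow 5).const_mul (12 * e)).mul hs1)).add
        (((hy.pow 4).const_mul (30 * e ^ 2)).mul hs0)).div_const 12) :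
      HasDerivAt (wo2 e q) _ x).congr_deriv ?_
    simp only [wo3, Pi.pow_apply]
    push_cast
    field_simp
    ring

lemma deriv_lc (e x : ℝ) :
    HasDerivAt (lc e) (lc1 e x) x ∧ HasDerivAt (lc1 e) (2 * e) x ∧
      HasDerivAt (contactNum e) (cn1 e x) x ∧ HasDerivAt (cn1 e) (2 * e) x := by
  have hid := hasDerivAt_id x
  refine ⟨?_, ?_, ?_, ?_⟩
  · refine ((hid.const_sub 1).mul (hasDerivAt_yl e x) : HasDerivAt (lc e) _ x).congr_deriv ?_
    simp only [lc1, id_eq, yl]; ring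
  · refine ((hid.const_mul (2 * e)).const_add _ : HasDerivAt (lc1 e) _ x).congr_deriv ?_
    ring
  · refine (((hid.const_mul (5 * e - 11)).const_add 5).add ((hid.pow 2).const_mul e) :
      HasDerivAt (contactNum e) _ x).congr_deriv ?_
    simp only [cn1, id_eq]
    push_cast
    ring
  · refine ((hid.const_mul (2 * e)).const_add _ : HasDerivAt (cn1 e) _ x).congr_deriv ?_
    ring

lemma deriv_ma_mo (he : e ∈ Ioo (0 : ℝ) 1) (hq : q.IsDeriv) (hx : x ∈ Icc (0 : ℝ) 1) :
    HasDerivAt (ma e q) (ma1 e q x) x ∧ HasDerivAt (mo e q) (mo1 e q x) x := by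
  obtain ⟨hl, -, hn, -⟩ := deriv_lc e x
  obtain ⟨ha, ha1⟩ := deriv_wa he hq hx
  obtain ⟨ho, ho1⟩ := deriv_wo he hq hx
  have hid := hasDerivAt_id x
  constructor
  · refine (((hl.mul (((hid.const_mul 2).mul ha1).sub (ha.const_mul 2))).add (hn.mul ha)).div_const 2
      : HasDerivAt (ma e q) _ x).congr_deriv ?_
    simp only [ma1, Pi.mul_apply, Pi.sub_apply, id_eq]; ring
  · refine (hid.add (((hl.mul (((hid.const_mul 2).mul ho1).sub ho)).add (hn.mul ho)).div_const 2)
      : HasDerivAt (mo e q) _ x).congr_deriv ?_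
    simp only [mo1, Pi.mul_apply, Pi.sub_apply, id_eq]; ring

lemma deriv_ma_mo_one (he : e ∈ Ioo (0 : ℝ) 1) (hq : q.IsDeriv) (j : q.Four)
    (hx : x ∈ Icc (0 : ℝ) 1) :
    HasDerivAt (ma1 e q) (ma2 e j x) x ∧ HasDerivAt (mo1 e q) (mo2 e j x) x := by
  obtain ⟨hl, hl1, hn, hn1⟩ := deriv_lc e x
  obtain ⟨ha, ha1⟩ := deriv_wa he hq hx
  obtain ⟨ho, ho1⟩ := deriv_wo he hq hx
  obtain ⟨ha2, ho2⟩ := deriv_third he hq j hx
  have hid := hasDerivAt_id x
  constructor
  · refine (((((hl1.mul (((hid.const_mul 2).mul ha1).sub (ha.const_mul 2))).add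
      (hl.mul ((hid.const_mul 2).mul ha2))).add (hn1.mul ha)).add (hn.mul ha1)).div_const 2
      : HasDerivAt (ma1 e q) _ x).congr_deriv ?_
    simp only [ma2, Pi.mul_apply, Pi.sub_apply, id_eq]; ring
  · refine ((((((hl1.mul (((hid.const_mul 2).mul ho1).sub ho)).add
      (hl.mul (ho1.add ((hid.const_mul 2).mul ho2)))).add (hn1.mul ho)).add
        (hn.mul ho1)).div_const 2).const_add 1
      : HasDerivAt (mo1 e q) _ x).congr_deriv ?_
    simp only [mo2, Pi.mul_apply, Pi.sub_apply, Pi.add_apply, id_eq]; ring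

lemma deriv_ae_ao (he : e ∈ Ioo (0 : ℝ) 1) (hq : q.IsDeriv) (j : q.Four)
    (hx : x ∈ Icc (0 : ℝ) 1) :
    HasDerivAt (ae e q) (ae1 e j x) x ∧ HasDerivAt (ao e q) (ao1 e j x) x := by
  obtain ⟨ha, ho⟩ := deriv_ma_mo he hq hx
  obtain ⟨ha1, ho1⟩ := deriv_ma_mo_one he hq j hx
  have hy := (yl_pos he hx).ne'
  have hY := hasDerivAt_yl e x
  have hid := hasDerivAt_id x
  constructor
  · refine ((((ha.add ((hid.const_mul 2).mul ha1)).div (hY.pow 6) (pow_ne_zero 6 hy)).add
      (((hid.const_mul (12 * e)).mul ha).div (hY.pow 7) (pow_ne_zero 7 hy))).sub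
      ((hasDerivAt_const x q.b).div hY hy) : HasDerivAt (ae e q) _ x).congr_deriv ?_
    simp only [ae1, Pi.mul_apply, Pi.add_apply, Pi.pow_apply, id_eq]
    push_cast
    field_simp
    ring
  · refine ((((ho.add (hid.mul ho1)).const_mul 2).div (hY.pow 6) (pow_ne_zero 6 hy)).add
      (((hid.const_mul (12 * e)).mul ho).div (hY.pow 7) (pow_ne_zero 7 hy)) :
      HasDerivAt (ao e q) _ x).congr_deriv ?_
    simp only [ao1, Pi.mul_apply, Pi.add_apply, Pi.pow_apply, id_eq]
    push_cast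
    field_simp
    ring

/-- The slope of the marginal coefficient is the explicit one. -/
theorem aSlope_eq (he : e ∈ Ioo (0 : ℝ) 1) (hq : q.IsDeriv) {t : ℝ} (ht : t ∈ Ioc (0 : ℝ) 1) :
    aSlope e (wtOf e q) t = t * ao e q (t ^ 2) + ae e q (t ^ 2) := by
  have hx := sq_mem (Ioc_subset_Icc_self ht)
  have hy := (yl_pos he hx).ne'
  obtain ⟨ha, ho⟩ := deriv_ma_mo he hq hx
  have hd := (((hasDerivAt_pow 2 t).mul (comp_sq ho)).add
    ((hasDerivAt_id t).mul (comp_sq ha))).div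
      ((comp_sq (hasDerivAt_yl e (t ^ 2))).pow 6) (pow_ne_zero 6 hy)
  have hev : margRat e (wtOf e q) =
      fun s => (s ^ 2 * mo e q (s ^ 2) + s * ma e q (s ^ 2)) / yl e (s ^ 2) ^ 6 :=
    funext fun _ => margRat_eq
  have hu := (hev ▸ tangency he hq ht).unique hd
  rw [show yf e t = yl e (t ^ 2) from rfl] at hu
  refine eq_sub_of_add_eq hu |>.trans ?_
  simp only [ao, ae, Pi.mul_apply, Pi.add_apply, Pi.pow_apply, id_eq]
  push_cast
  field_simp
  ring

/-- The marginal coefficient decreases if the explicit slope is nonpositive. -/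
theorem slopeDown_of_sign (he : e ∈ Ioo (0 : ℝ) 1) (hq : q.IsDeriv)
    (hsign : ∀ t ∈ Ioc (0 : ℝ) 1, t * ao e q (t ^ 2) + ae e q (t ^ 2) ≤ 0) :
    SlopeDown e (wtOf e q) := by
  intro t ht
  have h := hsign t ht
  rw [← aSlope_eq he hq ht, aSlope] at h
  exact nonpos_of_mul_nonpos_right h
    (div_pos (pow_pos ht.1 6) (pow_pos (yf_pos he (Ioc_subset_Icc_self ht)) 6))

/-- Concavity in the sense of the certificate, from one inequality. -/
theorem conc_of_deriv (he : e ∈ Ioo (0 : ℝ) 1) (hq : q.IsDeriv) (j : q.Four) {c : ℝ}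
    (hc : c ∈ Ico (0 : ℝ) 1)
    (hsign : ∀ t ∈ Ioo (0 : ℝ) 1, 0 ≤ c * t * (3 + c * t ^ 2) *
        (t * ao e q (t ^ 2) + ae e q (t ^ 2)) - zc c t * nq c t *
        (ao e q (t ^ 2) + 2 * t ^ 2 * ao1 e j (t ^ 2) + 2 * t * ae1 e j (t ^ 2))) :
    MonotoneOn (fun t => -aSlope e (wtOf e q) t * phi c t) (Ioc 0 1) := by
  have hderiv : ∀ t ∈ Ioc (0 : ℝ) 1, HasDerivAt
      (fun t => -(t * ao e q (t ^ 2) + ae e q (t ^ 2)) * phi c t)
      (zc c t / nq c t ^ 2 * (c * t * (3 + c * t ^ 2) *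
        (t * ao e q (t ^ 2) + ae e q (t ^ 2)) - zc c t * nq c t *
        (ao e q (t ^ 2) + 2 * t ^ 2 * ao1 e j (t ^ 2) + 2 * t * ae1 e j (t ^ 2)))) t := by
    intro t ht
    obtain ⟨ha, ho⟩ := deriv_ae_ao he hq j (sq_mem (Ioc_subset_Icc_self ht))
    have hn := (nq_pos c t).ne'
    have hz : HasDerivAt (zc c) (-(c * (2 * t))) t :=
      (((hasDerivAt_pow 2 t).const_mul c).const_sub 1).congr_deriv (by push_cast; ring)
    have hnd : HasDerivAt (nq c) (-(c * t) + 2 * c ^ 2 * t ^ 3) t := by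
      refine (((((hasDerivAt_pow 2 t).const_mul c).div_const 2).const_sub 1).add
        (((hasDerivAt_pow 4 t).const_mul (c ^ 2)).div_const 2) :
          HasDerivAt (nq c) _ t).congr_deriv ?_
      push_cast
      ring
    refine ((((hasDerivAt_id t).mul (comp_sq ho)).add (comp_sq ha)).neg.mul
      ((hz.pow 2).div hnd hn) : HasDerivAt _ _ t).congr_deriv ?_
    simp only [Pi.neg_apply, Pi.add_apply, Pi.mul_apply, Pi.pow_apply, Pi.div_apply, id_eq]
    push_cast
    field_simp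
    simp only [zc, nq]
    ring
  have hmono : MonotoneOn (fun t => -(t * ao e q (t ^ 2) + ae e q (t ^ 2)) * phi c t)
      (Ioc 0 1) := by
    refine monotoneOn_of_deriv_nonneg (convex_Ioc 0 1)
      (fun t ht => (hderiv t ht).continuousAt.continuousWithinAt)
      (fun t ht => (hderiv t (interior_subset ht)).differentiableAt.differentiableWithinAt) ?_
    intro t ht
    rw [(hderiv t (interior_subset ht)).deriv]
    rw [interior_Ioc] at ht
    exact mul_nonneg (div_nonneg (zc_pos hc (Ioo_subset_Icc_self ht)).le (sq_nonneg _))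
      (hsign t ht)
  intro s hs u hu hsu
  simp only [aSlope_eq he hq hs, aSlope_eq he hq hu]
  exact hmono hs hu hsu

end Tan

end Vale.Agent.P219.CH.Relax.Seven
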