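import Vale.Agent.P219.Relax.Seven.InPt
import Vale.Agent.P219.Relax.Five.Strict

/-!
# P219, dimension seven: the pair conditions from the facts at one distance

For `c + d ≤ 1` the bound with the mean of the two squared sines is affine in the product, so the
diagonal and the side give the line. For `c + d > 1` the pieces of `InPt` give it.
-/

noncomputable section

open Set

namespace Vale.Agent.P219.CH.Relax.Seven

open Five (Pt affine_nonneg one_sub_sq_nonneg)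
open _root_.Vale.Agent.P219.CH.Relax.Six (zc zc_pos)

variable {o : Pt} {q t c d : ℝ}

lemma hLoss_mono (hq : q ∈ Ico (0 : ℝ) 1) (ht : t ∈ Ioc (0 : ℝ) 1) {x y : ℝ} (hx : 0 ≤ x)
    (hxy : x ≤ y) (hy : y ≤ 1) : hLoss q t x ≤ hLoss q t y := by
  have hzy := zc_pos hq (x := y) ⟨hx.trans hxy, hy⟩
  have hn := nq_pos q t
  have hz : zc q y ≤ zc q x := by
    rw [zc, zc]
    linarith [mul_le_mul_of_nonneg_left (pow_le_pow_left₀ hx hxy 2) hq.1]
  have hq0 := hq.1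
  have ht0 := ht.1
  have hy0 := hx.trans hxy
  rw [hLoss, hLoss]
  refine div_le_div₀ (by positivity) ?_ (mul_pos hn hzy) (mul_le_mul_of_nonneg_left hz hn.le)
  exact mul_le_mul_of_nonneg_left (add_le_add (add_le_add le_rfl hxy)
    (mul_le_mul_of_nonneg_left hxy (by positivity))) (by positivity)

lemma symX_comm (o : Pt) (c d : ℝ) : symX o c d = symX o d c := by
  simp only [symX]
  ring

/-! ## The line -/

lemma ker_add_eq (o : Pt) (c d : ℝ) :
    2 + ker o c d + ker o d c = kLine o (c + d) (c * d) := by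
  simp only [ker, kLine]
  ring

lemma symB_line (o : Pt) {c d : ℝ} (hc : 0 ≤ c) (hd : 0 ≤ d) :
    Five.symB (outFive o) c d = kLine o (c + d) (c * d) +
      o.g * o.G * (c + d) * (1 - (c + d) ^ 2 / 2 + c * d) := by
  rw [Five.symB, ker_outFive, ker_outFive, ker_add_eq, abs_of_nonneg hc, abs_of_nonneg hd]
  simp only [outFive]
  ring

lemma kLine_diag (o : Pt) (m : ℝ) :
    kLine o (2 * m) (m * m) + o.g * o.G * (2 * m) * (1 - m * m) = 2 * diag o m := by
  simp only [kLine, diag, k0, k1, k2, k3]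
  ring

lemma plain_diag (h0 : 0 ≤ k0 o) (h1 : 0 ≤ (2 + t) * k0 o + t * k1 o) (ht : 0 < t) {m : ℝ}
    (hm : m ∈ Icc (0 : ℝ) 1) : 0 ≤ 2 * diag o m - m * m * tanSum o t (2 * m) := by
  have e : 2 * diag o m - m * m * tanSum o t (2 * m) = 2 * ((m - t) ^ 2 *
      ((1 - m) * (k0 o * t) + m * ((2 + t) * k0 o + t * k1 o)) / t ^ 3) := by
    rw [tanSum, slope, diag, diag]
    field_simp
    ring
  rw [e]
  have := mul_nonneg (sub_nonneg.2 hm.2) (mul_nonneg h0 ht.le)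
  have := mul_nonneg hm.1 h1
  positivity

/-- Coordinates on a line above one. -/
lemma exists_line (hc : c ∈ Icc (0 : ℝ) 1) (hd : d ∈ Icc (0 : ℝ) 1) (hdc : d ≤ c)
    (hs : 1 < c + d) :
    ∃ r ∈ Icc (0 : ℝ) 1, c = (c + d) / 2 + r * (2 - (c + d)) / 2 ∧
      d = (c + d) / 2 - r * (2 - (c + d)) / 2 := by
  rcases eq_or_lt_of_le (show c + d ≤ 2 by linarith [hc.2, hd.2]) with h2 | h2
  · exact ⟨0, ⟨le_rfl, zero_le_one⟩, by linarith [hc.2, hd.2], by linarith [hc.2, hd.2]⟩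
  have hX : 0 < 2 - (c + d) := sub_pos.2 h2
  refine ⟨(c - d) / (2 - (c + d)), ⟨div_nonneg (sub_nonneg.2 hdc) hX.le, ?_⟩, ?_, ?_⟩
  · rw [div_le_one hX]
    linarith [hc.2]
  · rw [div_mul_cancel₀ _ hX.ne']
    ring
  · rw [div_mul_cancel₀ _ hX.ne']
    ring

variable {s r : ℝ}

/-- The root on a line: below the product of the two bounds, strictly off the diagonal. -/
lemma root_line {μ : ℝ} (hμ : 0 < μ) (hc : c ∈ Icc (0 : ℝ) 1) (hd : d ∈ Icc (0 : ℝ) 1)
    (hs : s = c + d) (hr : r ∈ Icc (0 : ℝ) 1) (hcd : c - d = r * (2 - s)) :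
    Real.sqrt ((1 - c) * (1 - d)) ≤ rootLine μ s (r ^ 2) ∧
      Real.sqrt (1 - c ^ 2) * Real.sqrt (1 - d ^ 2) =
        Real.sqrt ((1 + c) * (1 + d)) * Real.sqrt ((1 - c) * (1 - d)) ∧
      Real.sqrt ((1 + c) * (1 + d)) ≤ (2 + s) / 2 := by
  have hX : 0 ≤ 2 - s := by linarith [hc.2, hd.2]
  have hk : 0 ≤ 1 - r ^ 2 := sub_nonneg.2 (pow_le_one₀ hr.1 hr.2)
  have hxy : (1 - c) * (1 - d) = (1 - r ^ 2) * ((2 - s) / 2) ^ 2 := by
    linear_combination (-1 / 4 : ℝ) * (c - d + r * (2 - s)) * hcd +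
      (-1 / 4 : ℝ) * ((1 - c) + (1 - d) + (2 - s)) * (-hs)
  refine ⟨?_, ?_, ?_⟩
  · rw [hxy, Real.sqrt_mul hk, Real.sqrt_sq (by linarith)]
    have h1 : 2 * Real.sqrt (1 - r ^ 2) ≤ μ + (1 - r ^ 2) / μ := by
      have e : μ + (1 - r ^ 2) / μ - 2 * Real.sqrt (1 - r ^ 2) =
          (μ - Real.sqrt (1 - r ^ 2)) ^ 2 / μ := by
        have h' := Real.sq_sqrt hk
        field_simp
        linear_combination -h'
      linarith [div_nonneg (sq_nonneg (μ - Real.sqrt (1 - r ^ 2))) hμ.le]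
    rw [rootLine]
    linarith [mul_le_mul_of_nonneg_right h1 (show 0 ≤ (2 - s) / 4 by linarith)]
  · have h1 : (1 - c ^ 2) * (1 - d ^ 2) = (1 + c) * (1 + d) * ((1 - c) * (1 - d)) := by ring
    rw [← Real.sqrt_mul (one_sub_sq_nonneg ⟨by linarith [hc.1], hc.2⟩), h1,
      Real.sqrt_mul (by nlinarith [hc.1, hd.1])]
  · refine Real.sqrt_le_iff.2 ⟨by linarith [hc.1, hd.1], ?_⟩
    rw [hs]
    linarith [sq_nonneg (c - d)]

lemma pi_line (hs : s = c + d) (hcd : c - d = r * (2 - s)) : c * d = piLine s (r ^ 2) := by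
  rw [piLine, hs]
  subst hs
  linear_combination (-1 / 4 : ℝ) * (c - d + r * (2 - (c + d))) * hcd

/-- Two values give an affine row between them. -/
lemma gainRow_nonneg {μ r₀ r₁ w : ℝ} (h0 : 0 ≤ gainRow o μ r₁ s (r₀ ^ 2))
    (h1 : 0 ≤ gainRow o μ r₁ s (r₁ ^ 2)) (hw0 : r₀ ^ 2 ≤ w) (hw1 : w ≤ r₁ ^ 2) :
    0 ≤ gainRow o μ r₁ s w := by
  have e : ∀ w, gainRow o μ r₁ s w = gainRow o μ r₁ s 0 +
      (gainRow o μ r₁ s 1 - gainRow o μ r₁ s 0) * w := fun w => by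
    simp only [gainRow, kLine, piLine, rootLine]
    ring
  rw [e] at h0 h1 ⊢
  exact affine_nonneg hw0 hw1 h0 h1

lemma InPt.gain_high (h : InPt q o t) (hg : 0 ≤ o.g) (hc : c ∈ Icc (0 : ℝ) 1)
    (hd : d ∈ Icc (0 : ℝ) 1) (hdc : d ≤ c) (hs : 1 < c + d) :
    0 ≤ symX o c d + 2 * (c * d) * (o.g * Real.sqrt ((o.U + c * o.G) * (o.U + d * o.G))) := by
  obtain ⟨r, hr, hc', hd'⟩ := exists_line hc hd hdc hs
  obtain ⟨s, hs'⟩ : ∃ s, s = c + d := ⟨_, rfl⟩
  rw [← hs'] at hc' hd' hs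
  have hcd : c - d = r * (2 - s) := by linarith
  have hs2 : s ∈ Icc (1 : ℝ) 2 := ⟨hs.le, by linarith [hc.2, hd.2]⟩
  obtain ⟨r₀, r₁, μ, hP, hr0, hr1, hμ, hr₁⟩ : ∃ r₀ r₁ μ : ℝ, (r₀, r₁, μ) ∈ gainPieces ∧
      r₀ ^ 2 ≤ r ^ 2 ∧ r ^ 2 ≤ r₁ ^ 2 ∧ 0 < μ ∧ r ≤ r₁ := by
    rcases le_total r (4 / 5) with h1 | h1
    · exact ⟨0, 4 / 5, 1, by simp [gainPieces], by simpa using sq_nonneg r,
        pow_le_pow_left₀ hr.1 h1 2, one_pos, h1⟩
    rcases le_total r (97 / 100) with h2 | h2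
    · exact ⟨4 / 5, 97 / 100, 7 / 15, by simp [gainPieces],
        pow_le_pow_left₀ (by norm_num) h1 2, pow_le_pow_left₀ hr.1 h2 2, by norm_num, h2⟩
    · exact ⟨97 / 100, 1, 1 / 10, by simp [gainPieces], pow_le_pow_left₀ (by norm_num) h2 2,
        pow_le_pow_left₀ hr.1 hr.2 2, by norm_num, hr.2⟩
  obtain ⟨g0, g1⟩ := h.gain_rows _ hP s hs2
  have hrow := gainRow_nonneg g0 g1 hr0 hr1
  obtain ⟨hq', hqq, hA⟩ := root_line hμ hc hd hs' hr hcd
  obtain ⟨Q, hQ⟩ : ∃ Q, Q = Real.sqrt ((1 - c) * (1 - d)) := ⟨_, rfl⟩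
  rw [← hQ] at hq' hqq
  have hQ0 : 0 ≤ Q := hQ ▸ Real.sqrt_nonneg _
  have hQ2 : Q ^ 2 = (1 - c) * (1 - d) :=
    hQ ▸ Real.sq_sqrt (mul_nonneg (sub_nonneg.2 hc.2) (sub_nonneg.2 hd.2))
  have hG := h.slope_nonpos
  have hU := h.weight_pos
  have hsq : o.U + o.G + -o.G * Q ≤ Real.sqrt ((o.U + c * o.G) * (o.U + d * o.G)) := by
    refine Real.le_sqrt_of_sq_le ?_
    have h2Q : 2 * Q ≤ (1 - c) + (1 - d) := by
      refine (pow_le_pow_iff_left₀ (by positivity) (by linarith [hc.2, hd.2]) two_ne_zero).1 ?_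
      linarith [hQ2, sq_nonneg (c - d)]
    have := mul_le_mul_of_nonneg_left h2Q (mul_nonneg hU.le (neg_nonneg.2 hG))
    linear_combination this + o.G ^ 2 * hQ2
  have hπ := pi_line hs' hcd
  have hπ0 : piLine s (r₁ ^ 2) ≤ c * d := by
    rw [hπ, piLine, piLine]
    linarith [mul_le_mul_of_nonneg_right hr1 (sq_nonneg (2 - s))]
  have hs0 : 0 ≤ s := by linarith
  have hgG : o.g * o.G ≤ 0 := mul_nonpos_of_nonneg_of_nonpos hg hG
  have hfl : o.g * o.G * s * ((2 + s) / 2) * Q ≤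
      o.g * o.G * s * (Real.sqrt (1 - c ^ 2) * Real.sqrt (1 - d ^ 2)) := by
    rw [hqq]
    linarith [mul_le_mul_of_nonpos_left hA
      (mul_nonpos_of_nonpos_of_nonneg (mul_nonpos_of_nonpos_of_nonneg hgG hs0) hQ0)]
  have hgain : 2 * (c * d) * (o.g * (o.U + o.G)) + 2 * piLine s (r₁ ^ 2) * (o.g * (-o.G * Q)) ≤
      2 * (c * d) * (o.g * Real.sqrt ((o.U + c * o.G) * (o.U + d * o.G))) := by
    have h1 := mul_le_mul_of_nonneg_left hsq
      (mul_nonneg (mul_nonneg zero_le_two (mul_nonneg hc.1 hd.1)) hg)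
    have h2 := mul_le_mul_of_nonneg_left hπ0
      (mul_nonneg zero_le_two (mul_nonneg hg (mul_nonneg (neg_nonneg.2 hG) hQ0)))
    linarith
  have hK : 0 ≤ s * ((2 + s) / 2) - 2 * piLine s (r₁ ^ 2) := by
    rw [piLine]
    linarith [mul_nonneg (sq_nonneg r₁) (sq_nonneg (2 - s))]
  have hroot := mul_le_mul_of_nonpos_left hq' (mul_nonpos_of_nonpos_of_nonneg hgG hK)
  rw [symX, ker_add_eq, abs_of_nonneg hc.1, abs_of_nonneg hd.1, ← hs', hπ]
  rw [gainRow] at hrow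
  rw [hπ] at hgain
  linarith

/-! ## The gain -/

lemma InPt.gain_low (h : InPt q o t) (hc : c ∈ Icc (0 : ℝ) 1) (hd : d ∈ Icc (0 : ℝ) 1)
    (hs : c + d ≤ 1) :
    0 ≤ Five.symB (outFive o) c d + 2 * (c * d) * (o.g * (o.U + o.G)) := by
  obtain ⟨m, hm⟩ : ∃ m, m = (c + d) / 2 := ⟨_, rfl⟩
  have hm0 : m ∈ Icc (0 : ℝ) (1 / 2) := ⟨by linarith [hc.1, hd.1], by linarith⟩
  obtain ⟨A, B, hAB⟩ : ∃ A B, ∀ x y : ℝ, 0 ≤ x → 0 ≤ y → x + y = c + d →
      Five.symB (outFive o) x y + 2 * (x * y) * (o.g * (o.U + o.G)) = A + B * (x * y) := by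
    refine ⟨kLine o (c + d) 0 + o.g * o.G * (c + d) * (1 - (c + d) ^ 2 / 2),
      kLine o (c + d) 1 - kLine o (c + d) 0 + o.g * o.G * (c + d) + 2 * (o.g * (o.U + o.G)),
      fun x y hx hy hxy => ?_⟩
    rw [symB_line o hx hy, hxy]
    simp only [kLine]
    ring
  have h0 := hAB (c + d) 0 (by linarith [hc.1, hd.1]) le_rfl (add_zero _)
  have hz := h.zero (c + d) ⟨by linarith [hc.1, hd.1], hs⟩
  have hD := hAB m m hm0.1 hm0.1 (by linarith)
  have hgd := h.gain_diag m hm0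
  rw [symB_line o hm0.1 hm0.1, show m + m = 2 * m by ring,
    show (1 : ℝ) - (2 * m) ^ 2 / 2 + m * m = 1 - m * m by ring] at hD
  rw [hAB c d hc.1 hd.1 rfl]
  have hπ : c * d ≤ m * m := by rw [hm]; linarith [sq_nonneg (c - d)]
  refine affine_nonneg (mul_nonneg hc.1 hd.1) hπ ?_ ?_
  · simp only [mul_zero, zero_mul, add_zero] at h0 ⊢
    linarith
  · linarith [kLine_diag o m]

/-- The kernel is negative by at most the gain, for every sign. -/
theorem InPt.gain (h : InPt q o t) (hg : 0 ≤ o.g) (hc : c ∈ Icc (-1 : ℝ) 1)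
    (hd : d ∈ Icc (-1 : ℝ) 1) :
    0 ≤ symX o c d +
      2 * |c * d| * (o.g * Real.sqrt ((o.U + c * o.G) * (o.U + d * o.G))) := by
  have hG := h.slope_nonpos
  have hU := h.weight_pos
  have hG5 : (outFive o).G ≤ 0 := by simp only [outFive]; linarith
  have hg5 : 0 ≤ (outFive o).g := mul_nonneg (by norm_num) hg
  have hX := Five.symB_le_symX hG5 hg5 hc hd
  rw [symX_outFive] at hX
  have hgain : 0 ≤ 2 * |c * d| * (o.g * Real.sqrt ((o.U + c * o.G) * (o.U + d * o.G))) :=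
    mul_nonneg (by positivity) (mul_nonneg hg (Real.sqrt_nonneg _))
  have hgU : 0 ≤ o.g * o.U := mul_nonneg hg (by linarith)
  rcases le_total 0 c with hc0 | hc0 <;> rcases le_total 0 d with hd0 | hd0
  · rw [abs_of_nonneg (mul_nonneg hc0 hd0)]
    rcases le_or_gt (c + d) 1 with hs | hs
    · have h1 := h.gain_low ⟨hc0, hc.2⟩ ⟨hd0, hd.2⟩ hs
      have hx : ∀ x : ℝ, x ≤ 1 → o.U + o.G ≤ o.U + x * o.G := fun x hx => by
        linarith [mul_le_mul_of_nonpos_right hx hG]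
      have hsU : o.U + o.G ≤ Real.sqrt ((o.U + c * o.G) * (o.U + d * o.G)) :=
        Real.le_sqrt_of_sq_le (by
          rw [sq]
          exact mul_le_mul (hx c hc.2) (hx d hd.2) hU.le (hU.le.trans (hx c hc.2)))
      have := mul_le_mul_of_nonneg_left hsU
        (mul_nonneg (mul_nonneg zero_le_two (mul_nonneg hc0 hd0)) hg)
      linarith
    rcases le_total d c with hdc | hdc
    · exact h.gain_high hg ⟨hc0, hc.2⟩ ⟨hd0, hd.2⟩ hdc hs
    · have := h.gain_high hg ⟨hd0, hd.2⟩ ⟨hc0, hc.2⟩ hdc (by linarith)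
      rw [symX_comm, mul_comm c d, mul_comm (o.U + c * o.G)]
      exact this
  · have h1 := h.mixed c ⟨hc0, hc.2⟩ (-d) ⟨by linarith, by linarith [hd.1]⟩
    rw [neg_neg] at h1
    have := mul_nonneg (mul_nonneg hc0 (neg_nonneg.2 hd0)) hgU
    linarith
  · have h1 := h.mixed d ⟨hd0, hd.2⟩ (-c) ⟨by linarith, by linarith [hc.1]⟩
    rw [neg_neg] at h1
    have hs : Five.symB (outFive o) d c = Five.symB (outFive o) c d := by
      simp only [Five.symB]
      ring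
    rw [hs] at h1
    have := mul_nonneg (mul_nonneg hd0 (neg_nonneg.2 hc0)) hgU
    linarith
  · have h1 := h.outward (-c) ⟨by linarith, by linarith [hc.1]⟩ (-d)
      ⟨by linarith, by linarith [hd.1]⟩
    rw [neg_neg, neg_neg] at h1
    linarith

/-- Everything the gain and the mixed pairs need. -/
theorem InPt.gainPt (h : InPt q o t) (hg : 0 ≤ o.g) : GainPt o where
  weight_pos := h.weight_pos
  slope_nonpos := h.slope_nonpos
  mono := h.mono
  gain _ hc _ hd := h.gain hg hc hd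
  mixed c hc d hd := by
    have hn : ∀ x : ℝ, x ∈ Icc (0 : ℝ) 1 → x ∈ Icc (-1 : ℝ) 1 ∧ -x ∈ Icc (-1 : ℝ) 1 :=
      fun x hx => ⟨⟨by linarith [hx.1], hx.2⟩, by linarith [hx.2], by linarith [hx.1]⟩
    have hG5 : (outFive o).G ≤ 0 := by simp only [outFive]; linarith [h.slope_nonpos]
    have hg5 : 0 ≤ (outFive o).g := mul_nonneg (by norm_num) hg
    rw [← symX_outFive, ← symX_outFive]
    exact ⟨(h.mixed c hc d hd).trans (Five.symB_le_symX hG5 hg5 (hn c hc).1 (hn d hd).2),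
      (h.outward c hc d hd).trans (Five.symB_le_symX hG5 hg5 (hn c hc).2 (hn d hd).2)⟩

/-! ## The pair bound -/

/-- A row quadratic in `r`, affine in `(r, r ^ 2)`, from its three coefficients on a piece. -/
lemma pairRow_nonneg {μ r₀ r₁ R hA hB : ℝ} (h0 : 0 ≤ pairRow o t μ R hA hB s r₀ (r₀ ^ 2))
    (h1 : 0 ≤ pairRow o t μ R hA hB s ((r₀ + r₁) / 2) (r₀ * r₁))
    (h2 : 0 ≤ pairRow o t μ R hA hB s r₁ (r₁ ^ 2)) (ha : r₀ ≤ r) (hb : r ≤ r₁) :
    0 ≤ pairRow o t μ R hA hB s r (r ^ 2) := by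
  rcases eq_or_lt_of_le (ha.trans hb) with h | h
  · rwa [show r = r₀ by linarith]
  have e : (r₁ - r₀) ^ 2 * pairRow o t μ R hA hB s r (r ^ 2) =
      (r₁ - r) ^ 2 * pairRow o t μ R hA hB s r₀ (r₀ ^ 2) +
      2 * (r - r₀) * (r₁ - r) * pairRow o t μ R hA hB s ((r₀ + r₁) / 2) (r₀ * r₁) +
      (r - r₀) ^ 2 * pairRow o t μ R hA hB s r₁ (r₁ ^ 2) := by
    simp only [pairRow, kLine, piLine, rootLine, lossLine]
    ring
  refine nonneg_of_mul_nonneg_right ?_ (pow_pos (sub_pos.2 h) 2)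
  rw [e]
  have := sub_nonneg.2 ha
  have := sub_nonneg.2 hb
  positivity

/-- The value of a bound that the pair bound passes through. -/
lemma InPt.pair_bound (h : InPt q o t) (hq : q ∈ Ico (0 : ℝ) 1) (ht : t ∈ Ioc (0 : ℝ) 1)
    (hg : 0 ≤ o.g) (hc : c ∈ Icc (0 : ℝ) 1) (hd : d ∈ Icc (0 : ℝ) 1) (hdc : d ≤ c) :
    ∃ L : ℝ, c * d * (tanSum o t (c + d) +
        slope o t * (hLoss q t c * (c - t) ^ 2 + hLoss q t d * (d - t) ^ 2)) ≤ L ∧
      L ≤ symX o c d ∧ (o.G < 0 → 0 < o.g → c ≠ d → L < symX o c d) := by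
  have hG := h.slope_nonpos
  have hw : 0 ≤ -slope o t := neg_nonneg.2 h.down
  have hlc := hLoss_nonneg hq ht hc
  have hld := hLoss_nonneg hq ht hd
  rcases le_or_gt (c + d) 1 with hs | hs
  · have hG5 : (outFive o).G ≤ 0 := by simp only [outFive]; linarith
    have hg5 : 0 ≤ (outFive o).g := mul_nonneg (by norm_num) hg
    have hci : c ∈ Icc (-1 : ℝ) 1 := ⟨by linarith [hc.1], hc.2⟩
    have hdi : d ∈ Icc (-1 : ℝ) 1 := ⟨by linarith [hd.1], hd.2⟩
    refine ⟨Five.symB (outFive o) c d, ?_, ?_, fun hn hgp hne => ?_⟩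
    · obtain ⟨A, B, hAB⟩ : ∃ A B, ∀ x y : ℝ, 0 ≤ x → 0 ≤ y → x + y = c + d →
          Five.symB (outFive o) x y - x * y * tanSum o t (c + d) = A + B * (x * y) := by
        refine ⟨kLine o (c + d) 0 + o.g * o.G * (c + d) * (1 - (c + d) ^ 2 / 2),
          kLine o (c + d) 1 - kLine o (c + d) 0 + o.g * o.G * (c + d) - tanSum o t (c + d),
          fun x y hx hy hxy => ?_⟩
        rw [symB_line o hx hy, hxy]
        simp only [kLine]
        ring
      obtain ⟨m, hm⟩ : ∃ m, m = (c + d) / 2 := ⟨_, rfl⟩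
      have hm0 : 0 ≤ m := by linarith [hc.1, hd.1]
      have h0 := hAB (c + d) 0 (by linarith [hc.1, hd.1]) le_rfl (add_zero _)
      have hz := h.zero (c + d) ⟨by linarith [hc.1, hd.1], hs⟩
      have hD := hAB m m hm0 hm0 (by linarith)
      have hp := plain_diag h.conv₀ h.conv₁ ht.1 (m := m) ⟨hm0, by linarith⟩
      rw [symB_line o hm0 hm0, show m + m = 2 * m by ring,
        show (1 : ℝ) - (2 * m) ^ 2 / 2 + m * m = 1 - m * m by ring, kLine_diag] at hD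
      have hmm : c + d = 2 * m := by linarith
      rw [hmm] at hD
      have hπ : c * d ≤ m * m := by rw [hm]; linarith [sq_nonneg (c - d)]
      have := affine_nonneg (mul_nonneg hc.1 hd.1) hπ (α := A) (β := B)
        (by simp only [mul_zero, zero_mul, add_zero, sub_zero] at h0 ⊢; linarith) (by linarith)
      rw [← hAB c d hc.1 hd.1 rfl] at this
      have : 0 ≤ -slope o t * (c * d) *
          (hLoss q t c * (c - t) ^ 2 + hLoss q t d * (d - t) ^ 2) := by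
        have := mul_nonneg hw (mul_nonneg hc.1 hd.1)
        exact mul_nonneg this (by positivity)
      linarith
    · rw [← symX_outFive]
      exact Five.symB_le_symX hG5 hg5 hci hdi
    · rw [← symX_outFive]
      refine Five.Strictly.symB_lt_symX ?_ (mul_pos (by norm_num) hgp) hci hdi ?_
      · simp only [outFive]
        linarith
      · rwa [abs_of_nonneg hc.1, abs_of_nonneg hd.1]
  obtain ⟨r, hr, hc', hd'⟩ := exists_line hc hd hdc hs
  obtain ⟨s, hs'⟩ : ∃ s, s = c + d := ⟨_, rfl⟩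
  rw [← hs'] at hc' hd' hs ⊢
  have hcd : c - d = r * (2 - s) := by linarith
  have hs2 : s ∈ Icc (1 : ℝ) 2 := ⟨hs.le, by linarith [hc.2, hd.2]⟩
  have hX : 0 ≤ 2 - s := by linarith [hs2.2]
  have hπ := pi_line hs' hcd
  obtain ⟨μ, R, hA, hB, hμ, hrow, hR, hπR, hAc, hBd⟩ : ∃ μ R hA hB : ℝ, 0 < μ ∧
      0 ≤ pairRow o t μ R hA hB s r (r ^ 2) ∧ 0 ≤ piLine s (R ^ 2) ∧
      piLine s (R ^ 2) ≤ c * d ∧ hA ≤ hLoss q t c ∧ hB ≤ hLoss q t d := by
    have low : ∀ R : ℝ, 0 ≤ R → R ≤ 1 → r ≤ R → 0 ≤ piLine s (R ^ 2) ∧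
        piLine s (R ^ 2) ≤ c * d ∧ 0 ≤ s / 2 - R * (2 - s) / 2 ∧
        hDn q t s R ≤ hLoss q t d := fun R h0 h1 hrR => by
      have a1 : R * (2 - s) ≤ 1 * (2 - s) := mul_le_mul_of_nonneg_right h1 hX
      have a2 : r * (2 - s) ≤ R * (2 - s) := mul_le_mul_of_nonneg_right hrR hX
      refine ⟨?_, ?_, by linarith, hLoss_mono hq ht (by linarith) (by linarith) hd.2⟩
      · rw [piLine, ← mul_pow]
        have := pow_le_pow_left₀ (mul_nonneg h0 hX) (show R * (2 - s) ≤ s by linarith) 2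
        linarith [mul_pow R (2 - s) 2]
      · rw [hπ, piLine, piLine]
        linarith [mul_le_mul_of_nonneg_right (pow_le_pow_left₀ hr.1 hrR 2) (sq_nonneg (2 - s))]
    by_cases h1 : r ≤ 3 / 5
    · obtain ⟨p0, p1, p2, p3⟩ := low (3 / 5) (by norm_num) (by norm_num) h1
      refine ⟨1, 3 / 5, hDn q t s (3 / 5), hDn q t s (3 / 5), one_pos, ?_, p0, p1,
        p3.trans (hLoss_mono hq ht hd.1 hdc hc.2), p3⟩
      have e : ∀ l w, pairRow o t 1 (3 / 5) (hDn q t s (3 / 5)) (hDn q t s (3 / 5)) s l w =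
          pairRow o t 1 (3 / 5) (hDn q t s (3 / 5)) (hDn q t s (3 / 5)) s 0 0 +
            (pairRow o t 1 (3 / 5) (hDn q t s (3 / 5)) (hDn q t s (3 / 5)) s 0 1 -
              pairRow o t 1 (3 / 5) (hDn q t s (3 / 5)) (hDn q t s (3 / 5)) s 0 0) * w :=
          fun l w => by
        simp only [pairRow, kLine, piLine, rootLine, lossLine]
        ring
      have h0 : 0 ≤ pairRow o t 1 (3 / 5) (hDn q t s (3 / 5)) (hDn q t s (3 / 5)) s 0 0 := by
        obtain ⟨m, hm⟩ : ∃ m, s = 2 * m := ⟨s / 2, by ring⟩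
        have hp := plain_diag h.conv₀ h.conv₁ ht.1 (m := m)
          ⟨by linarith, by linarith [hs2.2]⟩
        have hh0 : 0 ≤ hDn q t s (3 / 5) :=
          hLoss_nonneg hq ht ⟨p2, by linarith [hs2.2, hX]⟩
        have : 0 ≤ -slope o t * piLine s ((3 / 5) ^ 2) *
            ((hDn q t s (3 / 5) + hDn q t s (3 / 5)) * (s / 2 - t) ^ 2) := by
          have := mul_nonneg hw p0
          positivity
        rw [← kLine_diag] at hp
        rw [hm] at this ⊢
        simp only [pairRow, lossLine, rootLine]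
        rw [show piLine (2 * m) 0 = m * m by rw [piLine]; ring]
        linarith
      have h1' := h.pair_first s hs2
      rw [e] at h1' ⊢
      exact affine_nonneg (sq_nonneg r) (pow_le_pow_left₀ hr.1 h1 2) (by linarith) h1'
    obtain ⟨r₀, r₁, μ, hP, ha, hb, hμ, h0, h1'⟩ : ∃ r₀ r₁ μ : ℝ, (r₀, r₁, μ) ∈ pairPieces ∧
        r₀ ≤ r ∧ r ≤ r₁ ∧ 0 < μ ∧ 0 ≤ r₀ ∧ r₁ ≤ 1 := by
      rcases le_total r (9 / 10) with h2 | h2
      · exact ⟨3 / 5, 9 / 10, 2 / 3, by simp [pairPieces], by linarith, h2, by norm_num,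
          by norm_num, by norm_num⟩
      rcases le_total r (49 / 50) with h3 | h3
      · exact ⟨9 / 10, 49 / 50, 1 / 3, by simp [pairPieces], h2, h3, by norm_num, by norm_num,
          by norm_num⟩
      · exact ⟨49 / 50, 1, 1 / 10, by simp [pairPieces], h3, hr.2, by norm_num, by norm_num,
          le_rfl⟩
    obtain ⟨p0, p1, p2, p3⟩ := low r₁ (by linarith) h1' hb
    obtain ⟨g0, g1, g2⟩ := h.pair_rows _ hP s hs2
    refine ⟨μ, r₁, hUp q t s r₀, hDn q t s r₁, hμ, pairRow_nonneg g0 g1 g2 ha hb, p0, p1, ?_, p3⟩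
    have a1 : r₀ * (2 - s) ≤ r * (2 - s) := mul_le_mul_of_nonneg_right ha hX
    exact hLoss_mono hq ht (by linarith [mul_nonneg h0 hX]) (by linarith) hc.2
  obtain ⟨hq', hqq, hAB⟩ := root_line hμ hc hd hs' hr hcd
  have hgG : o.g * o.G * s ≤ 0 :=
    mul_nonpos_of_nonpos_of_nonneg (mul_nonpos_of_nonneg_of_nonpos hg hG) (by linarith)
  have hQ0 := Real.sqrt_nonneg ((1 - c) * (1 - d))
  have hprod : Real.sqrt (1 - c ^ 2) * Real.sqrt (1 - d ^ 2) ≤
      (2 + s) / 2 * rootLine μ s (r ^ 2) := by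
    rw [hqq]
    exact mul_le_mul hAB hq' hQ0 (by linarith)
  refine ⟨kLine o s (c * d) + o.g * o.G * s * ((2 + s) / 2 * rootLine μ s (r ^ 2)), ?_, ?_,
    fun hn hgp hne => ?_⟩
  · have hl : lossLine hA hB t s r (r ^ 2) = hA * (c - t) ^ 2 + hB * (d - t) ^ 2 := by
      rw [lossLine, hc', hd']
      ring
    have hs0 : 0 ≤ hLoss q t c * (c - t) ^ 2 + hLoss q t d * (d - t) ^ 2 := by positivity
    have h1 := mul_le_mul_of_nonneg_left (add_le_add
      (mul_le_mul_of_nonneg_right hAc (sq_nonneg (c - t)))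
      (mul_le_mul_of_nonneg_right hBd (sq_nonneg (d - t)))) hR
    have h2 := mul_le_mul_of_nonneg_right hπR hs0
    have h3 := mul_le_mul_of_nonneg_left (h1.trans h2) hw
    rw [pairRow, hl, ← hπ] at hrow
    linarith
  · rw [symX, ker_add_eq, abs_of_nonneg hc.1, abs_of_nonneg hd.1, ← hs']
    linarith [mul_le_mul_of_nonpos_left hprod hgG]
  · rw [symX, ker_add_eq, abs_of_nonneg hc.1, abs_of_nonneg hd.1, ← hs']
    have hlt : Real.sqrt (1 - c ^ 2) * Real.sqrt (1 - d ^ 2) <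
        (2 + s) / 2 * rootLine μ s (r ^ 2) := by
      have hA' : Real.sqrt ((1 + c) * (1 + d)) < (2 + s) / 2 := by
        rw [Real.sqrt_lt' (by linarith [hc.1, hd.1]), hs']
        linarith [pow_two_pos_of_ne_zero (sub_ne_zero.2 hne)]
      have hX' : 0 < 2 - s := by
        refine hX.lt_of_ne fun h0 => hne ?_
        rw [← h0, mul_zero] at hcd
        linarith
      have hpos : 0 < rootLine μ s (r ^ 2) := by
        rw [rootLine]
        have := sub_nonneg.2 (pow_le_one₀ (n := 2) hr.1 hr.2)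
        positivity
      rw [hqq]
      rcases hQ0.eq_or_lt with h0 | h0
      · rw [← h0, mul_zero]
        have : 0 < (2 + s) / 2 := by linarith
        positivity
      · exact mul_lt_mul hA' hq' h0 (by linarith)
    have hneg : o.g * o.G * s < 0 :=
      mul_neg_of_neg_of_pos (mul_neg_of_pos_of_neg hgp hn) (by linarith)
    linarith [mul_lt_mul_of_neg_left hlt hneg]

/-- The pair bound, with the loss of the two tangents. -/
theorem InPt.pair (h : InPt q o t) (hq : q ∈ Ico (0 : ℝ) 1) (ht : t ∈ Ioc (0 : ℝ) 1)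
    (hg : 0 ≤ o.g) (hc : c ∈ Icc (0 : ℝ) 1) (hd : d ∈ Icc (0 : ℝ) 1) :
    c * d * (tanSum o t (c + d) +
        slope o t * (hLoss q t c * (c - t) ^ 2 + hLoss q t d * (d - t) ^ 2)) ≤ symX o c d := by
  rcases le_total d c with hdc | hdc
  · obtain ⟨L, h1, h2, -⟩ := h.pair_bound hq ht hg hc hd hdc
    exact h1.trans h2
  · obtain ⟨L, h1, h2, -⟩ := h.pair_bound hq ht hg hd hc hdc
    rw [symX_comm, add_comm c d, mul_comm c d,
      add_comm (hLoss q t c * (c - t) ^ 2) (hLoss q t d * (d - t) ^ 2)]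
    exact h1.trans h2

/-- The pair bound is strict for two different cosines. -/
theorem InPt.pair_lt (h : InPt q o t) (hq : q ∈ Ico (0 : ℝ) 1) (ht : t ∈ Ioc (0 : ℝ) 1)
    (hn : o.G < 0) (hg : 0 < o.g) (hc : c ∈ Icc (0 : ℝ) 1) (hd : d ∈ Icc (0 : ℝ) 1)
    (hne : c ≠ d) :
    c * d * (tanSum o t (c + d) +
        slope o t * (hLoss q t c * (c - t) ^ 2 + hLoss q t d * (d - t) ^ 2)) < symX o c d := by
  rcases le_total d c with hdc | hdc
  · obtain ⟨L, h1, -, h3⟩ := h.pair_bound hq ht hg.le hc hd hdc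
    exact h1.trans_lt (h3 hn hg hne)
  · obtain ⟨L, h1, -, h3⟩ := h.pair_bound hq ht hg.le hd hc hdc
    rw [symX_comm, add_comm c d, mul_comm c d,
      add_comm (hLoss q t c * (c - t) ^ 2) (hLoss q t d * (d - t) ^ 2)]
    exact h1.trans_lt (h3 hn hg hne.symm)

end Vale.Agent.P219.CH.Relax.Seven
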