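import Vale.Agent.P219.Relax.Seven.Sym
import Vale.Agent.P219.Relax.Five.Algebra

/-!
# P219, dimension seven: the facts beyond the diameter from linear bounds

With the weight scaled by `3 / 2` the kernel of dimension seven is that of dimension five at another
point, so the reduction of dimension five applies; its hypotheses follow from linear bounds in
`U + G`, `-G`, `U' + G'` and `G'`.
-/

noncomputable section

open Set

namespace Vale.Agent.P219.CH.Relax.Seven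

open Five (Pt)

/-- The point of dimension five with the same kernel. -/
def outFive (o : Pt) : Pt where
  U := 3 / 2 * o.U
  U' := o.U' + o.p * o.U / 2
  G := 3 / 2 * o.G
  G' := o.G' + o.p * o.G / 2
  p := o.p
  g := 2 / 3 * o.g

lemma ker_outFive (o : Pt) (c d : ℝ) : Five.ker (outFive o) c d = ker o c d := by
  simp only [Five.ker, ker, outFive]
  ring

lemma symX_outFive (o : Pt) (c d : ℝ) : Five.symX (outFive o) c d = symX o c d := by
  simp only [Five.symX, symX, ker_outFive]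
  simp only [outFive]
  ring

lemma coef_outFive (o : Pt) : Five.k0 (outFive o) = k0 o ∧ Five.k1 (outFive o) = k1 o ∧
    Five.k2 (outFive o) = k2 o ∧ Five.k3 (outFive o) = k3 o := by
  simp only [Five.k0, Five.k1, Five.k2, Five.k3, k0, k1, k2, k3, outFive]
  refine ⟨?_, ?_, ?_, ?_⟩ <;> ring

lemma diag_outFive (o : Pt) (c : ℝ) : Five.diag (outFive o) c = diag o c := by
  obtain ⟨h0, h1, h2, h3⟩ := coef_outFive o
  rw [Five.diag, diag, h0, h1, h2, h3]

lemma slope_outFive (o : Pt) (c : ℝ) : Five.slope (outFive o) c = slope o c := by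
  obtain ⟨h0, h1, -, h3⟩ := coef_outFive o
  rw [Five.slope, slope, h0, h1, h3]

/-- Linear bounds on the data of a point. -/
structure OutRaw (o : Pt) : Prop where
  g_nonneg : 0 ≤ o.g
  g_le : o.g ≤ 1 / 2
  p_nonneg : 0 ≤ o.p
  p_le : o.p ≤ 1
  pos : 0 < o.U + o.G
  nonpos : o.G ≤ 0
  v_le : o.G' ≤ o.p * -o.G
  w_mono : 0 ≤ o.U' + o.G' + 5 / 2 * o.p * (o.U + o.G)
  w_zero : 0 ≤ o.U' + o.G' + (3 - o.p) * (o.U + o.G)
  mid : 0 ≤ 2 + (o.U' + o.G') + (11 * o.p - 6) * (o.U + o.G) - (6 - 6 * o.p + o.g) * -o.G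
  cross : (6 * (1 - o.p) + 5 / 2 * o.g) * -o.G ≤ (6 - 2 * o.g) * (o.U + o.G)
  cross_w : (6 * (1 - o.p) + 5 / 2 * o.g) * -o.G ≤
    (6 + o.p - 2 * o.g) * (o.U + o.G) - (o.U' + o.G')
  top : 0 ≤ 1 - 6 * (1 - o.p) * (o.U + o.G) + o.g * (o.U + o.G)
  convex : 0 ≤ 3 + 3 * (o.U' + o.G') - 2 * o.G' + (15 * o.p - 6) * (o.U + o.G) +
    (10 * o.p - 6 - o.g) * -o.G
  slope_le : slope o 1 ≤ 0

variable {o : Pt}

lemma diag_at_one (o : Pt) : diag o 1 = 1 - 6 * (1 - o.p) * (o.U + o.G) := by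
  simp only [diag, k0, k1, k2, k3]
  ring

lemma OutRaw.endc (h : OutRaw o) : Five.EndCond (outFive o) 1 := by
  intro c hc
  obtain ⟨hc0, hc1⟩ := hc
  have e : Five.symE (outFive o) c -
      c * (2 * Five.diag (outFive o) 1 / 1 ^ 2 + Five.slope (outFive o) 1 * (c + 1 - 2 * 1)) =
      (1 - c) * ((1 - c) * (2 + (o.U' + o.G') + (11 * o.p - 6) * (o.U + o.G) -
          (6 - 6 * o.p + o.g) * -o.G) + o.g * -o.G * ((2 * c + 2) / (3 + c))) := by
    have : (3 : ℝ) + c ≠ 0 := by linarith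
    rw [diag_outFive, slope_outFive]
    simp only [Five.symE, Five.ker, diag, slope, k0, k1, k2, k3, outFive]
    field_simp
    ring
  have h1 : 0 ≤ o.g * -o.G * ((2 * c + 2) / (3 + c)) :=
    mul_nonneg (mul_nonneg h.g_nonneg (neg_nonneg.2 h.nonpos))
      (div_nonneg (by linarith) (by linarith))
  linarith [mul_nonneg (sub_nonneg.2 hc1)
    (add_nonneg (mul_nonneg (sub_nonneg.2 hc1) h.mid) h1)]

lemma OutRaw.zero' (h : OutRaw o) {c : ℝ} (hc : c ∈ Icc (0 : ℝ) 1) :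
    0 ≤ Five.symB (outFive o) c 0 := by
  obtain ⟨u, hu⟩ : ∃ u, u = o.U + o.G := ⟨_, rfl⟩
  obtain ⟨H, hH⟩ : ∃ H, H = -o.G := ⟨_, rfl⟩
  obtain ⟨w, hw⟩ : ∃ w, w = o.U' + o.G' := ⟨_, rfl⟩
  obtain ⟨hg0, hg1, hp0, hp1, hpos, hneg, hv, -, hz, hm, -, -, -, -, -⟩ := h
  rw [← hu] at hpos hz hm
  rw [← hH] at hv hm
  rw [← hw] at hz hm
  obtain ⟨hc0, hc1⟩ := hc
  have hH0 : 0 ≤ H := by linarith
  have e : Five.symB (outFive o) c 0 =
      (2 + w + (11 * o.p - 6) * u - (6 - 6 * o.p + o.g) * H + o.g * H / 2) +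
        (1 - c) * ((1 + c) * w - (2 + c) * o.G' + (u + H) * (6 - o.p - o.p * c) + 5 * o.p * H +
          o.g * H * (1 - c - c ^ 2) / 2) := by
    simp only [Five.symB, Five.ker, outFive, abs_of_nonneg hc0, abs_zero, hu, hH, hw]
    ring
  have hpH : 0 ≤ o.p * H := mul_nonneg hp0 hH0
  have hgH : 0 ≤ o.g * H := mul_nonneg hg0 hH0
  have a2 : (2 + c) * o.G' ≤ (2 + c) * (o.p * H) := mul_le_mul_of_nonneg_left hv (by linarith)
  have a3 := mul_le_mul_of_nonneg_right hc1 hpH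
  have a5 : 0 ≤ o.g * H * ((2 - c - c ^ 2) / 2) := by
    have : 0 ≤ (2 - c - c ^ 2) / 2 := by nlinarith
    positivity
  have a6 := mul_nonneg (sub_nonneg.2 hc1) hpos.le
  have a7 := mul_nonneg hc0 hz
  have a8 := mul_nonneg (sub_nonneg.2 hc1) hz
  have a9 := mul_le_mul_of_nonneg_right hg1 hH0
  have key : 0 ≤ (1 + c) * w - (2 + c) * o.G' + (u + H) * (6 - o.p - o.p * c) + 5 * o.p * H +
      o.g * H * (1 - c - c ^ 2) / 2 := by linarith
  rw [e]
  linarith [mul_nonneg (sub_nonneg.2 hc1) key]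

lemma OutRaw.mixed' (h : OutRaw o) {c d : ℝ} (hc : c ∈ Icc (0 : ℝ) 1) (hd : d ∈ Icc (0 : ℝ) 1) :
    2 * (c * d) * ((outFive o).g * (outFive o).U) ≤ Five.symB (outFive o) c (-d) := by
  have hzero := h.zero' hc
  obtain ⟨u, hu⟩ : ∃ u, u = o.U + o.G := ⟨_, rfl⟩
  obtain ⟨H, hH⟩ : ∃ H, H = -o.G := ⟨_, rfl⟩
  obtain ⟨w, hw⟩ : ∃ w, w = o.U' + o.G' := ⟨_, rfl⟩
  obtain ⟨hg0, -, hp0, hp1, hpos, hneg, hv, -, -, -, hcr, hcw, -, -, -⟩ := h
  rw [← hu] at hpos hcr hcw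
  rw [← hH] at hv hcr hcw
  rw [← hw] at hcw
  have hH0 : 0 ≤ H := by linarith
  obtain ⟨hc0, hc1⟩ := hc
  obtain ⟨hd0, hd1⟩ := hd
  have e : Five.symB (outFive o) c (-d) - 2 * (c * d) * ((outFive o).g * (outFive o).U) =
      Five.symB (outFive o) c 0 + d * (-(d * w) -
        o.G' * ((1 - c) * (1 + c - d)) + u * (o.p * d + 6 - 2 * o.g * c) +
        H * (o.p * d + 6 + o.p * (5 + c ^ 2 - c * d) - 12 * c -
          o.g * (1 - c ^ 2 / 2 - d ^ 2 / 2 - c * d / 2) - 2 * o.g * c)) := by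
    simp only [Five.symB, Five.ker, outFive, abs_of_nonneg hc0, abs_neg, abs_of_nonneg hd0,
      abs_zero, hu, hH, hw]
    ring
  have hpH : 0 ≤ o.p * H := mul_nonneg hp0 hH0
  have hk : 0 ≤ (1 - c) * (1 + c - d) := mul_nonneg (sub_nonneg.2 hc1) (by linarith)
  have a1 := mul_le_mul_of_nonneg_right hcw hd0
  have a1' := mul_le_mul_of_nonneg_right hcr (sub_nonneg.2 hd1)
  have a2 := mul_le_mul_of_nonneg_right hv hk
  have a4 := mul_le_mul_of_nonneg_right hc1 (mul_nonneg hg0 hpos.le)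
  have a5 := mul_le_mul_of_nonneg_left (show 1 + c - d ≤ 2 by linarith)
      (mul_nonneg (sub_nonneg.2 hc1) hpH)
  have a6 : 0 ≤ o.g * H * ((1 - c) * (3 - c) / 2 + d ^ 2 / 2 + c * d / 2) := by
    have : 0 ≤ (1 - c) * (3 - c) / 2 := by nlinarith
    have : 0 ≤ (1 - c) * (3 - c) / 2 + d ^ 2 / 2 + c * d / 2 := by
      linarith [sq_nonneg d, mul_nonneg hc0 hd0]
    positivity
  have a8 := mul_le_mul_of_nonneg_left (mul_le_of_le_one_left hH0 hp1) (sub_nonneg.2 hc1)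
  have a9 := mul_nonneg (sub_nonneg.2 hc1) hH0
  have key : 0 ≤ -(d * w) - o.G' * ((1 - c) * (1 + c - d)) +
      u * (o.p * d + 6 - 2 * o.g * c) + H * (o.p * d + 6 + o.p * (5 + c ^ 2 - c * d) - 12 * c -
        o.g * (1 - c ^ 2 / 2 - d ^ 2 / 2 - c * d / 2) - 2 * o.g * c) := by
    linarith
  linarith [mul_nonneg hd0 key]

lemma OutRaw.outward' (h : OutRaw o) {c d : ℝ} (hc : c ∈ Icc (0 : ℝ) 1) (hd : d ∈ Icc (0 : ℝ) 1) :
    0 ≤ Five.symB (outFive o) (-c) (-d) := by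
  obtain ⟨u, hu⟩ : ∃ u, u = o.U + o.G := ⟨_, rfl⟩
  obtain ⟨H, hH⟩ : ∃ H, H = -o.G := ⟨_, rfl⟩
  obtain ⟨w, hwd⟩ : ∃ w, w = o.U' + o.G' := ⟨_, rfl⟩
  obtain ⟨hg0, hg1, hp0, -, hpos, hneg, hv, hw, -, -, -, -, -, -, -⟩ := h
  rw [← hu] at hpos hw
  rw [← hH] at hv
  rw [← hwd] at hw
  have hH0 : 0 ≤ H := by linarith
  obtain ⟨hc0, hc1⟩ := hc
  obtain ⟨hd0, hd1⟩ := hd
  have e : Five.symB (outFive o) (-c) (-d) = 2 + (2 - c ^ 2 - d ^ 2) * w -
      o.G' * ((2 - c ^ 2 - d ^ 2) + (c + d) * (1 - c * d)) +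
      u * (o.p * (10 + c ^ 2 + d ^ 2) + 6 * (c + d)) +
      H * (o.p * (10 + c ^ 2 + d ^ 2) + 6 * (c + d) + o.p * (c + d) * (5 + c * d) + 12 * (c * d) -
        o.g * (c + d) * (1 - (c ^ 2 + d ^ 2) / 2)) := by
    simp only [Five.symB, Five.ker, outFive, abs_neg, abs_of_nonneg hc0, abs_of_nonneg hd0,
      hu, hH, hwd]
    ring
  have hpu : 0 ≤ o.p * u := mul_nonneg hp0 hpos.le
  have hpH : 0 ≤ o.p * H := mul_nonneg hp0 hH0
  have hc2 : c ^ 2 ≤ 1 := pow_le_one₀ hc0 hc1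
  have hd2 : d ^ 2 ≤ 1 := pow_le_one₀ hd0 hd1
  have hcd : c * d ≤ 1 := mul_le_one₀ hc1 hd0 hd1
  have hS : 0 ≤ 2 - c ^ 2 - d ^ 2 := by linarith
  have a1 := mul_nonneg hS hw
  have a1' := mul_nonneg (show 0 ≤ c ^ 2 + d ^ 2 by positivity) hpu
  have hk : 0 ≤ (2 - c ^ 2 - d ^ 2) + (c + d) * (1 - c * d) :=
    add_nonneg hS (mul_nonneg (by linarith) (by linarith))
  have hk' : (2 - c ^ 2 - d ^ 2) + (c + d) * (1 - c * d) ≤ 2 + (c + d) := by
    linarith [mul_nonneg (add_nonneg hc0 hd0) (mul_nonneg hc0 hd0), sq_nonneg c, sq_nonneg d]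
  have a2 := mul_le_mul_of_nonneg_right hv hk
  have a2' := mul_le_mul_of_nonneg_right hk' hpH
  have a4 := mul_nonneg (show 0 ≤ c ^ 2 + d ^ 2 by positivity) hpH
  have a5 := mul_nonneg (add_nonneg hc0 hd0) hpos.le
  have a6 := mul_nonneg (mul_nonneg (add_nonneg hc0 hd0) (mul_nonneg hc0 hd0)) hpH
  have a6' := mul_nonneg (add_nonneg hc0 hd0) hpH
  have a7 := mul_nonneg (mul_nonneg hc0 hd0) hH0
  have a8 : o.g * (c + d) * (1 - (c ^ 2 + d ^ 2) / 2) * H ≤ (c + d) * H := by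
    have h1 : o.g * (1 - (c ^ 2 + d ^ 2) / 2) ≤ 1 := by
      linarith [mul_nonneg hg0 (show 0 ≤ c ^ 2 + d ^ 2 by positivity)]
    linarith [mul_le_mul_of_nonneg_left h1 (mul_nonneg (add_nonneg hc0 hd0) hH0)]
  have a9 := mul_nonneg (add_nonneg hc0 hd0) hH0
  linarith

lemma OutRaw.good (h : OutRaw o) : Five.GoodPt (outFive o) := by
  obtain ⟨f0, f1, -, -⟩ := coef_outFive o
  have hk0 : 0 ≤ Five.k0 (outFive o) := by
    rw [f0, k0]
    linarith [h.w_mono, h.v_le, mul_nonneg h.p_nonneg (neg_nonneg.2 h.nonpos),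
      mul_nonneg h.p_nonneg h.pos.le]
  have hk1 : 0 ≤ 3 * Five.k0 (outFive o) + Five.k1 (outFive o) := by
    rw [f0, f1, k0, k1]
    linarith [h.convex]
  have htan : ∀ c ∈ Icc (0 : ℝ) 1, c ^ 2 * (Five.diag (outFive o) 1 +
      Five.slope (outFive o) 1 * (c - 1)) ≤ Five.diag (outFive o) c := by
    intro c hc
    have e : Five.diag (outFive o) c - c ^ 2 * (Five.diag (outFive o) 1 +
        Five.slope (outFive o) 1 * (c - 1)) = (1 - c) ^ 2 * ((1 - c) * Five.k0 (outFive o) +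
          c * (3 * Five.k0 (outFive o) + Five.k1 (outFive o))) := by
      simp only [Five.diag, Five.slope]
      ring
    have := mul_nonneg (sq_nonneg (1 - c))
      (add_nonneg (mul_nonneg (sub_nonneg.2 hc.2) hk0) (mul_nonneg hc.1 hk1))
    linarith
  refine ⟨?_, ?_, ?_, hk0, hk1, fun c hc => h.zero' hc, ?_, ?_,
    fun c hc d hd => h.mixed' hc hd, fun c hc d hd => h.outward' hc hd⟩
  · simp only [outFive]
    linarith [h.pos]
  · simp only [outFive]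
    linarith [h.nonpos]
  · simp only [outFive]
    linarith [h.w_mono, h.v_le, mul_nonneg h.p_nonneg (neg_nonneg.2 h.nonpos),
      mul_nonneg h.p_nonneg h.pos.le]
  · intro c hc
    have h1 := htan c hc
    rw [diag_outFive o 1, diag_at_one, slope_outFive] at h1
    obtain ⟨hc0, hc1⟩ := hc
    have h2 := mul_nonneg (sq_nonneg c) h.top
    have h3 := mul_nonneg (sq_nonneg c)
      (mul_nonneg_of_nonpos_of_nonpos h.slope_le (sub_nonpos.2 hc1))
    simp only [outFive] at h1 ⊢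
    linarith
  · intro c hc
    have h1 := h.endc c hc
    rw [diag_outFive o 1, diag_at_one, slope_outFive] at h1
    obtain ⟨hc0, hc1⟩ := hc
    have h2 := mul_nonneg hc0 h.top
    have h3 := mul_nonneg hc0 (mul_nonneg_of_nonpos_of_nonpos h.slope_le (sub_nonpos.2 hc1))
    simp only [outFive] at h1 ⊢
    linarith

/-- The gain and the mixed pairs. -/
theorem OutRaw.gainPt (h : OutRaw o) : GainPt o := by
  have hg := h.good
  have hg5 : 0 ≤ (outFive o).g := mul_nonneg (by norm_num) h.g_nonneg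
  refine ⟨h.pos, h.nonpos,
    by linarith [h.w_mono, h.v_le, mul_nonneg h.p_nonneg (neg_nonneg.2 h.nonpos),
      mul_nonneg h.p_nonneg h.pos.le], ?_, ?_⟩
  · intro c hc d hd
    have h5 := hg.gain hg5 hc hd
    rw [symX_outFive] at h5
    simp only [outFive] at h5
    rw [show (3 / 2 * o.U + c * (3 / 2 * o.G)) * (3 / 2 * o.U + d * (3 / 2 * o.G)) =
        (3 / 2) ^ 2 * ((o.U + c * o.G) * (o.U + d * o.G)) by ring,
      Real.sqrt_mul (sq_nonneg _), Real.sqrt_sq (by norm_num)] at h5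
    linarith
  · intro c hc d hd
    have h5 := hg.mixed_le hg5 hc hd
    rw [symX_outFive, symX_outFive] at h5
    simp only [outFive] at h5
    exact ⟨by linarith [h5.1], h5.2⟩

/-- The pair bound from the tangent at cosine one. -/
theorem OutRaw.pair (h : OutRaw o) {c d : ℝ} (hc : c ∈ Icc (0 : ℝ) 1) (hd : d ∈ Icc (0 : ℝ) 1) :
    c * d * tanSum o 1 (c + d) ≤ symX o c d := by
  have h5 := h.good.pair (show 0 ≤ (outFive o).g from mul_nonneg (by norm_num) h.g_nonneg)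
    ⟨zero_lt_one, le_rfl⟩ h.endc hc hd
  rw [symX_outFive, diag_outFive, slope_outFive] at h5
  exact h5

end Vale.Agent.P219.CH.Relax.Seven
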