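import Vale.Agent.P219.Relax.Seven.Loss
import Vale.Agent.P219.Relax.Seven.OutGood

/-!
# P219, dimension seven: the facts at one distance inside the diameter

On a line `c + d = s > 1` put `c - d = r * (2 - s)`. The root of `(1 - c) * (1 - d)` lies below
`(2 - s) / 4 * (μ + (1 - r ^ 2) / μ)` for every `μ > 0`; with one `μ` on each of a few intervals of
`r` the gain and the pair bound are affine in `(r, r ^ 2)`, so they follow from two or three values.
-/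

noncomputable section

open Set

namespace Vale.Agent.P219.CH.Relax.Seven

open Five (Pt)

/-- The symmetrised kernel without the root on a line, by the product of the cosines. -/
def kLine (o : Pt) (s π : ℝ) : ℝ :=
  2 + (2 - s ^ 2 + 2 * π) * o.U' + (s - s * π) * o.G' +
    o.p * (o.U * (10 + s ^ 2 - 2 * π) + o.G * (5 * s + s * π)) - 6 * (o.U * s + 2 * o.G * π)

/-- The product of the cosines at `r ^ 2 = w`. -/
def piLine (s w : ℝ) : ℝ := s ^ 2 / 4 - w * (2 - s) ^ 2 / 4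

/-- The bound of the root of `(1 - c) * (1 - d)` at `r ^ 2 = w`. -/
def rootLine (μ s w : ℝ) : ℝ := (2 - s) / 4 * (μ + (1 - w) / μ)

/-- The gain row of a piece ending at `r₁`. -/
def gainRow (o : Pt) (μ r₁ s w : ℝ) : ℝ :=
  kLine o s (piLine s w) + 2 * piLine s w * (o.g * (o.U + o.G)) +
    o.g * o.G * (s * ((2 + s) / 2) - 2 * piLine s (r₁ ^ 2)) * rootLine μ s w

/-- The loss of the two tangents at `(r, r ^ 2) = (l, w)` with the weights of the piece. -/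
def lossLine (hA hB t s l w : ℝ) : ℝ :=
  (hA + hB) * ((s / 2 - t) ^ 2 + w * (2 - s) ^ 2 / 4) + (hA - hB) * ((s / 2 - t) * (2 - s) * l)

/-- The pair row of a piece ending at `r₁`, with the weights `hA, hB` of the loss. -/
def pairRow (o : Pt) (t μ r₁ hA hB s l w : ℝ) : ℝ :=
  kLine o s (piLine s w) - piLine s w * tanSum o t s +
    o.g * o.G * (s * ((2 + s) / 2)) * rootLine μ s w -
    slope o t * piLine s (r₁ ^ 2) * lossLine hA hB t s l w

/-- The pieces of the gain: start, end and the weight of the mean. -/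
def gainPieces : List (ℝ × ℝ × ℝ) := [(0, 4 / 5, 1), (4 / 5, 97 / 100, 7 / 15), (97 / 100, 1, 1 / 10)]

/-- The pieces of the pair bound after the first, which ends at `3 / 5`. -/
def pairPieces : List (ℝ × ℝ × ℝ) :=
  [(3 / 5, 9 / 10, 2 / 3), (9 / 10, 49 / 50, 1 / 3), (49 / 50, 1, 1 / 10)]

/-- The weight of the loss at the larger cosine of a point. -/
def hUp (q t s r : ℝ) : ℝ := hLoss q t (s / 2 + r * (2 - s) / 2)

/-- The weight of the loss at the smaller cosine. -/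
def hDn (q t s r : ℝ) : ℝ := hLoss q t (s / 2 - r * (2 - s) / 2)

/-- The facts at one distance inside the diameter, with contact `t`; all are linear in the weight and
its derivative. -/
structure InPt (q : ℝ) (o : Pt) (t : ℝ) : Prop where
  weight_pos : 0 < o.U + o.G
  slope_nonpos : o.G ≤ 0
  mono : 0 ≤ o.U' + 5 * o.p * o.U
  conv₀ : 0 ≤ k0 o
  conv₁ : 0 ≤ (2 + t) * k0 o + t * k1 o
  down : slope o t ≤ 0
  zero : ∀ c ∈ Icc (0 : ℝ) 1, 0 ≤ Five.symB (outFive o) c 0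
  gain_diag : ∀ c ∈ Icc (0 : ℝ) (1 / 2), 0 ≤ diag o c + c ^ 2 * (o.g * (o.U + o.G))
  mixed : ∀ c ∈ Icc (0 : ℝ) 1, ∀ d ∈ Icc (0 : ℝ) 1,
    2 * (c * d) * (o.g * o.U) ≤ Five.symB (outFive o) c (-d)
  outward : ∀ c ∈ Icc (0 : ℝ) 1, ∀ d ∈ Icc (0 : ℝ) 1, 0 ≤ Five.symB (outFive o) (-c) (-d)
  gain_rows : ∀ P ∈ gainPieces, ∀ s ∈ Icc (1 : ℝ) 2,
    0 ≤ gainRow o P.2.2 P.2.1 s (P.1 ^ 2) ∧ 0 ≤ gainRow o P.2.2 P.2.1 s (P.2.1 ^ 2)
  pair_first : ∀ s ∈ Icc (1 : ℝ) 2, 0 ≤ pairRow o t 1 (3 / 5) (hDn q t s (3 / 5))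
    (hDn q t s (3 / 5)) s (3 / 5) ((3 / 5) ^ 2)
  pair_rows : ∀ P ∈ pairPieces, ∀ s ∈ Icc (1 : ℝ) 2,
    0 ≤ pairRow o t P.2.2 P.2.1 (hUp q t s P.1) (hDn q t s P.2.1) s P.1 (P.1 ^ 2) ∧
    0 ≤ pairRow o t P.2.2 P.2.1 (hUp q t s P.1) (hDn q t s P.2.1) s ((P.1 + P.2.1) / 2)
      (P.1 * P.2.1) ∧
    0 ≤ pairRow o t P.2.2 P.2.1 (hUp q t s P.1) (hDn q t s P.2.1) s P.2.1 (P.2.1 ^ 2)

end Vale.Agent.P219.CH.Relax.Seven
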