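import Vale.Agent.P219.Relax.Seven.InFactsOf
import Vale.Agent.P219.Relax.Six.InRed

/-!
# P219, dimension seven: the rows at a contact from finitely many linear conditions

In `v = 2 - s` each row is a polynomial once the concavity factors at the two cosines are cleared.
It is nonnegative if its coefficients in the Bernstein basis are, on each cell between the cuts.
-/

noncomputable section

open Set

namespace Vale.Agent.P219.CH.Relax.Seven

open _root_.Vale.Agent.P219.CH.Relax.Five (Pt)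
open _root_.Vale.Agent.P219.CH.Relax.Six (zc zc_pos bicubic_nonneg)
open _root_.Vale.Agent.P219.CH.Relax.Six.Red (pv ad sc mu Bern CutBern rowL pv_ad pv_mu pv_sc)

namespace Red

/-- The side `d = 0`. -/
def zeroL (o : Pt) : List ℝ :=
  [2 + 2 * o.U' + 10 * o.p * o.U, o.G' + 5 * o.p * o.G - 6 * o.U + o.g * o.G, o.p * o.U - o.U',
    -(o.g * o.G) / 2]

/-- The diagonal with the gain. -/
def diagL (o : Pt) : List ℝ := [k0 o, k1 o, k2 o + o.g * (o.U + o.G), k3 o]

/-- Coefficient `k` in the second cosine of the mixed pair. -/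
def mixL (o : Pt) : ℕ → List ℝ
  | 0 => zeroL o
  | 1 => [6 * o.U - o.G' - 5 * o.p * o.G + o.g * o.G, 12 * o.G - 2 * (o.g * o.U),
      o.G' - o.p * o.G - o.g * o.G / 2]
  | 2 => [o.p * o.U - o.U', -o.G' + o.p * o.G - o.g * o.G / 2]
  | _ => [-(o.g * o.G) / 2]

/-- Coefficient `k` in the second cosine of the pair with both cosines outward. -/
def outL (o : Pt) : ℕ → List ℝ
  | 0 => [2 + 2 * o.U' + 10 * o.p * o.U, -o.G' - 5 * o.p * o.G + 6 * o.U + o.g * o.G,
      o.p * o.U - o.U', -(o.g * o.G) / 2]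
  | 1 => [6 * o.U - o.G' - 5 * o.p * o.G + o.g * o.G, -12 * o.G,
      o.G' - o.p * o.G - o.g * o.G / 2]
  | 2 => [o.p * o.U - o.U', o.G' - o.p * o.G - o.g * o.G / 2]
  | _ => [-(o.g * o.G) / 2]

/-- `piLine` at `w`, in `v`. -/
def piL (w : ℝ) : List ℝ := [1, -1, (1 - w) / 4]

/-- `kLine` on the product at `w`, in `v`. -/
def kL (o : Pt) (w : ℝ) : List ℝ :=
  ad [2 + 2 * o.U' + 10 * o.p * o.U]
    (ad (sc (o.G' + 5 * o.p * o.G - 6 * o.U) [2, -1])
      (ad (sc (o.p * o.U - o.U') (mu [2, -1] [2, -1]))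
        (ad (sc (2 * o.U' - 2 * (o.p * o.U) - 12 * o.G) (piL w))
          (sc (o.p * o.G - o.G') (mu [2, -1] (piL w))))))

/-- `s * (2 + s) / 2`, in `v`. -/
def fluxL : List ℝ := [4, -3, 1 / 2]

/-- The gain row, in `v`. -/
def gainL (o : Pt) (μ r₁ w : ℝ) : List ℝ :=
  ad (kL o w) (ad (sc (2 * (o.g * (o.U + o.G))) (piL w))
    (sc (o.g * o.G * ((μ + (1 - w) / μ) / 4))
      (mu [0, 1] (ad fluxL (sc (-2) (piL (r₁ ^ 2)))))))

/-- The pair row without loss, in `v`. -/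
def plainL (o : Pt) (t μ w : ℝ) : List ℝ :=
  ad (kL o w) (ad (sc (-1) (mu (piL w)
      [2 * diag o t / t ^ 2 + slope o t * (2 - 2 * t), -slope o t]))
    (sc (o.g * o.G * ((μ + (1 - w) / μ) / 4)) (mu [0, 1] fluxL)))

/-- The concavity factor at the cosine `1 - α * v`. -/
def zL (q α : ℝ) : List ℝ := [1 - q, 2 * (q * α), -(q * α ^ 2)]

/-- The numerator of the loss at the cosine `1 - α * v`. -/
def hL (q t α : ℝ) : List ℝ :=
  [q / (2 * nq q t) * (2 * t + (1 + q * t ^ 2)), -(q / (2 * nq q t) * ((1 + q * t ^ 2) * α))]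

/-- The squared distances with their cross term: `σ` is the sign. -/
def distL (t l w σ : ℝ) : List ℝ :=
  [(1 - t) ^ 2, -(1 - t) + σ * ((1 - t) * l), (1 + w) / 4 - σ * (l / 2)]

/-- The pair row times the two concavity factors, in `v`, with the cosines at `r₀` and `r₁`. -/
def pairL (q : ℝ) (o : Pt) (t μ r₀ r₁ l w : ℝ) : List ℝ :=
  ad (mu (mu (zL q ((1 - r₀) / 2)) (zL q ((1 + r₁) / 2))) (plainL o t μ w))
    (sc (-slope o t) (mu (piL (r₁ ^ 2))
      (ad (mu (hL q t ((1 - r₀) / 2)) (mu (zL q ((1 + r₁) / 2)) (distL t l w 1)))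
        (mu (hL q t ((1 + r₁) / 2)) (mu (zL q ((1 - r₀) / 2)) (distL t l w (-1)))))))

/-- The first pair row times the concavity factor at its smaller cosine. -/
def firstL (q : ℝ) (o : Pt) (t : ℝ) : List ℝ :=
  ad (mu (zL q (4 / 5)) (plainL o t 1 ((3 / 5) ^ 2)))
    (sc (-slope o t) (mu (piL ((3 / 5) ^ 2))
      (mu (hL q t (4 / 5)) (sc 2 (distL t (3 / 5) ((3 / 5) ^ 2) 0)))))

lemma length_gainL (o : Pt) (μ r₁ w : ℝ) : (gainL o μ r₁ w).length = 4 := by
  simp [gainL, kL, piL, fluxL, mu, ad, sc]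

lemma length_pairL (q : ℝ) (o : Pt) (t μ r₀ r₁ l w : ℝ) :
    (pairL q o t μ r₀ r₁ l w).length = 8 := by
  simp [pairL, plainL, kL, piL, fluxL, zL, hL, distL, mu, ad, sc]

lemma length_firstL (q : ℝ) (o : Pt) (t : ℝ) : (firstL q o t).length = 6 := by
  simp [firstL, plainL, kL, piL, fluxL, zL, hL, distL, mu, ad, sc]

lemma pv_gainL (o : Pt) (μ r₁ w v : ℝ) : pv (gainL o μ r₁ w) v = gainRow o μ r₁ (2 - v) w := by
  simp only [gainL, kL, piL, fluxL, pv_ad, pv_mu, pv_sc, pv, gainRow, kLine, piLine, rootLine]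
  ring

lemma pv_piL (w v : ℝ) : pv (piL w) v = piLine (2 - v) w := by
  simp only [piL, pv, piLine]
  ring

lemma pv_zL (q α v : ℝ) : pv (zL q α) v = zc q (1 - α * v) := by
  simp only [zL, pv, zc]
  ring

lemma pv_hL {q α v : ℝ} (t : ℝ) (h : zc q (1 - α * v) ≠ 0) :
    pv (hL q t α) v = hLoss q t (1 - α * v) * zc q (1 - α * v) := by
  have := (nq_pos q t).ne'
  simp only [hL, pv, hLoss]
  generalize zc q (1 - α * v) = z at h ⊢
  field_simp
  ring

lemma pv_plainL (o : Pt) (t μ w v : ℝ) :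
    pv (plainL o t μ w) v = kLine o (2 - v) (piLine (2 - v) w) -
      piLine (2 - v) w * tanSum o t (2 - v) +
      o.g * o.G * ((2 - v) * ((2 + (2 - v)) / 2)) * rootLine μ (2 - v) w := by
  simp only [plainL, kL, piL, fluxL, pv_ad, pv_mu, pv_sc, pv, kLine, piLine, rootLine, tanSum]
  ring

lemma pv_distL (t l w σ v : ℝ) :
    pv (distL t l w σ) v = ((2 - v) / 2 - t) ^ 2 + w * v ^ 2 / 4 +
      σ * (((2 - v) / 2 - t) * v * l) := by
  simp only [distL, pv]
  ring

lemma pv_pairL {q r₀ r₁ v : ℝ} (o : Pt) (t μ l w : ℝ)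
    (hA : zc q (1 - (1 - r₀) / 2 * v) ≠ 0) (hB : zc q (1 - (1 + r₁) / 2 * v) ≠ 0) :
    pv (pairL q o t μ r₀ r₁ l w) v =
      zc q (1 - (1 - r₀) / 2 * v) * zc q (1 - (1 + r₁) / 2 * v) *
        pairRow o t μ r₁ (hUp q t (2 - v) r₀) (hDn q t (2 - v) r₁) (2 - v) l w := by
  have eA : hUp q t (2 - v) r₀ = hLoss q t (1 - (1 - r₀) / 2 * v) := by rw [hUp]; congr 1; ring
  have eB : hDn q t (2 - v) r₁ = hLoss q t (1 - (1 + r₁) / 2 * v) := by rw [hDn]; congr 1; ring
  rw [eA, eB]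
  simp only [pairL, pv_ad, pv_mu, pv_sc, pv_zL, pv_hL t hA, pv_hL t hB, pv_plainL, pv_piL,
    pv_distL, pairRow, lossLine]
  ring

lemma pv_firstL {q v : ℝ} (o : Pt) (t : ℝ) (hB : zc q (1 - 4 / 5 * v) ≠ 0) :
    pv (firstL q o t) v = zc q (1 - 4 / 5 * v) *
      pairRow o t 1 (3 / 5) (hDn q t (2 - v) (3 / 5)) (hDn q t (2 - v) (3 / 5)) (2 - v) (3 / 5)
        ((3 / 5) ^ 2) := by
  have eB : hDn q t (2 - v) (3 / 5) = hLoss q t (1 - 4 / 5 * v) := by rw [hDn]; congr 1; ring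
  rw [eB]
  simp only [firstL, pv_ad, pv_mu, pv_sc, pv_zL, pv_hL t hB, pv_plainL, pv_piL, pv_distL, pairRow,
    lossLine]
  ring

end Red

open Red in
/-- Finitely many linear conditions in the weight and its derivative; the cells of `v = 2 - s` end
at the cuts `gc` for the gain and `pc` for the pair bound, and at `1`. -/
structure InCoef (q : ℝ) (o : Pt) (t : ℝ) (gc pc : List ℝ) : Prop where
  weight_pos : 0 < o.U + o.G
  slope_nonpos : o.G ≤ 0
  mono : 0 ≤ o.U' + 5 * o.p * o.U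
  conv₀ : 0 ≤ k0 o
  conv₁ : 0 ≤ (2 + t) * k0 o + t * k1 o
  down : slope o t ≤ 0
  zero : Bern 3 1 (zeroL o)
  gainDiag : Bern 3 (1 / 2) (diagL o)
  mixed : ∀ j ≤ 3, Bern 3 1 (rowL (mixL o) j)
  outward : ∀ j ≤ 3, Bern 3 1 (rowL (outL o) j)
  gain : ∀ P ∈ gainPieces, CutBern 3 (gainL o P.2.2 P.2.1 (P.1 ^ 2)) 0 (gc ++ [1]) ∧
    CutBern 3 (gainL o P.2.2 P.2.1 (P.2.1 ^ 2)) 0 (gc ++ [1])
  first : CutBern 5 (firstL q o t) 0 (pc ++ [1])
  pair : ∀ P ∈ pairPieces,
    CutBern 7 (pairL q o t P.2.2 P.1 P.2.1 P.1 (P.1 ^ 2)) 0 (pc ++ [1]) ∧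
    CutBern 7 (pairL q o t P.2.2 P.1 P.2.1 ((P.1 + P.2.1) / 2) (P.1 * P.2.1)) 0 (pc ++ [1]) ∧
    CutBern 7 (pairL q o t P.2.2 P.1 P.2.1 P.2.1 (P.2.1 ^ 2)) 0 (pc ++ [1])

open Red

variable {q t : ℝ} {o : Pt} {gc pc : List ℝ}

/-- The linear conditions give the rows at the contact. -/
theorem InCoef.inPt (h : InCoef q o t gc pc) (hq : q ∈ Ico (0 : ℝ) 1) : InPt q o t where
  weight_pos := h.weight_pos
  slope_nonpos := h.slope_nonpos
  mono := h.mono
  conv₀ := h.conv₀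
  conv₁ := h.conv₁
  down := h.down
  zero c hc := by
    refine (h.zero.pv_nonneg (le_of_eq rfl) zero_le_one hc).trans_eq ?_
    simp only [zeroL, pv, Five.symB, ker_outFive, ker, abs_of_nonneg hc.1, abs_zero]
    simp only [outFive]
    ring
  gain_diag c hc := by
    refine (h.gainDiag.pv_nonneg (le_of_eq rfl) (by norm_num) hc).trans_eq ?_
    simp only [diagL, pv, diag]
    ring
  mixed c hc d hd := by
    have := bicubic_nonneg (fun j hj => by interval_cases j <;> exact le_of_eq rfl) h.mixed hc hd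
    simp only [mixL, zeroL, pv] at this
    simp only [Five.symB, ker_outFive, ker, abs_of_nonneg hc.1, abs_neg, abs_of_nonneg hd.1]
    simp only [outFive]
    linarith
  outward c hc d hd := by
    have := bicubic_nonneg (fun j hj => by interval_cases j <;> exact le_of_eq rfl) h.outward hc hd
    simp only [outL, pv] at this
    simp only [Five.symB, ker_outFive, ker, abs_neg, abs_of_nonneg hc.1, abs_of_nonneg hd.1]
    simp only [outFive]
    linarith
  gain_rows P hP s hs := by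
    obtain ⟨h0, h1⟩ := h.gain P hP
    have e : s = 2 - (2 - s) := by ring
    have a0 := CutBern.pv_nonneg (length_gainL o _ _ _).le h0 (x := 2 - s) (by linarith [hs.2])
      (by linarith [hs.1])
    have a1 := CutBern.pv_nonneg (length_gainL o _ _ _).le h1 (x := 2 - s) (by linarith [hs.2])
      (by linarith [hs.1])
    rw [pv_gainL, ← e] at a0 a1
    exact ⟨a0, a1⟩
  pair_first s hs := by
    have e : s = 2 - (2 - s) := by ring
    have hz := zc_pos hq (x := 1 - 4 / 5 * (2 - s))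
      ⟨by linarith [hs.1], by linarith [hs.2]⟩
    have a := CutBern.pv_nonneg (length_firstL q o t).le h.first (x := 2 - s) (by linarith [hs.2])
      (by linarith [hs.1])
    rw [pv_firstL o t hz.ne', ← e] at a
    exact nonneg_of_mul_nonneg_right a hz
  pair_rows P hP s hs := by
    have hr : 0 ≤ P.1 ∧ P.1 ≤ 1 ∧ 0 ≤ P.2.1 ∧ P.2.1 ≤ 1 := by
      simp only [pairPieces, List.mem_cons, List.not_mem_nil, or_false] at hP
      rcases hP with rfl | rfl | rfl <;> norm_num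
    have hs0 : 0 ≤ 2 - s := by linarith [hs.2]
    have hs1 : 2 - s ≤ 1 := by linarith [hs.1]
    have e : s = 2 - (2 - s) := by ring
    have hA := zc_pos hq (x := 1 - (1 - P.1) / 2 * (2 - s))
      ⟨by nlinarith [hr.1, hr.2.1], by nlinarith [hr.1, hr.2.1]⟩
    have hB := zc_pos hq (x := 1 - (1 + P.2.1) / 2 * (2 - s))
      ⟨by nlinarith [hr.2.2.1, hr.2.2.2], by nlinarith [hr.2.2.1, hr.2.2.2]⟩
    have key : ∀ l w, CutBern 7 (pairL q o t P.2.2 P.1 P.2.1 l w) 0 (pc ++ [1]) →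
        0 ≤ pairRow o t P.2.2 P.2.1 (hUp q t s P.1) (hDn q t s P.2.1) s l w := fun l w hb => by
      have a := CutBern.pv_nonneg (length_pairL q o t _ _ _ l w).le hb hs0 hs1
      rw [pv_pairL o t _ l w hA.ne' hB.ne', ← e] at a
      exact nonneg_of_mul_nonneg_right a (mul_pos hA hB)
    obtain ⟨h0, h1, h2⟩ := h.pair P hP
    exact ⟨key _ _ h0, key _ _ h1, key _ _ h2⟩

end Vale.Agent.P219.CH.Relax.Seven
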