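import Vale.Agent.P219.Relax.Seven.OutCoef

/-!
# P219, dimension seven: signs beyond the diameter

Each is nonnegative at the four corners of the box in the Bernstein basis of the unit square of
`(a, b)`, by the kernel check, so on the whole box.
-/

noncomputable section

open Set

namespace Vale.Agent.P219.CH.Relax.Seven.OutP

open Vale.Agent.P219.Poly (E)
open _root_.Vale.Agent.P219.CH.Relax.Six.OutP (eP dP pP gP qP sP sem_ePT sem_dPT sem_pPT sem_gPT
  sem_qPT sem_sPT)

variable {a b x k : ℝ}

lemma okMono : okT monoT = true := by decide +kernel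

lemma okZero : okT zeroT = true := by decide +kernel

lemma okTop : okT topT = true := by decide +kernel

lemma okMid : okT midT = true := by decide +kernel

lemma okCross : okT crossT = true := by decide +kernel

lemma okCrossw : okT crosswT = true := by decide +kernel

lemma okConv₀ : okT convT₀ = true := by decide +kernel

lemma okConv₁ : okT convT₁ = true := by decide +kernel

lemma okSlope : okT slopeT = true := by decide +kernel

/-- The signs of the scaled facts on the box. -/
structure Signs (a b x k : ℝ) : Prop where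
  mono : 0 ≤ monoN a b x k
  zero : 0 ≤ zeroN a b x k
  top : 0 ≤ topN a b x k
  mid : 0 ≤ midN a b x k
  cross : 0 ≤ crossN a b x k
  crossw : 0 ≤ crosswN a b x k
  conv₀ : 0 ≤ convN₀ a b x k
  conv₁ : 0 ≤ convN₁ a b x k
  slope : 0 ≤ slopeN a b x k

theorem signs (ha : a ∈ Icc (0 : ℝ) 1) (hb : b ∈ Icc (0 : ℝ) 1)
    (hx : x ∈ Icc (-(7 / 100) : ℝ) (18 / 100)) (hk : k ∈ Icc (0 : ℝ) (43 / 100)) :
    Signs a b x k := by
  refine ⟨?_, ?_, ?_, ?_, ?_, ?_, ?_, ?_, ?_⟩
  · refine of_okT (S := 800) okMono (by norm_num) ha hb (fun xn kn => ?_) (fun x k => ?_) hx hk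
    · simp only [monoT, monoN, E.sem, sem_wT, sem_uT, sem_pPT]
      push_cast
      ring
    · simp only [monoN, wN, uN, xN, yN]
      ring
  · refine of_okT (S := 400) okZero (by norm_num) ha hb (fun xn kn => ?_) (fun x k => ?_) hx hk
    · simp only [zeroT, zeroN, E.sem, sem_wT, sem_uT, sem_pPT]
      push_cast
      ring
    · simp only [zeroN, wN, uN, xN, yN]
      ring
  · refine of_okT (S := 400) okTop (by norm_num) ha hb (fun xn kn => ?_) (fun x k => ?_) hx hk
    · simp only [topT, topN, E.sem, sem_mT, sem_uT, sem_qPT, sem_gPT]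
      push_cast
      ring
    · simp only [topN, uN, xN]
      ring
  · refine of_okT (S := 800) okMid (by norm_num) ha hb (fun xn kn => ?_) (fun x k => ?_) hx hk
    · simp only [midT, midN, E.sem, sem_mT, sem_wT, sem_uT, sem_hT, sem_pPT, sem_qPT, sem_gPT]
      push_cast
      ring
    · simp only [midN, wN, uN, xN, yN]
      ring
  · refine of_okT (S := 1600) okCross (by norm_num) ha hb (fun xn kn => ?_) (fun x k => ?_) hx hk
    · simp only [crossT, crossN, E.sem, sem_uT, sem_hT, sem_qPT, sem_gPT]
      push_cast
      ring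
    · simp only [crossN, uN, xN]
      ring
  · refine of_okT (S := 1600) okCrossw (by norm_num) ha hb (fun xn kn => ?_) (fun x k => ?_) hx hk
    · simp only [crosswT, crosswN, E.sem, sem_wT, sem_uT, sem_hT, sem_pPT, sem_qPT, sem_gPT]
      push_cast
      ring
    · simp only [crosswN, wN, uN, xN, yN]
      ring
  · refine of_okT (S := 400) okConv₀ (by norm_num) ha hb (fun xn kn => ?_) (fun x k => ?_) hx hk
    · simp only [convT₀, convN₀, E.sem, sem_mT, sem_wT, sem_uT, sem_pPT]
      push_cast
      ring
    · simp only [convN₀, wN, uN, xN, yN]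
      ring
  · refine of_okT (S := 800) okConv₁ (by norm_num) ha hb (fun xn kn => ?_) (fun x k => ?_) hx hk
    · simp only [convT₁, convN₁, E.sem, sem_mT, sem_wT, sem_uT, sem_hT, sem_pPT, sem_gPT]
      push_cast
      ring
    · simp only [convN₁, wN, uN, xN, yN]
      ring
  · refine of_okT (S := 800) okSlope (by norm_num) ha hb (fun xn kn => ?_) (fun x k => ?_) hx hk
    · simp only [slopeT, slopeN, E.sem, sem_mT, sem_wT, sem_uT, sem_hT, sem_jT, sem_dPT, sem_pPT,
        sem_qPT, sem_gPT, sem_sPT]
      push_cast
      ring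
    · simp only [slopeN, jN, wN, uN, xN, yN]
      ring

end Vale.Agent.P219.CH.Relax.Seven.OutP
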