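import Vale.Agent.P219.Relax.Seven.OutGood
import Vale.Agent.P219.Relax.Seven.OutPoly
import Vale.Agent.P219.Relax.Seven.Cert

/-!
# P219, dimension seven: the facts beyond the diameter

With minus the slope in the cosine `s * (A + B * (1 - s))` every fact beyond the diameter follows
from a fixed box for the four constants and the sign of the slope at the join.
-/

noncomputable section

open Set

namespace Vale.Agent.P219.CH.Relax.Seven

open Five (Pt yf)
open _root_.Vale.Agent.P219.CH.Relax.Six (ratF)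
open _root_.Vale.Agent.P219.CH.Relax.Six.OutP (eP dP pP gP qP sP)

/-- Minus the slope in the cosine beyond the diameter, as a function of the ratio of the sines. -/
def hOut (A B s : ℝ) : ℝ := s * (A + B * (1 - s))

/-- Its derivative. -/
def h1Out (A B s : ℝ) : ℝ := A + B * (1 - 2 * s)

lemma hasDerivAt_hOut (A B s : ℝ) : HasDerivAt (hOut A B) (h1Out A B s) s := by
  unfold hOut h1Out
  refine ((hasDerivAt_id' s).mul ((((hasDerivAt_id' s).const_sub 1).const_mul B).const_add A)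
    ).congr_deriv ?_
  ring

lemma continuous_h1Out (A B : ℝ) : Continuous (h1Out A B) := by
  unfold h1Out
  fun_prop

/-- The box for the constants beyond the diameter. -/
structure OutBox (e XL K A B : ℝ) : Prop where
  xl : XL ∈ Icc (-(7 / 100) : ℝ) (18 / 100)
  rate : K ∈ Icc (0 : ℝ) (43 / 100 * (1 - e) ^ 2)
  a_nonneg : 0 ≤ A
  a_le : A * (1 - e) ^ 2 ≤ 19 / 100
  b_nonneg : 0 ≤ B
  b_le : B * (1 - e) ^ 2 ≤ 53 / 100

/-- The point beyond the diameter with these constants. -/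
def ptBox (e XL K A B p g : ℝ) : Pt := ptOut e XL K (hOut A B) (h1Out A B) p g

open OutP in
lemma numerators {a b x k al be : ℝ} (hd : dP a b ≠ 0) (hq : qP a b ≠ 0) :
    mN a b * ((ptBox (eP a b) x (k * dP a b ^ 2) (al / dP a b ^ 2) (be / dP a b ^ 2)
        (pP a b) (gP a b)).U +
      (ptBox (eP a b) x (k * dP a b ^ 2) (al / dP a b ^ 2) (be / dP a b ^ 2)
        (pP a b) (gP a b)).G) = uN a b x k ∧
    mN a b * ((ptBox (eP a b) x (k * dP a b ^ 2) (al / dP a b ^ 2) (be / dP a b ^ 2)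
        (pP a b) (gP a b)).U' +
      (ptBox (eP a b) x (k * dP a b ^ 2) (al / dP a b ^ 2) (be / dP a b ^ 2)
        (pP a b) (gP a b)).G') = wN a b x k ∧
    mN a b * -(ptBox (eP a b) x (k * dP a b ^ 2) (al / dP a b ^ 2) (be / dP a b ^ 2)
        (pP a b) (gP a b)).G = hN a b al be := by
  simp only [ptBox, ptOut, hOut, h1Out, XF, XF', ratF, mN, uN, wN, hN, xN, yN, sP]
  rw [show 1 - eP a b = dP a b from rfl, show 1 - pP a b = qP a b from rfl,
    show 2 * gP a b = a * (1 - b) by rw [gP]; ring]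
  refine ⟨?_, ?_, ?_⟩ <;> field_simp <;> ring

lemma slope_one_eq (o : Pt) :
    -slope o 1 = 2 + 2 * (o.U' + o.G') - (6 - 10 * o.p) * (o.U + o.G) -
      (6 * (1 - o.p) + 2 * o.g) * -o.G := by
  simp only [slope, k0, k1, k3]
  ring

/-- The slope at the join. -/
lemma slope_box_join {e x K A B : ℝ} (he : e ∈ Ioo (0 : ℝ) 1) :
    slope (ptBox e x K A B ((1 + e) / 2) ((1 - e) / 2)) 1 * (3 * (1 - e)) =
      -(6 * (1 - e) + (1 + e) * (6 * x - 2 * K) - (1 - x) * (2 - 6 * e) -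
        12 * (A * (1 - e) ^ 2)) := by
  have h1 : (1 : ℝ) - e ≠ 0 := by linarith [he.2]
  have h3 : (1 : ℝ) - (1 + e) / 2 = (1 - e) / 2 := by ring
  have h4 : ratF e ((1 - e) / 2) = 1 := by rw [ratF]; field_simp
  simp only [slope, k0, k1, k3, ptBox, ptOut, h4, h3, hOut, h1Out, XF, XF']
  field_simp
  ring

/-- The unit square covers the range beyond the diameter. -/
lemma exists_outSquare {e p g : ℝ} (he : e ∈ Ioo (0 : ℝ) 1) (hr : Five.OutRange e p g) :
    ∃ a b, a ∈ Icc (0 : ℝ) 1 ∧ b ∈ Icc (0 : ℝ) 1 ∧ e = eP a b ∧ p = pP a b ∧ g = gP a b := by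
  obtain ⟨hg0, hg2, hp0, hp1⟩ := hr
  have hgp : g ≤ p := (pow_le_pow_iff_left₀ hg0.le hp0.le two_ne_zero).1 (by linarith [he.1])
  have hg1 : g ≤ (1 - e) / 2 := by
    refine (pow_le_pow_iff_left₀ hg0.le (by linarith [he.2]) two_ne_zero).1 ?_
    nlinarith [pow_le_pow_left₀ hp0.le hp1 2]
  have hpg : 0 < p + g := by linarith
  refine ⟨p + g, (p - g) / (p + g), ⟨hpg.le, by linarith⟩,
    ⟨div_nonneg (by linarith) hpg.le, by rw [div_le_one hpg]; linarith⟩, ?_, ?_, ?_⟩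
  · rw [eP]
    field_simp
    linarith
  · rw [pP]
    field_simp
    ring
  · rw [gP]
    field_simp
    ring

open OutP in
/-- The linear bounds and the domination of the slope at one point of the square. -/
theorem out_at {a b x k al be : ℝ} (ha : a ∈ Icc (0 : ℝ) 1) (hb : b ∈ Icc (0 : ℝ) 1)
    (he : eP a b ∈ Ioo (0 : ℝ) 1) (hr : Five.OutRange (eP a b) (pP a b) (gP a b))
    (hx : x ∈ Icc (-(7 / 100) : ℝ) (18 / 100)) (hk : k ∈ Icc (0 : ℝ) (43 / 100))
    (hal : al ∈ Icc (0 : ℝ) (19 / 100)) (hbe : be ∈ Icc (0 : ℝ) (53 / 100))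
    (hj : slope (ptBox (eP a b) x (k * dP a b ^ 2) (al / dP a b ^ 2) (be / dP a b ^ 2)
      ((1 + eP a b) / 2) ((1 - eP a b) / 2)) 1 ≤ 0) :
    OutRaw (ptBox (eP a b) x (k * dP a b ^ 2) (al / dP a b ^ 2) (be / dP a b ^ 2)
        (pP a b) (gP a b)) ∧
      slope (ptBox (eP a b) x (k * dP a b ^ 2) (al / dP a b ^ 2) (be / dP a b ^ 2)
          (pP a b) (gP a b)) 1 ≤
        ratF (eP a b) (gP a b) ^ 6 *
          slope (ptBox (eP a b) x (k * dP a b ^ 2) (al / dP a b ^ 2) (be / dP a b ^ 2)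
            ((1 + eP a b) / 2) ((1 - eP a b) / 2)) 1 := by
  obtain ⟨hg0, hg2, hp0, hp1⟩ := hr
  obtain ⟨S1, S2, S3, S4, S5, S6, S7, S8, S9⟩ := signs ha hb hx hk
  have hd : 0 < dP a b := by rw [dP]; linarith [he.2]
  have hqd : dP a b / 2 ≤ qP a b := by rw [dP, qP]; linarith
  have hq : 0 < qP a b := by linarith
  have hs0 : 0 ≤ sP a b := mul_nonneg ha.1 (sub_nonneg.2 hb.2)
  have hsg : sP a b = 2 * gP a b := by rw [sP, gP]; ring
  have hg1 : gP a b ≤ dP a b / 2 := by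
    refine (pow_le_pow_iff_left₀ hg0.le (by linarith) two_ne_zero).1 ?_
    rw [dP]
    nlinarith [pow_le_pow_left₀ hp0.le hp1 2]
  have hs : sP a b ≤ dP a b := by linarith
  have hjeq := slope_box_join (x := x) (K := k * dP a b ^ 2) (A := al / dP a b ^ 2)
    (B := be / dP a b ^ 2) he
  obtain ⟨L, hL⟩ : ∃ L, L = slope (ptBox (eP a b) x (k * dP a b ^ 2) (al / dP a b ^ 2)
      (be / dP a b ^ 2) ((1 + eP a b) / 2) ((1 - eP a b) / 2)) 1 := ⟨_, rfl⟩
  rw [← hL] at hj hjeq ⊢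
  rw [show 1 - eP a b = dP a b from rfl,
    show al / dP a b ^ 2 * dP a b ^ 2 = al by field_simp] at hjeq
  obtain ⟨eu, ew, eH⟩ := numerators (x := x) (k := k) (al := al) (be := be) hd.ne' hq.ne'
  obtain ⟨o, ho⟩ : ∃ o, o = ptBox (eP a b) x (k * dP a b ^ 2) (al / dP a b ^ 2) (be / dP a b ^ 2)
      (pP a b) (gP a b) := ⟨_, rfl⟩
  have hop : o.p = pP a b := by rw [ho]; rfl
  have hog : o.g = gP a b := by rw [ho]; rfl
  rw [← ho] at eu ew eH ⊢
  have hMp : 0 < mN a b := by unfold mN; positivity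
  have hH0 : 0 ≤ hN a b al be := by
    have := hal.1
    have := hbe.1
    have := sub_nonneg.2 hs
    unfold hN
    positivity
  have hHle : hN a b al be +
      6 * qP a b ^ 2 * dP a b ^ 3 * sP a b * (19 / 100 - al) ≤ OutP.hM a b := by
    have := mul_nonneg (show 0 ≤ 6 * qP a b ^ 2 * dP a b ^ 2 * sP a b by positivity)
      (mul_nonneg (sub_nonneg.2 hbe.2) (sub_nonneg.2 hs))
    simp only [OutP.hM, hN]
    linarith
  have hHle' : hN a b al be ≤ OutP.hM a b := by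
    have := mul_nonneg (show 0 ≤ 6 * qP a b ^ 2 * dP a b ^ 3 * sP a b by positivity)
      (sub_nonneg.2 hal.2)
    linarith
  have hv : o.G' ≤ o.p * -o.G := by
    have h1 : 0 ≤ ratF (eP a b) (gP a b) := div_nonneg (by linarith) (by linarith [he.2])
    have := mul_nonneg (mul_nonneg hp0.le (sq_nonneg (ratF (eP a b) (gP a b))))
      (div_nonneg hbe.1 (sq_nonneg (dP a b)))
    rw [ho]
    simp only [ptBox, ptOut, hOut, h1Out]
    linarith
  have hu : 0 < o.U + o.G := by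
    refine pos_of_mul_pos_right (a := mN a b) ?_ hMp.le
    rw [eu, uN, xN]
    have hd6 : 0 < dP a b ^ 6 := pow_pos hd 6
    have hs6 : sP a b ^ 6 ≤ dP a b ^ 6 := pow_le_pow_left₀ hs0 hs 6
    have hs4 : sP a b ^ 4 * dP a b ^ 2 ≤ dP a b ^ 6 :=
      (mul_le_mul_of_nonneg_right (pow_le_pow_left₀ hs0 hs 4) (sq_nonneg _)).trans_eq (by ring)
    have hdd : dP a b ^ 2 ≤ 1 := pow_le_one₀ hd.le (by rw [dP]; linarith [he.1])
    have h1 := mul_le_mul_of_nonneg_right hx.2 (pow_nonneg hs0 6)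
    have h2 : k * dP a b ^ 2 * (sP a b ^ 4 * dP a b ^ 2 - sP a b ^ 6) ≤
        43 / 100 * 1 * dP a b ^ 6 := by
      refine mul_le_mul (mul_le_mul hk.2 hdd (sq_nonneg _) (by norm_num)) ?_ ?_ (by norm_num)
      · linarith [pow_nonneg hs0 6]
      · have := pow_le_pow_left₀ hs0 hs 2
        linarith [mul_le_mul_of_nonneg_left this (pow_nonneg hs0 4)]
    exact mul_pos hq (by linarith)
  have divM : ∀ {y : ℝ}, 0 ≤ mN a b * y → 0 ≤ y := fun hy => nonneg_of_mul_nonneg_right hy hMp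
  have hqe : qP a b = 1 - pP a b := rfl
  have hSlope : mN a b * dP a b * slope o 1 ≤
      2 * qP a b ^ 2 * sP a b ^ 6 * (L * (3 * dP a b)) := by
    have e1 : -(mN a b * dP a b * slope o 1) = dP a b * (2 * mN a b + 2 * wN a b x k -
        (6 - 10 * pP a b) * uN a b x k - (6 * qP a b + 2 * gP a b) * hN a b al be) := by
      rw [← eu, ← ew, ← eH, hqe, ← hop, ← hog]
      linear_combination mN a b * dP a b * slope_one_eq o
    have h0 : 0 ≤ dP a b := hd.le
    have hg' : 0 ≤ dP a b * (6 * qP a b + 2 * gP a b) := mul_nonneg h0 (by linarith)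
    have a1 := mul_le_mul_of_nonneg_left hHle hg'
    have h5 : sP a b ^ 5 ≤ dP a b ^ 4 * sP a b := by
      have := mul_le_mul_of_nonneg_right (pow_le_pow_left₀ hs0 hs 4) hs0
      linarith
    have a2 : 0 ≤ (6 * qP a b + 2 * gP a b) * dP a b ^ 4 - 4 * sP a b ^ 5 := by
      have := mul_le_mul_of_nonneg_left (show 4 * sP a b ≤ 6 * qP a b + 2 * gP a b by linarith)
        (pow_nonneg h0 4)
      linarith
    have a3 := mul_nonneg (mul_nonneg (show 0 ≤ 6 * qP a b ^ 2 * sP a b by positivity)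
      (sub_nonneg.2 hal.2)) a2
    rw [hjeq]
    rw [slopeN, jN] at S9
    simp only [OutP.hM] at a1
    simp only [OutP.hM] at S9
    linarith
  have hslope : slope o 1 ≤ ratF (eP a b) (gP a b) ^ 6 * L := by
    refine le_of_mul_le_mul_left ?_ (mul_pos hMp hd)
    refine hSlope.trans_eq ?_
    rw [ratF, ← hsg, show 1 - eP a b = dP a b from rfl, mN]
    field_simp
    ring
  have hs1 : slope o 1 ≤ 0 := hslope.trans
    (mul_nonpos_of_nonneg_of_nonpos (pow_nonneg (div_nonneg (by linarith) (by linarith [he.2])) 6) hj)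
  refine ⟨⟨?_, ?_, ?_, ?_, hu, ?_, hv, ?_, ?_, ?_, ?_, ?_, ?_, ?_, hs1⟩, hslope⟩
  · rw [hog]; exact hg0.le
  · rw [hog]; rw [dP] at hg1; linarith [he.1]
  · rw [hop]; exact hp0.le
  · rw [hop]; linarith [he.2]
  · linarith [divM (hH0.trans_eq eH.symm)]
  · refine divM (S1.trans_eq ?_)
    rw [monoN, ← eu, ← ew, hop]
    ring
  · refine divM (S2.trans_eq ?_)
    rw [zeroN, ← eu, ← ew, hop]
    ring
  · refine divM ?_
    have h1 := mul_le_mul_of_nonneg_left hHle' (show 0 ≤ 6 * qP a b + gP a b by linarith)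
    rw [midN, OutP.hM] at S4
    simp only [OutP.hM] at h1
    rw [← eH, hqe, ← hop, ← hog] at h1
    rw [← eu, ← ew, hqe, ← hop, ← hog] at S4
    linarith
  · refine sub_nonneg.1 (divM ?_)
    have h1 := mul_le_mul_of_nonneg_left hHle' (show 0 ≤ 6 * qP a b + 5 / 2 * gP a b by linarith)
    rw [crossN, OutP.hM] at S5
    simp only [OutP.hM] at h1
    rw [← eH, hqe, ← hop, ← hog] at h1
    rw [← eu, hqe, ← hop, ← hog] at S5
    linarith
  · refine sub_nonneg.1 (divM ?_)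
    have h1 := mul_le_mul_of_nonneg_left hHle' (show 0 ≤ 6 * qP a b + 5 / 2 * gP a b by linarith)
    rw [crosswN, OutP.hM] at S6
    simp only [OutP.hM] at h1
    rw [← eH, hqe, ← hop, ← hog] at h1
    rw [← eu, ← ew, hqe, ← hop, ← hog] at S6
    linarith
  · refine divM (S3.trans_eq ?_)
    rw [topN, ← eu, hqe, hop, hog]
    ring
  · refine divM ?_
    rw [convN₀] at S7
    rw [convN₁, OutP.hM] at S8
    simp only [OutP.hM] at hHle'
    have a1 := mul_le_mul_of_nonneg_left (mul_le_mul_of_nonneg_left hv hMp.le) (zero_le_two (α := ℝ))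
    have a2 : 0 ≤ 3 * mN a b + 3 * wN a b x k + (15 * pP a b - 6) * uN a b x k -
        (6 - 8 * pP a b + gP a b) * hN a b al be := by
      rcases le_total 0 (6 - 8 * pP a b + gP a b) with h | h
      · linarith [mul_le_mul_of_nonneg_left hHle' h]
      · linarith [mul_nonpos_of_nonpos_of_nonneg h hH0]
    rw [← eu, ← ew, ← eH, ← hop, ← hog] at a2
    linarith

/-- The facts beyond the diameter follow from the box and the sign at the join. -/
theorem out_facts {e XL K A B : ℝ} (he : e ∈ Ioo (0 : ℝ) 1) (h : OutBox e XL K A B)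
    (hj : slope (ptBox e XL K A B ((1 + e) / 2) ((1 - e) / 2)) 1 ≤ 0) {p g : ℝ}
    (hr : Five.OutRange e p g) :
    OutRaw (ptBox e XL K A B p g) ∧ slope (ptBox e XL K A B p g) 1 ≤
      ratF e g ^ 6 * slope (ptBox e XL K A B ((1 + e) / 2) ((1 - e) / 2)) 1 := by
  obtain ⟨a, b, ha, hb, rfl, rfl, rfl⟩ := exists_outSquare he hr
  have hd2 : 0 < (1 - eP a b) ^ 2 := pow_pos (by linarith [he.2]) 2
  obtain ⟨hx, hK, hA0, hA1, hB0, hB1⟩ := h
  obtain ⟨k, rfl⟩ : ∃ k, K = k * dP a b ^ 2 :=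
    ⟨K / (1 - eP a b) ^ 2, by rw [dP, div_mul_cancel₀ _ hd2.ne']⟩
  obtain ⟨al, rfl⟩ : ∃ al, A = al / dP a b ^ 2 :=
    ⟨A * (1 - eP a b) ^ 2, by rw [dP, mul_div_cancel_right₀ _ hd2.ne']⟩
  obtain ⟨be, rfl⟩ : ∃ be, B = be / dP a b ^ 2 :=
    ⟨B * (1 - eP a b) ^ 2, by rw [dP, mul_div_cancel_right₀ _ hd2.ne']⟩
  rw [show 1 - eP a b = dP a b from rfl] at hd2
  rw [show 1 - eP a b = dP a b from rfl] at hK
  rw [show 1 - eP a b = dP a b from rfl, div_mul_cancel₀ _ hd2.ne'] at hA1 hB1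
  exact out_at ha hb he hr hx
    ⟨nonneg_of_mul_nonneg_left hK.1 hd2, le_of_mul_le_mul_right hK.2 hd2⟩
    ⟨by simpa [div_nonneg_iff, hd2.le, hd2.not_ge] using hA0, hA1⟩
    ⟨by simpa [div_nonneg_iff, hd2.le, hd2.not_ge] using hB0, hB1⟩ hj

variable {e b : ℝ} {W : Wt} {A B : ℝ}

/-- The two sides agree at the join. -/
lemma ptBox_join (he : e ∈ Ioo (0 : ℝ) 1) (hP : W.P 1 = -A)
    (hP1 : (1 - e) / 2 * W.P1 1 = (1 + e) / 2 * (A - B))
    (hj : (1 - e) / 2 * (W.V1 1 - W.P 1) =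
      (1 + e) / (1 - e) - (1 + 5 * (1 + e) / 2) * W.V 1 - b * (1 - e) ^ 5 / 6) :
    ptBox e (xlOf e W.V) (kOf e b) A B ((1 + e) / 2) ((1 - e) / 2) = ptIn e W 1 := by
  have hd : 1 - e ≠ 0 := (sub_pos.2 he.2).ne'
  have h2 : 1 + e ≠ 0 := by linarith [he.1]
  have hr : ratF e ((1 - e) / 2) = 1 := by rw [ratF]; field_simp
  have hp : (1 : ℝ) - (1 + e) / 2 = (1 - e) / 2 := by ring
  have hy : yf e 1 = 1 - e := by rw [yf]; ring
  have hh : hOut A B 1 = A := by rw [hOut]; ring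
  have hh1 : h1Out A B 1 = A - B := by rw [h1Out]; ring
  have hX : XF (xlOf e W.V) (kOf e b) 1 = xlOf e W.V := by rw [XF]; ring
  have hX' : XF' (xlOf e W.V) (kOf e b) 1 = 6 * xlOf e W.V - 2 * kOf e b := by rw [XF']; ring
  simp only [ptBox, ptOut, ptIn, hr, hp, hh, hh1, hX, hX', hy, hP, one_mul, Pt.mk.injEq]
  refine ⟨?_, ?_, trivial, hP1.symm, by ring, by ring⟩
  · simp only [xlOf]
    field_simp
    ring
  · rw [show (1 - e) / 2 * (W.V1 1 - -A - W.P1 1) =
      (1 - e) / 2 * (W.V1 1 - W.P 1) - (1 - e) / 2 * W.P1 1 by rw [hP]; ring, hP1, hj]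
    simp only [xlOf, kOf]
    field_simp
    ring

/-- The three fields of the certificate beyond the diameter. -/
theorem certOut (he : e ∈ Ioo (0 : ℝ) 1) (hs : Base e b W (hOut A B) (h1Out A B))
    (hd : SlopeDown e W) (h : OutBox e (xlOf e W.V) (kOf e b) A B) :
    (∀ p g, Five.OutRange e p g →
        GainPt (ptOut e (xlOf e W.V) (kOf e b) (hOut A B) (h1Out A B) p g)) ∧
    (∀ p g, Five.OutRange e p g → ∀ c ∈ Icc (0 : ℝ) 1, ∀ d ∈ Icc (0 : ℝ) 1,
      c * d * tanSum (ptOut e (xlOf e W.V) (kOf e b) (hOut A B) (h1Out A B) p g) 1 (c + d) ≤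
        symX (ptOut e (xlOf e W.V) (kOf e b) (hOut A B) (h1Out A B) p g) c d) ∧
    (∀ p g, Five.OutRange e p g →
      slope (ptOut e (xlOf e W.V) (kOf e b) (hOut A B) (h1Out A B) p g) 1 ≤
        ratF e g ^ 6 * slope (ptIn e W 1) 1) := by
  have hjoin := ptBox_join (A := A) (B := B) he (hs.slope_end.trans (by rw [hOut]; ring))
    (hs.slope_end'.trans (by rw [h1Out]; ring)) hs.join
  have hj := hd 1 ⟨zero_lt_one, le_rfl⟩
  rw [← hjoin] at hj
  refine ⟨fun p g hr => (out_facts he h hj hr).1.gainPt,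
    fun p g hr c hc d hd' => (out_facts he h hj hr).1.pair hc hd', fun p g hr => ?_⟩
  rw [← hjoin]
  exact (out_facts he h hj hr).2

end Vale.Agent.P219.CH.Relax.Seven
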