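import Vale.Agent.P219.Relax.Six.OutTree

/-!
# P219, dimension seven: the numerators beyond the diameter

With `a = p + g` and `b = (p - g) / (p + g)` everything is polynomial on the unit square of `(a, b)`
and affine in the constants of the continuation. The slope in the cosine is taken at its largest.
-/

noncomputable section

open Set

namespace Vale.Agent.P219.CH.Relax.Seven.OutP

open Vale.Agent.P219.Poly (E)
open _root_.Vale.Agent.P219.CH.Relax.Six.OutP (eP dP pP gP qP sP ePT dPT pPT gPT qPT sPT sem_ePT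
  sem_dPT sem_pPT sem_gPT sem_qPT sem_sPT)

variable {a b : ℝ}

/-- The common denominator. -/
def mN (a b : ℝ) : ℝ := 6 * qP a b ^ 2 * dP a b ^ 6

/-- The continuation of the diagonal, scaled; `k` is the constant over `dP ^ 2`. -/
def xN (a b x k : ℝ) : ℝ :=
  x * sP a b ^ 6 + k * dP a b ^ 2 * (sP a b ^ 4 * dP a b ^ 2 - sP a b ^ 6)

/-- Its derivative, scaled. -/
def yN (a b x k : ℝ) : ℝ :=
  6 * x * sP a b ^ 6 + k * dP a b ^ 2 * (4 * sP a b ^ 4 * dP a b ^ 2 - 6 * sP a b ^ 6)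

/-- The weight at cosine one. -/
def uN (a b x k : ℝ) : ℝ := qP a b * (dP a b ^ 6 - xN a b x k)

/-- Its derivative. -/
def wN (a b x k : ℝ) : ℝ :=
  pP a b * qP a b * yN a b x k - gP a b ^ 2 * (dP a b ^ 6 - xN a b x k)

/-- The slope in the cosine, reversed; `al` and `be` are its two constants times `dP ^ 2`. -/
def hN (a b al be : ℝ) : ℝ :=
  6 * qP a b ^ 2 * dP a b ^ 2 * sP a b * (al * dP a b + be * (dP a b - sP a b))

/-- Its largest value on the box. -/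
def hM (a b : ℝ) : ℝ := hN a b (19 / 100) (53 / 100)

/-- A fact, scaled. -/
def monoN (a b x k : ℝ) : ℝ := wN a b x k + 5 / 2 * pP a b * uN a b x k

/-- A fact, scaled. -/
def zeroN (a b x k : ℝ) : ℝ := wN a b x k + (3 - pP a b) * uN a b x k

/-- A fact, scaled. -/
def topN (a b x k : ℝ) : ℝ := mN a b - (6 * qP a b - gP a b) * uN a b x k

/-- A fact, scaled. -/
def midN (a b x k : ℝ) : ℝ :=
  2 * mN a b + wN a b x k + (11 * pP a b - 6) * uN a b x k - (6 * qP a b + gP a b) * hM a b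

/-- A fact, scaled. -/
def crossN (a b x k : ℝ) : ℝ :=
  (6 - 2 * gP a b) * uN a b x k - (6 * qP a b + 5 / 2 * gP a b) * hM a b

/-- A fact, scaled. -/
def crosswN (a b x k : ℝ) : ℝ :=
  (6 + pP a b - 2 * gP a b) * uN a b x k - wN a b x k - (6 * qP a b + 5 / 2 * gP a b) * hM a b

/-- A fact, scaled. -/
def convN₀ (a b x k : ℝ) : ℝ :=
  3 * mN a b + 3 * wN a b x k + (15 * pP a b - 6) * uN a b x k

/-- A fact, scaled. -/
def convN₁ (a b x k : ℝ) : ℝ :=
  3 * mN a b + 3 * wN a b x k + (15 * pP a b - 6) * uN a b x k -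
    (6 - 8 * pP a b + gP a b) * hM a b

/-- Three times `dP` times the slope at the join, reversed, at the largest constant. -/
def jN (a b x k : ℝ) : ℝ :=
  6 * dP a b + (1 + eP a b) * (6 * x - 2 * k * dP a b ^ 2) - (1 - x) * (2 - 6 * eP a b) -
    12 * (19 / 100)

/-- The domination of the slope, scaled. -/
def slopeN (a b x k : ℝ) : ℝ :=
  dP a b * (2 * mN a b + 2 * wN a b x k - (6 - 10 * pP a b) * uN a b x k -
    (6 * qP a b + 2 * gP a b) * hM a b) - 2 * qP a b ^ 2 * sP a b ^ 6 * jN a b x k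

/-! ## The expressions for the kernel check -/

/-- `4 * mN`. -/
def mT : E := .mul (.k 6) (.mul (.pow qPT 2) (.pow dPT 6))

/-- `100 * xN`. -/
def xT (xn kn : ℤ) : E :=
  .add (.mul (.k xn) (.pow sPT 6))
    (.mul (.mul (.k kn) (.pow dPT 2))
      (.add (.mul (.pow sPT 4) (.pow dPT 2)) (.neg (.pow sPT 6))))

/-- `100 * yN`. -/
def yT (xn kn : ℤ) : E :=
  .add (.mul (.mul (.k 6) (.k xn)) (.pow sPT 6))
    (.mul (.mul (.k kn) (.pow dPT 2))
      (.add (.mul (.mul (.k 4) (.pow sPT 4)) (.pow dPT 2)) (.neg (.mul (.k 6) (.pow sPT 6)))))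

/-- `200 * uN`. -/
def uT (xn kn : ℤ) : E :=
  .mul qPT (.add (.mul (.k 100) (.pow dPT 6)) (.neg (xT xn kn)))

/-- `400 * wN`. -/
def wT (xn kn : ℤ) : E :=
  .add (.mul (.mul pPT qPT) (yT xn kn))
    (.neg (.mul (.pow gPT 2) (.add (.mul (.k 100) (.pow dPT 6)) (.neg (xT xn kn)))))

/-- `400 * hM`. -/
def hT : E :=
  .mul (.mul (.mul (.mul (.k 6) (.pow qPT 2)) (.pow dPT 2)) sPT)
    (.add (.mul (.k 19) dPT) (.mul (.k 53) (.add dPT (.neg sPT))))

/-- `100 * jN`. -/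
def jT (xn kn : ℤ) : E :=
  .add (.add (.add (.mul (.k 600) dPT)
      (.mul (.add (.k 1) ePT) (.add (.mul (.k 6) (.k xn)) (.neg (.mul (.mul (.k 2) (.k kn)) (.pow dPT 2))))))
    (.neg (.mul (.add (.k 100) (.neg (.k xn))) (.add (.k 2) (.neg (.mul (.k 6) ePT))))))
    (.neg (.k 228))

/-- `800 * monoN`. -/
def monoT (xn kn : ℤ) : E :=
  .add (.mul (.k 2) (wT xn kn)) (.mul (.mul (.k 5) pPT) (uT xn kn))

/-- `400 * zeroN`. -/
def zeroT (xn kn : ℤ) : E := .add (wT xn kn) (.mul (.add (.k 6) (.neg pPT)) (uT xn kn))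

/-- `400 * topN`. -/
def topT (xn kn : ℤ) : E :=
  .add (.mul (.k 100) mT) (.neg (.mul (.add (.mul (.k 6) qPT) (.neg gPT)) (uT xn kn)))

/-- `800 * midN`. -/
def midT (xn kn : ℤ) : E :=
  .add (.add (.add (.mul (.k 400) mT) (.mul (.k 2) (wT xn kn)))
    (.mul (.mul (.k 2) (.add (.mul (.k 11) pPT) (.neg (.k 12)))) (uT xn kn)))
    (.neg (.mul (.add (.mul (.k 6) qPT) gPT) hT))

/-- `1600 * crossN`. -/
def crossT (xn kn : ℤ) : E :=
  .add (.mul (.mul (.k 8) (.add (.k 6) (.neg gPT))) (uT xn kn))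
    (.neg (.mul (.add (.mul (.k 12) qPT) (.mul (.k 5) gPT)) hT))

/-- `1600 * crosswN`. -/
def crosswT (xn kn : ℤ) : E :=
  .add (.add (.mul (.mul (.k 4) (.add (.add (.k 12) pPT) (.neg (.mul (.k 2) gPT)))) (uT xn kn))
    (.neg (.mul (.k 4) (wT xn kn))))
    (.neg (.mul (.add (.mul (.k 12) qPT) (.mul (.k 5) gPT)) hT))

/-- `400 * convN₀`. -/
def convT₀ (xn kn : ℤ) : E :=
  .add (.add (.mul (.k 300) mT) (.mul (.k 3) (wT xn kn)))
    (.mul (.add (.mul (.k 15) pPT) (.neg (.k 12))) (uT xn kn))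

/-- `800 * convN₁`. -/
def convT₁ (xn kn : ℤ) : E :=
  .add (.add (.add (.mul (.k 600) mT) (.mul (.k 6) (wT xn kn)))
    (.mul (.mul (.k 2) (.add (.mul (.k 15) pPT) (.neg (.k 12)))) (uT xn kn)))
    (.neg (.mul (.add (.add (.k 12) (.neg (.mul (.k 8) pPT))) gPT) hT))

/-- `800 * slopeN`. -/
def slopeT (xn kn : ℤ) : E :=
  .add (.mul dPT (.add (.add (.add (.mul (.k 400) mT) (.mul (.k 4) (wT xn kn)))
      (.neg (.mul (.add (.k 24) (.neg (.mul (.k 20) pPT))) (uT xn kn))))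
      (.neg (.mul (.add (.mul (.k 6) qPT) (.mul (.k 2) gPT)) hT))))
    (.neg (.mul (.mul (.mul (.k 4) (.pow qPT 2)) (.pow sPT 6)) (jT xn kn)))

lemma sem_mT : E.sem ![a, b, 0] mT = 4 * mN a b := by
  simp only [mT, mN, E.sem, sem_qPT, sem_dPT]
  push_cast
  ring

lemma sem_uT (xn kn : ℤ) : E.sem ![a, b, 0] (uT xn kn) = 200 * uN a b (xn / 100) (kn / 100) := by
  simp only [uT, xT, uN, xN, E.sem, sem_qPT, sem_dPT, sem_sPT]
  push_cast
  ring

lemma sem_wT (xn kn : ℤ) : E.sem ![a, b, 0] (wT xn kn) = 400 * wN a b (xn / 100) (kn / 100) := by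
  simp only [wT, xT, yT, wN, xN, yN, E.sem, sem_pPT, sem_qPT, sem_gPT, sem_dPT, sem_sPT]
  push_cast
  ring

lemma sem_hT : E.sem ![a, b, 0] hT = 400 * hM a b := by
  simp only [hT, hM, hN, E.sem, sem_qPT, sem_dPT, sem_sPT]
  push_cast
  ring

lemma sem_jT (xn kn : ℤ) : E.sem ![a, b, 0] (jT xn kn) = 100 * jN a b (xn / 100) (kn / 100) := by
  simp only [jT, jN, E.sem, sem_ePT, sem_dPT]
  push_cast
  ring

/-- The degree in `a` raised, the value unchanged. -/
def elev (p : E) : E := .mul (.pow (.add (.x 0) (.bar 0)) 16) p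

/-- The check at the four corners of the box. -/
def okT (T : ℤ → ℤ → E) : Bool :=
  E.check2 (elev (T (-7) 0)) && E.check2 (elev (T 18 0)) &&
    E.check2 (elev (T (-7) 43)) && E.check2 (elev (T 18 43))

/-- An expression affine in both constants is nonnegative on the box if its multiples pass at the
corners. -/
lemma of_okT {f : ℝ → ℝ → ℝ} {T : ℤ → ℤ → E} {S : ℕ} (hok : okT T = true) (hS : 0 < S)
    (ha : a ∈ Icc (0 : ℝ) 1) (hb : b ∈ Icc (0 : ℝ) 1)
    (hsem : ∀ xn kn, E.sem ![a, b, 0] (T xn kn) = (S : ℝ) * f (xn / 100) (kn / 100))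
    (hf : ∀ x k, f x k = f 0 0 + x * (f 1 0 - f 0 0) + k * (f 0 1 - f 0 0)) {x k : ℝ}
    (hx : x ∈ Icc (-(7 / 100) : ℝ) (18 / 100)) (hk : k ∈ Icc (0 : ℝ) (43 / 100)) :
    0 ≤ f x k := by
  simp only [okT, Bool.and_eq_true] at hok
  obtain ⟨⟨⟨h1, h2⟩, h3⟩, h4⟩ := hok
  have key : ∀ xn kn : ℤ, E.check2 (elev (T xn kn)) = true →
      0 ≤ f ((xn : ℝ) / 100) ((kn : ℝ) / 100) := fun xn kn h =>
    E.nonneg_of_scaled h ha hb hS (by
      simp only [elev, E.sem, hsem]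
      ring)
  have c1 := key _ _ h1
  have c2 := key _ _ h2
  have c3 := key _ _ h3
  have c4 := key _ _ h4
  push_cast at c1 c2 c3 c4
  rw [hf] at c1 c2 c3 c4
  refine nonneg_of_mul_nonneg_right (a := 25 / 100 * (43 / 100)) ?_ (by norm_num)
  have hx0 : 0 ≤ x + 7 / 100 := by linarith [hx.1]
  have hx1 := sub_nonneg.2 hx.2
  have hk0 := hk.1
  have hk1 := sub_nonneg.2 hk.2
  rw [hf x k]
  linarith [mul_nonneg (mul_nonneg hx1 hk1) c1, mul_nonneg (mul_nonneg hx0 hk1) c2,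
    mul_nonneg (mul_nonneg hx1 hk0) c3, mul_nonneg (mul_nonneg hx0 hk0) c4]

end Vale.Agent.P219.CH.Relax.Seven.OutP
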