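import Vale.Agent.P219.Relax.Seven.Tangency
import Vale.Agent.P219.Relax.Six.OutProfile

/-!
# P219, dimension seven: the weight beyond the diameter as a function of the distance

The diagonal at cosine one is `XL * s ^ 6 + K * (s ^ 4 - s ^ 6)`, `s = sinh (2 R) / sinh r`; it lies
above the affine continuation of the marginal coefficient, as `sinh ^ 2` is convex. The slope in the
cosine is minus any function of `s`.
-/

noncomputable section

open Set Filter Topology

namespace Vale.Agent.P219.CH.Relax.Seven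

open Five (Pt pc gc yf tanh_sq_mem)
open _root_.Vale.Agent.P219.CH.Relax.Six (ratF ratF_far hasDerivAt_ratF hasDerivAt_gc)
open GenK.Four (tanh_pos)

/-- The continuation of the diagonal at cosine one. -/
def XF (XL K s : ℝ) : ℝ := XL * s ^ 6 + K * (s ^ 4 - s ^ 6)

/-- Its derivative in `s`, times `s`. -/
def XF' (XL K s : ℝ) : ℝ := 6 * XL * s ^ 6 + K * (4 * s ^ 4 - 6 * s ^ 6)

/-- The point beyond the diameter: `h` is minus the slope in the cosine as a function of `s` and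
`h1` its derivative. -/
def ptOut (e XL K : ℝ) (h h1 : ℝ → ℝ) (p g : ℝ) : Pt where
  U := (1 - XF XL K (ratF e g)) / (6 * (1 - p)) + h (ratF e g)
  U' := p * XF' XL K (ratF e g) / (6 * (1 - p)) -
    (1 - XF XL K (ratF e g)) * g ^ 2 / (6 * (1 - p) ^ 2) - p * (ratF e g * h1 (ratF e g))
  G := -h (ratF e g)
  G' := p * (ratF e g * h1 (ratF e g))
  p := p
  g := g

/-- The data at distance `r` beyond the diameter. -/
def ptFar (R XL K : ℝ) (h h1 : ℝ → ℝ) (r : ℝ) : Pt :=
  ptOut (Real.tanh R ^ 2) XL K h h1 (pc R r) (gc R r)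

/-- The diagonal at cosine one at the diameter. -/
def xlOf (e : ℝ) (V : ℝ → ℝ) : ℝ := 1 - 3 * (1 - e) * V 1

/-- The constant of the continuation. -/
def kOf (e b : ℝ) : ℝ := b * (1 - e) ^ 6 / (2 * (1 + e))

variable {R r XL K b : ℝ} {h h1 : ℝ → ℝ}

lemma ratF_mem (hR : 0 < R) (hr : 2 * R ≤ r) :
    ratF (Real.tanh R ^ 2) (gc R r) ∈ Ioc (0 : ℝ) 1 := by
  have hs : 0 < Real.sinh r := Real.sinh_pos_iff.2 (by linarith)
  rw [ratF_far hR]
  exact ⟨div_pos (Real.sinh_pos_iff.2 (by linarith)) hs,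
    (div_le_one hs).2 (Real.sinh_le_sinh.2 hr)⟩

/-- The derivatives of the weight are the data. -/
lemma hasDerivAt_far (hR : 0 < R) (hr : 2 * R ≤ r)
    (hh : ∀ s ∈ Ioc (0 : ℝ) 1, HasDerivAt h (h1 s) s) :
    HasDerivAt (fun r => Real.tanh R * (ptFar R XL K h h1 r).U) (ptFar R XL K h h1 r).U' r ∧
      HasDerivAt (fun r => Real.tanh R * (ptFar R XL K h h1 r).G)
        (ptFar R XL K h h1 r).G' r := by
  have h0 : 0 < r := by linarith
  have hs : Real.sinh r ≠ 0 := (Real.sinh_pos_iff.2 h0).ne'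
  have hT : Real.tanh R ≠ 0 := (tanh_pos hR).ne'
  have hp1 : 1 - pc R r ≠ 0 := (sub_pos.2 (Five.pc_lt_one hR hr)).ne'
  have hp : HasDerivAt (pc R) (-(gc R r ^ 2 / Real.tanh R)) r := by
    refine (Five.hasDerivAt_pc h0.ne').congr_deriv ?_
    rw [gc]
    field_simp
  have hq := hasDerivAt_ratF hR h0.ne'
  have hX : HasDerivAt (fun r => XF XL K (ratF (Real.tanh R ^ 2) (gc R r)))
      (-(pc R r / Real.tanh R) * XF' XL K (ratF (Real.tanh R ^ 2) (gc R r))) r := by
    unfold XF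
    refine (((hq.pow 6).const_mul XL).add (((hq.pow 4).sub (hq.pow 6)).const_mul K)).congr_deriv ?_
    simp only [XF']
    push_cast
    ring
  have hH := HasDerivAt.comp (h := fun r => ratF (Real.tanh R ^ 2) (gc R r)) r
    (hh _ (ratF_mem hR hr)) hq
  constructor
  · refine ((((hX.const_sub 1).div ((hp.const_sub 1).const_mul 6)
      (mul_ne_zero (by norm_num) hp1)).add hH).const_mul (Real.tanh R)).congr_deriv ?_
    simp only [ptFar, ptOut]
    field_simp
    ring
  · refine (hH.neg.const_mul (Real.tanh R)).congr_deriv ?_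
    simp only [ptFar, ptOut]
    field_simp

lemma diag_out_one {e p : ℝ} (g : ℝ) (hp : p < 1) :
    diag (ptOut e XL K h h1 p g) 1 = XF XL K (ratF e g) := by
  have : 1 - p ≠ 0 := (sub_pos.2 hp).ne'
  simp only [diag, k0, k1, k2, k3, ptOut]
  field_simp
  ring

/-- The growth rate of the affine continuation that the continuation dominates. -/
def farRate (R K : ℝ) : ℝ :=
  K * (1 + Real.tanh R ^ 2) * Real.sinh (2 * R) ^ 6 / Real.tanh R

/-- The rate is the volume coefficient. -/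
lemma farRate_kOf (hR : 0 < R) (b : ℝ) :
    farRate R (kOf (Real.tanh R ^ 2) b) = 32 * Real.tanh R ^ 5 * b := by
  have hT := (tanh_pos hR).ne'
  have hd := (sub_pos.2 (tanh_sq_mem hR).2).ne'
  have he : 1 + Real.tanh R ^ 2 ≠ 0 := by positivity
  rw [farRate, kOf, GenK.Four.sinh_eq, show 2 * R / 2 = R by ring]
  field_simp
  ring

/-- The diagonal at cosine one dominates the affine continuation. -/
lemma affine_le_far (hR : 0 < R) (hr : 2 * R ≤ r) (hK : 0 ≤ K) :
    XL * Real.sinh (2 * R) ^ 6 + farRate R K * (r - 2 * R) ≤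
      Real.sinh r ^ 6 * diag (ptFar R XL K h h1 r) 1 := by
  obtain ⟨L, hL⟩ : ∃ L, L = 2 * R := ⟨_, rfl⟩
  obtain ⟨w, hw⟩ : ∃ w, w = r - L := ⟨_, rfl⟩
  have hL0 : 0 < L := by linarith
  have hw0 : 0 ≤ w := by linarith
  have hr0 : 0 < r := by linarith
  have hs := Real.sinh_pos_iff.2 hr0
  have hsL := Real.sinh_pos_iff.2 hL0
  rw [ptFar, diag_out_one _ (Five.pc_lt_one hR hr), ratF_far hR, XF, ← hL]
  have hrate : farRate R K = 2 * K * Real.sinh L ^ 5 * Real.cosh L := by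
    have h := Five.pc_diam hR
    rw [pc, ← hL] at h
    have := (tanh_pos hR).ne'
    rw [farRate, ← hL]
    field_simp at h ⊢
    linear_combination -K * h
  have hconv : 2 * Real.sinh L * Real.cosh L * w ≤ Real.sinh r ^ 2 - Real.sinh L ^ 2 := by
    have e1 : Real.sinh r ^ 2 - Real.sinh L ^ 2 = Real.sinh w * Real.sinh (r + L) := by
      rw [hw, Real.sinh_sub, Real.sinh_add]
      linear_combination Real.sinh L ^ 2 * Real.cosh_sq r - Real.sinh r ^ 2 * Real.cosh_sq L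
    rw [e1, ← Real.sinh_two_mul]
    exact (mul_comm _ w).trans_le (mul_le_mul (Real.self_le_sinh_iff.2 hw0)
      (Real.sinh_le_sinh.2 (by linarith)) (Real.sinh_nonneg_iff.2 (by linarith))
      (Real.sinh_nonneg_iff.2 hw0))
  have e2 : Real.sinh r ^ 6 * (XL * (Real.sinh L / Real.sinh r) ^ 6 +
      K * ((Real.sinh L / Real.sinh r) ^ 4 - (Real.sinh L / Real.sinh r) ^ 6)) =
      XL * Real.sinh L ^ 6 + K * Real.sinh L ^ 4 * (Real.sinh r ^ 2 - Real.sinh L ^ 2) := by
    field_simp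
  rw [e2, hrate, ← hw]
  linarith [mul_le_mul_of_nonneg_left hconv (mul_nonneg hK (pow_nonneg hsL.le 4))]

/-- The two sides join with the derivative. -/
theorem ptFar_join (hR : 0 < R) {W : Wt}
    (hP : W.P 1 = -h 1) (hP1 : (1 - Real.tanh R ^ 2) / 2 * W.P1 1 =
      (1 + Real.tanh R ^ 2) / 2 * h1 1)
    (hj : (1 - Real.tanh R ^ 2) / 2 * (W.V1 1 - W.P 1) =
      (1 + Real.tanh R ^ 2) / (1 - Real.tanh R ^ 2) -
        (1 + 5 * (1 + Real.tanh R ^ 2) / 2) * W.V 1 - b * (1 - Real.tanh R ^ 2) ^ 5 / 6) :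
    ptFar R (xlOf (Real.tanh R ^ 2) W.V) (kOf (Real.tanh R ^ 2) b) h h1 (2 * R) =
      ptIn (Real.tanh R ^ 2) W 1 := by
  obtain ⟨e, he⟩ : ∃ e, e = Real.tanh R ^ 2 := ⟨_, rfl⟩
  rw [ptFar, Five.pc_diam hR, Five.gc_diam hR]
  rw [← he] at hP1 hj ⊢
  obtain ⟨he0, he1⟩ : e ∈ Ioo (0 : ℝ) 1 := he ▸ tanh_sq_mem hR
  have hd : 1 - e ≠ 0 := (sub_pos.2 he1).ne'
  have h2 : 1 + e ≠ 0 := by linarith
  have hr : ratF e ((1 - e) / 2) = 1 := by rw [ratF]; field_simp
  have hp : (1 : ℝ) - (1 + e) / 2 = (1 - e) / 2 := by ring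
  have hy : yf e 1 = 1 - e := by rw [yf]; ring
  have hX : XF (xlOf e W.V) (kOf e b) 1 = xlOf e W.V := by rw [XF]; ring
  have hX' : XF' (xlOf e W.V) (kOf e b) 1 = 6 * xlOf e W.V - 2 * kOf e b := by rw [XF']; ring
  simp only [ptOut, ptIn, hr, hp, hX, hX', hy, hP, one_mul, Pt.mk.injEq]
  refine ⟨?_, ?_, trivial, hP1.symm, by ring, by ring⟩
  · simp only [xlOf]
    field_simp
    ring
  · rw [show (1 - e) / 2 * (W.V1 1 - -h 1 - W.P1 1) =
      (1 - e) / 2 * (W.V1 1 - W.P 1) - (1 - e) / 2 * W.P1 1 by rw [hP]; ring, hP1, hj]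
    simp only [xlOf, kOf]
    field_simp
    ring

end Vale.Agent.P219.CH.Relax.Seven
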