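import Vale.Agent.P219.Relax.Seven.OutProfile
import Vale.Agent.P219.Relax.Six.Profile

/-!
# P219, dimension seven: the weight as a function of the distance

Inside the diameter the data are read at `t = tanh (r / 2) / tanh R`, beyond it at
`p = tanh R * coth r`. The two sides join with continuous first derivatives, and near the centre the
weight and its derivatives grow no faster than the inverse cube.
-/

noncomputable section

open Set Filter Topology

namespace Vale.Agent.P219.CH.Relax.Seven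

open Five (Pt tc pc gc yf yf_pos tanh_sq_mem tc_mem tc_diam pc_diam gc_diam hasDerivAt_tc
  hasDerivAt_glue)
open _root_.Vale.Agent.P219.CH.Relax.Six (ratF hasDerivAt_gc continuousOn_glue inv_tc_le)
open GenK.Four (tanh_pos)

/-- What the profile needs from a solution: the derivatives, the centre, the tangency equation and
the join with minus the slope `h` beyond the diameter. -/
structure Base (e b : ℝ) (W : Wt) (h h1 : ℝ → ℝ) : Prop where
  deriv : ∀ t ∈ Ioc (0 : ℝ) 1, HasDerivAt W.V (W.V1 t) t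
  deriv_slope : ∀ t ∈ Ioc (0 : ℝ) 1, HasDerivAt W.P (W.P1 t) t
  cont : ContinuousOn W.V1 (Ioc 0 1)
  cont_slope : ContinuousOn W.P1 (Ioc 0 1)
  centre : ∃ C, ∀ t ∈ Ioc (0 : ℝ) 1, |t ^ 2 * W.V t| ≤ C ∧ |t ^ 3 * W.V1 t| ≤ C
  centre_slope : ∃ C, ∀ t ∈ Ioc (0 : ℝ) 1, |t ^ 2 * W.P t| ≤ C ∧ |t ^ 3 * W.P1 t| ≤ C
  tangency : ∀ t ∈ Ioc (0 : ℝ) 1,
    HasDerivAt (margRat e W) (aSlope e W t + b / yf e t) t
  rate_nonneg : 0 ≤ b
  slope_end : W.P 1 = -h 1
  slope_end' : (1 - e) / 2 * W.P1 1 = (1 + e) / 2 * h1 1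
  join : (1 - e) / 2 * (W.V1 1 - W.P 1) =
    (1 + e) / (1 - e) - (1 + 5 * (1 + e) / 2) * W.V 1 - b * (1 - e) ^ 5 / 6
  deriv_out : ∀ s ∈ Ioc (0 : ℝ) 1, HasDerivAt h (h1 s) s
  cont_out : ContinuousOn h1 (Ioc 0 1)

/-- The free functions give every field but the two values at the join. -/
theorem Tan.base {e : ℝ} {q : Gen} {h h1 : ℝ → ℝ} (he : e ∈ Ioo (0 : ℝ) 1) (hq : q.IsDeriv)
    (hC : q.C 0 = -(26 * q.b / 15 + 2 * q.b * e / 5)) (hb : 0 ≤ q.b)
    (hP : (Tan.wtOf e q).P 1 = -h 1)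
    (hP1 : (1 - e) / 2 * (Tan.wtOf e q).P1 1 = (1 + e) / 2 * h1 1)
    (hh : ∀ s ∈ Ioc (0 : ℝ) 1, HasDerivAt h (h1 s) s) (hc : ContinuousOn h1 (Ioc 0 1)) :
    Base e q.b (Tan.wtOf e q) h h1 :=
  ⟨fun _ ht => Tan.deriv_V he hq ht, fun _ ht => Tan.deriv_P he hq ht, Tan.cont_V1 he hq,
    Tan.cont_P1 he hq, (Tan.centre he hq).1, Tan.centre_slope he hq hC,
    fun _ ht => Tan.tangency he hq ht, hb, hP, hP1, Tan.join he, hh, hc⟩

/-- The data at distance `r`. -/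
def ptR (R b : ℝ) (W : Wt) (h h1 : ℝ → ℝ) (r : ℝ) : Pt :=
  if r ≤ 2 * R then ptIn (Real.tanh R ^ 2) W (tc R r)
  else ptFar R (xlOf (Real.tanh R ^ 2) W.V) (kOf (Real.tanh R ^ 2) b) h h1 r

/-- The weight at cosine zero. -/
def uU (R b : ℝ) (W : Wt) (h h1 : ℝ → ℝ) (r : ℝ) : ℝ := Real.tanh R * (ptR R b W h h1 r).U

/-- The slope of the weight in the cosine. -/
def uG (R b : ℝ) (W : Wt) (h h1 : ℝ → ℝ) (r : ℝ) : ℝ := Real.tanh R * (ptR R b W h h1 r).G

variable {R b : ℝ} {W : Wt} {h h1 : ℝ → ℝ} {r : ℝ}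

lemma join_eq (hR : 0 < R) (hs : Base (Real.tanh R ^ 2) b W h h1) :
    ptFar R (xlOf (Real.tanh R ^ 2) W.V) (kOf (Real.tanh R ^ 2) b) h h1 (2 * R) =
      ptIn (Real.tanh R ^ 2) W 1 :=
  ptFar_join hR hs.slope_end hs.slope_end' hs.join

lemma ptR_out (hR : 0 < R) (hs : Base (Real.tanh R ^ 2) b W h h1) (hr : 2 * R ≤ r) :
    ptR R b W h h1 r = ptFar R (xlOf (Real.tanh R ^ 2) W.V) (kOf (Real.tanh R ^ 2) b) h h1 r := by
  rcases hr.eq_or_lt with h' | h'
  · rw [← h', ptR, if_pos le_rfl, tc_diam hR, join_eq hR hs]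
  · rw [ptR, if_neg (not_le.2 h')]

lemma ptIn_pg (hR : 0 < R) (hr : 0 < r) :
    (ptIn (Real.tanh R ^ 2) W (tc R r)).p = pc R r ∧
      (ptIn (Real.tanh R ^ 2) W (tc R r)).g = gc R r :=
  Five.ptIn_pg hR hr

lemma ptR_pg (hR : 0 < R) (hr : 0 < r) :
    (ptR R b W h h1 r).p = pc R r ∧ (ptR R b W h h1 r).g = gc R r := by
  unfold ptR
  split_ifs with h'
  · exact ptIn_pg hR hr
  · exact ⟨rfl, rfl⟩

/-! ## Derivatives -/

lemma hasDerivAt_in (hR : 0 < R) (hs : Base (Real.tanh R ^ 2) b W h h1)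
    (hr : r ∈ Ioc 0 (2 * R)) :
    HasDerivAt (fun r => Real.tanh R * (ptIn (Real.tanh R ^ 2) W (tc R r)).U)
        (ptIn (Real.tanh R ^ 2) W (tc R r)).U' r ∧
      HasDerivAt (fun r => Real.tanh R * (ptIn (Real.tanh R ^ 2) W (tc R r)).G)
        (ptIn (Real.tanh R ^ 2) W (tc R r)).G' r := by
  have hT := (tanh_pos hR).ne'
  have htm := tc_mem hR hr
  have ht := hasDerivAt_tc hR r
  have hV := (hs.deriv _ htm).comp r ht
  have hP := (hs.deriv_slope _ htm).comp r ht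
  constructor
  · refine ((hV.sub (ht.mul hP)).const_mul (Real.tanh R)).congr_deriv ?_
    simp only [ptIn, Function.comp_apply]
    field_simp
    ring
  · refine (hP.const_mul (Real.tanh R)).congr_deriv ?_
    simp only [ptIn]
    field_simp

lemma glue_field {F : Pt → ℝ} (R b : ℝ) (W : Wt) (h h1 : ℝ → ℝ) :
    (fun r => Real.tanh R * F (ptR R b W h h1 r)) = fun r => if r ≤ 2 * R then
      Real.tanh R * F (ptIn (Real.tanh R ^ 2) W (tc R r)) else Real.tanh R *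
        F (ptFar R (xlOf (Real.tanh R ^ 2) W.V) (kOf (Real.tanh R ^ 2) b) h h1 r) := by
  funext r
  unfold ptR
  split_ifs <;> rfl

theorem hasDerivAt_uU (hR : 0 < R) (hs : Base (Real.tanh R ^ 2) b W h h1) (hr : 0 < r) :
    HasDerivAt (uU R b W h h1) (ptR R b W h h1 r).U' r ∧
      HasDerivAt (uG R b W h h1) (ptR R b W h h1 r).G' r := by
  have hU : uU R b W h h1 = fun r => Real.tanh R * Pt.U (ptR R b W h h1 r) := rfl
  have hG : uG R b W h h1 = fun r => Real.tanh R * Pt.G (ptR R b W h h1 r) := rfl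
  rw [hU, hG, glue_field, glue_field]
  rcases lt_trichotomy r (2 * R) with h' | h' | h'
  · obtain ⟨a, a'⟩ := hasDerivAt_in hR hs ⟨hr, h'.le⟩
    have hev : ∀ᶠ x in 𝓝 r, x ≤ 2 * R :=
      eventually_of_mem (Iio_mem_nhds h') fun x hx => le_of_lt hx
    rw [ptR, if_pos h'.le]
    exact ⟨a.congr_of_eventuallyEq (hev.mono fun x hx => if_pos hx),
      a'.congr_of_eventuallyEq (hev.mono fun x hx => if_pos hx)⟩
  · subst h'
    obtain ⟨a, a'⟩ := hasDerivAt_in hR hs ⟨hr, le_rfl⟩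
    obtain ⟨c, c'⟩ := hasDerivAt_far (XL := xlOf (Real.tanh R ^ 2) W.V)
      (K := kOf (Real.tanh R ^ 2) b) hR (le_refl (2 * R)) hs.deriv_out
    have e : ptFar R (xlOf (Real.tanh R ^ 2) W.V) (kOf (Real.tanh R ^ 2) b) h h1 (2 * R) =
        ptIn (Real.tanh R ^ 2) W (tc R (2 * R)) := by
      rw [join_eq hR hs, tc_diam hR]
    rw [e] at c c'
    rw [ptR, if_pos le_rfl]
    exact ⟨hasDerivAt_glue a c (by rw [e]), hasDerivAt_glue a' c' (by rw [e])⟩
  · obtain ⟨c, c'⟩ := hasDerivAt_far (XL := xlOf (Real.tanh R ^ 2) W.V)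
      (K := kOf (Real.tanh R ^ 2) b) hR h'.le hs.deriv_out
    have hev : ∀ᶠ x in 𝓝 r, ¬ x ≤ 2 * R :=
      eventually_of_mem (Ioi_mem_nhds h') fun x hx => not_le.2 hx
    rw [ptR, if_neg (not_le.2 h')]
    exact ⟨c.congr_of_eventuallyEq (hev.mono fun x hx => if_neg hx),
      c'.congr_of_eventuallyEq (hev.mono fun x hx => if_neg hx)⟩

theorem continuousOn_deriv (hR : 0 < R) (hs : Base (Real.tanh R ^ 2) b W h h1) :
    ContinuousOn (fun r => (ptR R b W h h1 r).U') (Ioi 0) ∧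
      ContinuousOn (fun r => (ptR R b W h h1 r).G') (Ioi 0) := by
  have htc : ContinuousOn (tc R) (Ioc 0 (2 * R)) := fun r _ =>
    (hasDerivAt_tc hR r).continuousAt.continuousWithinAt
  have hm : MapsTo (tc R) (Ioc 0 (2 * R)) (Ioc 0 1) := fun r hr => tc_mem hR hr
  have hpc : ContinuousOn (pc R) (Ici (2 * R)) := fun r hr =>
    (Five.hasDerivAt_pc
      (show r ≠ 0 by linarith [show 2 * R ≤ r from hr])).continuousAt.continuousWithinAt
  have hgc : ContinuousOn (gc R) (Ici (2 * R)) := fun r hr =>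
    (hasDerivAt_gc (show r ≠ 0 by linarith [show 2 * R ≤ r from hr])).continuousAt.continuousWithinAt
  have hq : ContinuousOn (fun r => ratF (Real.tanh R ^ 2) (gc R r)) (Ici (2 * R)) := by
    unfold ratF; fun_prop
  have hh1 : ContinuousOn (fun r => h1 (ratF (Real.tanh R ^ 2) (gc R r))) (Ici (2 * R)) :=
    hs.cont_out.comp hq fun r hr => ratF_mem hR hr
  have hP0 : ContinuousOn W.P (Ioc 0 1) :=
    fun t ht => (hs.deriv_slope t ht).continuousAt.continuousWithinAt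
  have hP := hP0.comp htc hm
  have hP' := hs.cont_slope.comp htc hm
  have hV := hs.cont.comp htc hm
  have h1' : ∀ r ∈ Ici (2 * R), 6 * (1 - pc R r) ≠ 0 := fun r hr =>
    mul_ne_zero (by norm_num) (sub_pos.2 (Five.pc_lt_one hR hr)).ne'
  have h2' : ∀ r ∈ Ici (2 * R), 6 * (1 - pc R r) ^ 2 ≠ 0 := fun r hr =>
    mul_ne_zero (by norm_num) (pow_ne_zero 2 (sub_pos.2 (Five.pc_lt_one hR hr)).ne')
  refine ⟨continuousOn_glue (L := 2 * R) (by linarith)
      (f := fun r => (ptIn (Real.tanh R ^ 2) W (tc R r)).U')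
      (g := fun r => (ptFar R (xlOf (Real.tanh R ^ 2) W.V) (kOf (Real.tanh R ^ 2) b) h h1 r).U')
      ?_ ?_ (fun r hr => by rw [ptR, if_pos hr.2]) (fun r hr => by rw [ptR_out hR hs hr]),
    continuousOn_glue (L := 2 * R) (by linarith)
      (f := fun r => (ptIn (Real.tanh R ^ 2) W (tc R r)).G')
      (g := fun r => (ptFar R (xlOf (Real.tanh R ^ 2) W.V) (kOf (Real.tanh R ^ 2) b) h h1 r).G')
      ?_ ?_ (fun r hr => by rw [ptR, if_pos hr.2]) (fun r hr => by rw [ptR_out hR hs hr])⟩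
  · exact ((continuousOn_const.sub (continuousOn_const.mul (htc.pow 2))).div_const 2).mul
      ((hV.sub hP).sub (htc.mul hP'))
  · have hX : ContinuousOn (fun r => XF' (xlOf (Real.tanh R ^ 2) W.V) (kOf (Real.tanh R ^ 2) b)
        (ratF (Real.tanh R ^ 2) (gc R r))) (Ici (2 * R)) := by
      simp only [XF', ratF]; fun_prop
    have hX0 : ContinuousOn (fun r => XF (xlOf (Real.tanh R ^ 2) W.V) (kOf (Real.tanh R ^ 2) b)
        (ratF (Real.tanh R ^ 2) (gc R r))) (Ici (2 * R)) := by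
      simp only [XF, ratF]; fun_prop
    simp only [ptFar, ptOut]
    exact (((hpc.mul hX).div (continuousOn_const.mul (continuousOn_const.sub hpc)) h1').sub
      (((continuousOn_const.sub hX0).mul (hgc.pow 2)).div
        (continuousOn_const.mul ((continuousOn_const.sub hpc).pow 2)) h2')).sub
      (hpc.mul (hq.mul hh1))
  · exact ((continuousOn_const.sub (continuousOn_const.mul (htc.pow 2))).div_const 2).mul hP'
  · simp only [ptFar, ptOut]
    exact hpc.mul (hq.mul hh1)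

/-! ## The bound at the centre -/

lemma bound_in {e : ℝ} (he : e ∈ Ioo (0 : ℝ) 1) (hs : Base e b W h h1) :
    ∃ D, 0 ≤ D ∧ ∀ t ∈ Ioc (0 : ℝ) 1,
      |(ptIn e W t).U| ≤ D / t ^ 3 ∧ |(ptIn e W t).G| ≤ D / t ^ 3 ∧
      |(ptIn e W t).U'| ≤ D / t ^ 3 ∧ |(ptIn e W t).G'| ≤ D / t ^ 3 := by
  obtain ⟨C, hC⟩ := hs.centre
  obtain ⟨C', hC'⟩ := hs.centre_slope
  refine ⟨|C| + 2 * |C'|, by positivity, fun t ht => ?_⟩
  obtain ⟨hCV, hC1⟩ := hC t ht
  obtain ⟨hCP, hCP1⟩ := hC' t ht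
  obtain ⟨ht0, ht1⟩ := ht
  have ht3 : 0 < t ^ 3 := pow_pos ht0 3
  rw [abs_mul, abs_of_pos (pow_pos ht0 2)] at hCV hCP
  rw [abs_mul, abs_of_pos ht3] at hC1 hCP1
  have hC0 := abs_nonneg C
  have hC0' := abs_nonneg C'
  have hsmall : ∀ x : ℝ, 0 ≤ x → t * x ≤ x := fun x hx => mul_le_of_le_one_left hx ht1
  have hv : t ^ 3 * |W.V t| ≤ |C| :=
    le_trans (by nlinarith [hsmall (t ^ 2 * |W.V t|) (by positivity)]) (hCV.trans (le_abs_self C))
  have hp : t ^ 3 * |W.P t| ≤ |C'| :=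
    le_trans (by nlinarith [hsmall (t ^ 2 * |W.P t|) (by positivity)]) (hCP.trans (le_abs_self C'))
  have hv1 : t ^ 3 * |W.V1 t| ≤ |C| := hC1.trans (le_abs_self C)
  have hp1 : t ^ 3 * |W.P1 t| ≤ |C'| := hCP1.trans (le_abs_self C')
  have hy : yf e t ∈ Icc (0 : ℝ) 1 := ⟨(yf_pos he ⟨ht0.le, ht1⟩).le, by
    rw [yf]; linarith [mul_nonneg he.1.le (sq_nonneg t)]⟩
  have hy' : |yf e t / 2| ≤ 1 := by
    rw [abs_of_nonneg (by linarith [hy.1])]; linarith [hy.2]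
  simp only [le_div_iff₀ ht3]
  refine ⟨?_, ?_, ?_, ?_⟩
  · have h' := abs_sub (W.V t) (t * W.P t)
    rw [abs_mul t, abs_of_pos ht0] at h'
    have h2 := mul_le_mul_of_nonneg_left
      (h'.trans (add_le_add_right (hsmall _ (abs_nonneg (W.P t))) _)) ht3.le
    simp only [ptIn]
    linarith
  · simp only [ptIn]
    linarith
  · have h' := abs_sub (W.V1 t - W.P t) (t * W.P1 t)
    have h'' := abs_sub (W.V1 t) (W.P t)
    rw [abs_mul t, abs_of_pos ht0] at h'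
    have h3 := mul_le_of_le_one_left (abs_nonneg (W.V1 t - W.P t - t * W.P1 t)) hy'
    have h4 := mul_le_mul_of_nonneg_left
      (h3.trans (h'.trans (add_le_add h'' (hsmall _ (abs_nonneg (W.P1 t)))))) ht3.le
    simp only [ptIn, abs_mul]
    linarith
  · have h3 := mul_le_of_le_one_left (abs_nonneg (W.P1 t)) hy'
    have h4 := mul_le_mul_of_nonneg_left h3 ht3.le
    simp only [ptIn, abs_mul]
    linarith

/-- The profile is smooth with the growth of the regularisation. -/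
theorem smooth_seven (hR : 0 < R) (hs : Base (Real.tanh R ^ 2) b W h h1) :
    Profile2D.Smooth (fun r c => uU R b W h h1 r + c * uG R b W h h1 r)
      (fun r c => (ptR R b W h h1 r).U' + c * (ptR R b W h h1 r).G') (fun r _ => uG R b W h h1 r) := by
  obtain ⟨hcU, hcG⟩ := continuousOn_deriv hR hs
  have hcu : ContinuousOn (uU R b W h h1) (Ioi 0) ∧ ContinuousOn (uG R b W h h1) (Ioi 0) :=
    ⟨fun r hr => (hasDerivAt_uU hR hs hr).1.continuousAt.continuousWithinAt,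
      fun r hr => (hasDerivAt_uU hR hs hr).2.continuousAt.continuousWithinAt⟩
  have hfst : MapsTo Prod.fst (Ioi (0 : ℝ) ×ˢ (univ : Set ℝ)) (Ioi 0) := fun x hx => hx.1
  refine ⟨fun r hr c => (hasDerivAt_uU hR hs hr).1.add ((hasDerivAt_uU hR hs hr).2.const_mul c),
    fun r _ c => (((hasDerivAt_id c).mul_const _).const_add _).congr_deriv (one_mul _),
    (hcU.comp continuousOn_fst hfst).add (continuousOn_snd.mul (hcG.comp continuousOn_fst hfst)),
    hcu.2.comp continuousOn_fst hfst, ?_⟩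
  obtain ⟨D, hD0, hD⟩ := bound_in (tanh_sq_mem hR) hs
  obtain ⟨M, hM⟩ : ∃ M, M = 2 * Real.tanh R / (1 - Real.tanh R ^ 2) := ⟨_, rfl⟩
  have hT := tanh_pos hR
  have hT1 : Real.tanh R ≤ 1 := (Real.tanh_lt_one R).le
  have key : ∀ f : ℝ → ℝ, ContinuousOn f (Ioi 0) →
      (∀ r ∈ Ioc 0 (2 * R), |f r| ≤ D / tc R r ^ 3) →
      ∃ E, ∀ r ∈ Ioc (0 : ℝ) 1, |f r| ≤ E / r ^ 3 := by
    intro f hf hb
    obtain ⟨E, hE⟩ := isCompact_Icc.exists_bound_of_continuousOn
      (hf.mono (fun r (hr : r ∈ Icc (2 * R) (max 1 (2 * R))) =>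
        show 0 < r from (by linarith : (0 : ℝ) < 2 * R).trans_le hr.1))
    have hM0 : 0 ≤ M := hM ▸ div_nonneg (by positivity) (sub_pos.2 (tanh_sq_mem hR).2).le
    refine ⟨max E 0 + D * M ^ 3, fun r hr => ?_⟩
    have hr3 : 0 < r ^ 3 := pow_pos hr.1 3
    rw [le_div_iff₀ hr3]
    rcases le_total r (2 * R) with h | h
    · have ht := tc_mem hR ⟨hr.1, h⟩
      have hi := inv_tc_le hR ⟨hr.1, h⟩
      rw [← hM, div_le_div_iff₀ ht.1 hr.1, one_mul] at hi
      have h1 := hb r ⟨hr.1, h⟩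
      rw [le_div_iff₀ (pow_pos ht.1 3)] at h1
      calc |f r| * r ^ 3 ≤ |f r| * (M * tc R r) ^ 3 :=
          mul_le_mul_of_nonneg_left (pow_le_pow_left₀ hr.1.le hi 3) (abs_nonneg _)
        _ = |f r| * tc R r ^ 3 * M ^ 3 := by ring
        _ ≤ D * M ^ 3 := mul_le_mul_of_nonneg_right h1 (pow_nonneg hM0 3)
        _ ≤ _ := le_add_of_nonneg_left (le_max_right _ _)
    · refine (mul_le_of_le_one_right (abs_nonneg _) (pow_le_one₀ hr.1.le hr.2)).trans ?_
      refine ((hE r ⟨h, hr.2.trans (le_max_left _ _)⟩).trans (le_max_left E 0)).trans ?_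
      exact le_add_of_nonneg_right (by positivity)
  have hin : ∀ r ∈ Ioc 0 (2 * R), ptR R b W h h1 r = ptIn (Real.tanh R ^ 2) W (tc R r) :=
    fun r hr => if_pos hr.2
  have habs : ∀ x, |Real.tanh R * x| ≤ |x| := fun x => by
    rw [abs_mul, abs_of_pos hT]
    exact mul_le_of_le_one_left (abs_nonneg _) hT1
  obtain ⟨E₁, g₁⟩ := key _ hcu.1 fun r hr => by
    rw [uU, hin r hr]; exact (habs _).trans (hD _ (tc_mem hR hr)).1
  obtain ⟨E₂, g₂⟩ := key _ hcu.2 fun r hr => by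
    rw [uG, hin r hr]; exact (habs _).trans (hD _ (tc_mem hR hr)).2.1
  obtain ⟨E₃, g₃⟩ := key _ hcU fun r hr => by
    rw [hin r hr]; exact (hD _ (tc_mem hR hr)).2.2.1
  obtain ⟨E₄, g₄⟩ := key _ hcG fun r hr => by
    rw [hin r hr]; exact (hD _ (tc_mem hR hr)).2.2.2
  refine ⟨|E₁| + |E₂| + |E₃| + |E₄|, fun r hr c => ?_⟩
  have hr3 : 0 < r ^ 3 := pow_pos hr.1 3
  have a1 := (le_div_iff₀ hr3).1 (g₁ r hr)
  have a2 := (le_div_iff₀ hr3).1 (g₂ r hr)
  have a3 := (le_div_iff₀ hr3).1 (g₃ r hr)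
  have a4 := (le_div_iff₀ hr3).1 (g₄ r hr)
  have bd : ∀ x : ℝ, x ≤ |x| ∧ 0 ≤ |x| * |c| ∧ x * |c| ≤ |x| * |c| := fun x =>
    ⟨le_abs_self x, by positivity, mul_le_mul_of_nonneg_right (le_abs_self x) (abs_nonneg c)⟩
  obtain ⟨c1, c1', c1''⟩ := bd E₁
  obtain ⟨c2, c2', c2''⟩ := bd E₂
  obtain ⟨c3, c3', c3''⟩ := bd E₃
  obtain ⟨c4, c4', c4''⟩ := bd E₄
  have := abs_nonneg E₁
  have := abs_nonneg E₂
  have := abs_nonneg E₃
  have := abs_nonneg E₄
  simp only [le_div_iff₀ hr3]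
  refine ⟨?_, ?_, ?_⟩
  · have h := mul_le_mul_of_nonneg_right (abs_add_le (uU R b W h h1 r) (c * uG R b W h h1 r)) hr3.le
    rw [abs_mul c] at h
    have := mul_le_mul_of_nonneg_left a2 (abs_nonneg c)
    linarith
  · have h := mul_le_mul_of_nonneg_right
      (abs_add_le (ptR R b W h h1 r).U' (c * (ptR R b W h h1 r).G')) hr3.le
    rw [abs_mul c] at h
    have := mul_le_mul_of_nonneg_left a4 (abs_nonneg c)
    linarith
  · linarith

end Vale.Agent.P219.CH.Relax.Seven
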