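import Vale.Agent.P219.Relax.Five.Defs

/-!
# P219, dimension seven, every curvature bound: the data at one distance

As in dimensions five and six the weight over `tanh R` is `U + c * G`, affine in the cosine, with
`p = tanh R * coth r` and `g = tanh R / sinh r`; inside the diameter it is read at the contact `t`.
-/

noncomputable section

open Set

namespace Vale.Agent.P219.CH.Relax.Seven

open Five (Pt yf)

/-- The kernel without the term of the slope in the cosine. -/
def ker (o : Pt) (c d : ℝ) : ℝ :=
  (1 - d ^ 2) * (o.U' + c * o.G') + (o.U + c * o.G) * (o.p * (5 + d ^ 2) - 6 * d)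

/-- The constant coefficient of the diagonal. -/
def k0 (o : Pt) : ℝ := 1 + o.U' + 5 * o.p * o.U

/-- The linear coefficient. -/
def k1 (o : Pt) : ℝ := o.G' + 5 * o.p * o.G - 6 * o.U + o.g * o.G

/-- The quadratic coefficient. -/
def k2 (o : Pt) : ℝ := -o.U' + o.p * o.U - 6 * o.G

/-- The cubic coefficient. -/
def k3 (o : Pt) : ℝ := -o.G' + o.p * o.G - o.g * o.G

/-- Half the symmetrised kernel at equal nonnegative cosines. -/
def diag (o : Pt) (c : ℝ) : ℝ := k0 o + k1 o * c + k2 o * c ^ 2 + k3 o * c ^ 3

/-- The derivative in `c` of `diag o c / c ^ 2`. -/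
def slope (o : Pt) (c : ℝ) : ℝ := -2 * k0 o / c ^ 3 - k1 o / c ^ 2 + k3 o

/-- A weight inside the diameter as functions of the contact: at `t` the weight over `tanh R` is
`V t + P t * (c - t)`. -/
structure Wt where
  /-- The weight at the contact cosine. -/
  V : ℝ → ℝ
  /-- Its derivative. -/
  V1 : ℝ → ℝ
  /-- The slope in the cosine. -/
  P : ℝ → ℝ
  /-- Its derivative. -/
  P1 : ℝ → ℝ

/-- The point at the contact `t`. -/
def ptIn (e : ℝ) (W : Wt) (t : ℝ) : Pt where
  U := W.V t - t * W.P t
  U' := yf e t / 2 * (W.V1 t - W.P t - t * W.P1 t)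
  G := W.P t
  G' := yf e t / 2 * W.P1 t
  p := (1 + e * t ^ 2) / (2 * t)
  g := yf e t / (2 * t)

/-- The marginal coefficient over the cosine, up to `64 tanh R ^ 6`, before the logarithm. -/
def margRat (e : ℝ) (W : Wt) (t : ℝ) : ℝ :=
  t ^ 4 * diag (ptIn e W t) t / yf e t ^ 6

/-- The slope of the marginal coefficient over the cosine, up to `64 tanh R ^ 6`. -/
def aSlope (e : ℝ) (W : Wt) (t : ℝ) : ℝ :=
  t ^ 6 / yf e t ^ 6 * slope (ptIn e W t) t

/-- The numerator of the factor of the weight in the contact diagonal. -/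
def contactNum (e x : ℝ) : ℝ := 5 + (5 * e - 11) * x + e * x ^ 2

/-- The diagonal at the contact involves only the weight there and its derivative. -/
lemma diag_ptIn {e : ℝ} {W : Wt} {t : ℝ} (ht : t ≠ 0) :
    diag (ptIn e W t) t = 1 + (1 - t ^ 2) * yf e t * W.V1 t / 2 +
      contactNum e (t ^ 2) / (2 * t) * W.V t := by
  simp only [diag, k0, k1, k2, k3, ptIn, yf, contactNum]
  field_simp
  ring

end Vale.Agent.P219.CH.Relax.Seven
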