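import Vale.Agent.P219.Relax.Seven.Out
import Vale.Agent.P219.Relax.Five.Strict
import Vale.Agent.P219.Relax.Profile2D.Strict

/-!
# P219, dimension seven: the certificates are strict

Given strict forms of the gain and pair facts the exact kernel exceeds what the line condition asks
of it except on the contact and where both cosines are one beyond the diameter. Beyond the diameter
the strict forms follow from the box through the reduction to dimension five.
-/

noncomputable section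

open Set Filter Topology MeasureTheory

namespace Vale.Agent.P219.CH.Relax.Seven.Strictly

open _root_.Vale.Agent.P219.CH.Relax.Five (Pt tc pc gc yf tanh_sq_mem tc_mem)
open _root_.Vale.Agent.P219.CH.Relax.Six (ratF)
open GenK.Four (tanh_pos)
open Profile2D (lowF lowF_inward lowF_mixed lowF_mixed' lowF_outward)

/-- The strict forms of the gain and of the mixed pairs. -/
structure GainLt (o : Pt) : Prop where
  inward : ∀ c ∈ Ioc (0 : ℝ) 1, ∀ d ∈ Ioc (0 : ℝ) 1, 0 < symX o c d + 2 * (c * d) * (o.g * o.U)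
  mixed : ∀ c ∈ Icc (0 : ℝ) 1, ∀ d ∈ Icc (0 : ℝ) 1,
    2 * (c * d) * (o.g * o.U) < symX o c (-d) ∧ 0 < symX o (-c) (-d)

/-- Strictness at every distance. -/
structure StrictFacts (e b q : ℝ) (W : Wt) (h h1 : ℝ → ℝ) : Prop where
  gain_in : ∀ t ∈ Ioc (0 : ℝ) 1, GainLt (ptIn e W t)
  gain_out : ∀ p g, Five.OutRange e p g → 2 * g < 1 - e →
    GainLt (ptOut e (xlOf e W.V) (kOf e b) h h1 p g)
  pair_in : ∀ t ∈ Ioc (0 : ℝ) 1, ∀ c ∈ Ioc (0 : ℝ) 1, ∀ d ∈ Ioc (0 : ℝ) 1, ¬(c = t ∧ d = t) →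
    c * d * (tanSum (ptIn e W t) t (c + d) + slope (ptIn e W t) t *
      (hLoss q t c * (c - t) ^ 2 + hLoss q t d * (d - t) ^ 2)) < symX (ptIn e W t) c d
  pair_out : ∀ p g, Five.OutRange e p g → 2 * g < 1 - e →
    ∀ c ∈ Ioc (0 : ℝ) 1, ∀ d ∈ Ioc (0 : ℝ) 1, ¬(c = 1 ∧ d = 1) →
      c * d * tanSum (ptOut e (xlOf e W.V) (kOf e b) h h1 p g) 1 (c + d) <
        symX (ptOut e (xlOf e W.V) (kOf e b) h h1 p g) c d

/-! ## Beyond the diameter -/

/-- The margins of the point of dimension five. -/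
lemma margin_five {o : Pt} (h : OutRaw o) (hG : o.G < 0) (hg : 0 < o.g) (hgp : o.g ≤ o.p) :
    Five.Strictly.Margin (outFive o) := by
  have hH : 0 < -o.G := neg_pos.2 hG
  have hpH := mul_le_mul_of_nonneg_right h.p_le hH.le
  have hgH := mul_pos hg hH
  refine ⟨?_, ?_, ?_, ?_, ?_, ?_⟩ <;> simp only [outFive]
  · linarith
  · linarith
  · linarith
  · linarith [h.top, h.cross]
  · linarith [h.w_mono, h.v_le, mul_nonneg h.p_nonneg hH.le, mul_nonneg h.p_nonneg h.pos.le]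
  · linarith [h.v_le, h.pos, mul_nonneg h.p_nonneg hH.le]

variable {e b q A B : ℝ} {W : Wt}

/-- Both strict forms beyond the diameter from the box. -/
theorem strict_out (he : e ∈ Ioo (0 : ℝ) 1) (hs : Base e b W (hOut A B) (h1Out A B))
    (hd : SlopeDown e W) (h : OutBox e (xlOf e W.V) (kOf e b) A B) (hA : 0 < A) {p g : ℝ}
    (hr : Five.OutRange e p g) (hlt : 2 * g < 1 - e) :
    GainLt (ptOut e (xlOf e W.V) (kOf e b) (hOut A B) (h1Out A B) p g) ∧
      ∀ c ∈ Ioc (0 : ℝ) 1, ∀ d ∈ Ioc (0 : ℝ) 1, ¬(c = 1 ∧ d = 1) →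
        c * d * tanSum (ptOut e (xlOf e W.V) (kOf e b) (hOut A B) (h1Out A B) p g) 1 (c + d) <
          symX (ptOut e (xlOf e W.V) (kOf e b) (hOut A B) (h1Out A B) p g) c d := by
  have hjoin := ptBox_join (A := A) (B := B) he (hs.slope_end.trans (by rw [hOut]; ring))
    (hs.slope_end'.trans (by rw [h1Out]; ring)) hs.join
  have hj := hd 1 ⟨zero_lt_one, le_rfl⟩
  rw [← hjoin] at hj
  obtain ⟨o, ho⟩ : ∃ o, o = ptOut e (xlOf e W.V) (kOf e b) (hOut A B) (h1Out A B) p g := ⟨_, rfl⟩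
  have hR : OutRaw o := by rw [ho]; exact (out_facts he h hj hr).1
  obtain ⟨hg0, hg2, hp0, -⟩ := hr
  have hgp : g ≤ p := (pow_le_pow_iff_left₀ hg0.le hp0.le two_ne_zero).1 (by linarith [he.1])
  have hs0 : 0 < ratF e g := div_pos (by linarith) (by linarith [he.2])
  have hs1 : ratF e g < 1 := by rw [ratF, div_lt_one (by linarith [he.2])]; linarith
  have hG : o.G < 0 := by
    have := mul_pos hs0 (add_pos_of_pos_of_nonneg hA
      (mul_nonneg h.b_nonneg (sub_nonneg.2 hs1.le)))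
    rw [ho]
    show -hOut A B (ratF e g) < 0
    rw [hOut]
    linarith
  have hog : o.g = g := by rw [ho]; rfl
  have hop : o.p = p := by rw [ho]; rfl
  have hm := margin_five hR hG (hog ▸ hg0) (by rw [hog, hop]; exact hgp)
  rw [← ho]
  refine ⟨⟨fun c hc d hd' => ?_, fun c hc d hd' => ?_⟩, fun c hc d hd' hne => ?_⟩
  · have h5 := Five.Strictly.gain_lt hR.good hm hc hd'
    rw [symX_outFive] at h5
    simp only [outFive] at h5
    linarith
  · have h5 := Five.Strictly.mixed_lt hR.good hm hc hd'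
    rw [symX_outFive, symX_outFive] at h5
    simp only [outFive] at h5
    exact ⟨by linarith [h5.1], h5.2⟩
  · have h5 := Five.Strictly.pair_lt hR.good hm ⟨zero_lt_one, le_rfl⟩ hR.endc hc hd' hne
    rw [symX_outFive, diag_outFive, slope_outFive] at h5
    exact h5

/-- The two fields of strictness beyond the diameter. -/
theorem strictOut (he : e ∈ Ioo (0 : ℝ) 1) (hs : Base e b W (hOut A B) (h1Out A B))
    (hd : SlopeDown e W) (h : OutBox e (xlOf e W.V) (kOf e b) A B) (hA : 0 < A)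
    (hgi : ∀ t ∈ Ioc (0 : ℝ) 1, GainLt (ptIn e W t))
    (hpi : ∀ t ∈ Ioc (0 : ℝ) 1, ∀ c ∈ Ioc (0 : ℝ) 1, ∀ d ∈ Ioc (0 : ℝ) 1, ¬(c = t ∧ d = t) →
      c * d * (tanSum (ptIn e W t) t (c + d) + slope (ptIn e W t) t *
        (hLoss q t c * (c - t) ^ 2 + hLoss q t d * (d - t) ^ 2)) < symX (ptIn e W t) c d) :
    StrictFacts e b q W (hOut A B) (h1Out A B) :=
  ⟨hgi, fun _ _ hr hlt => (strict_out he hs hd h hA hr hlt).1, hpi,
    fun _ _ hr hlt => (strict_out he hs hd h hA hr hlt).2⟩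

/-! ## The certificate -/

variable {R : ℝ} {h h1 : ℝ → ℝ}

lemma gc_lt (hR : 0 < R) {r : ℝ} (hr : 2 * R < r) :
    2 * gc R r < 1 - Real.tanh R ^ 2 := by
  have hL : 0 < Real.sinh (2 * R) := Real.sinh_pos_iff.2 (by linarith)
  have hlt : Real.sinh (2 * R) < Real.sinh r := Real.sinh_lt_sinh.2 hr
  have hd : 0 < 1 - Real.tanh R ^ 2 := sub_pos.2 (tanh_sq_mem hR).2
  have h1 : ratF (Real.tanh R ^ 2) (gc R r) < 1 := by
    rw [_root_.Vale.Agent.P219.CH.Relax.Six.ratF_far hR, div_lt_one (hL.trans hlt)]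
    exact hlt
  rwa [ratF, div_lt_one hd] at h1

lemma contact_sphere (hR : 0 < R) (r : ℝ) :
    Real.cosh R * (Real.cosh r - 1) = Real.sinh R * Real.sinh r * tc R r := by
  have := Real.cosh_pos (r / 2)
  have := Real.sinh_pos_iff.2 hR
  rw [tc, show r = 2 * (r / 2) by ring, Real.cosh_two_mul, Real.sinh_two_mul,
    show 2 * (r / 2) / 2 = r / 2 by ring, Real.tanh_eq_sinh_div_cosh, Real.tanh_eq_sinh_div_cosh]
  field_simp
  linear_combination Real.cosh_sq (r / 2)

lemma gain_all (hR : 0 < R) (hx : StrictFacts (Real.tanh R ^ 2) b q W h h1) {r : ℝ} (hr : 0 < r) :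
    GainLt (ptR R b W h h1 r) := by
  unfold ptR
  split_ifs with h'
  · exact hx.gain_in _ (tc_mem hR ⟨hr, h'⟩)
  · exact hx.gain_out _ _ (Five.outRange hR (not_le.1 h').le) (gc_lt hR (not_le.1 h'))

/-- An inward pair pays strictly more off the contact. -/
lemma pair_facts_lt (hR : 0 < R) (hs : Base (Real.tanh R ^ 2) b W h h1)
    (hf : CertFacts (Real.tanh R ^ 2) b q W h h1) (hx : StrictFacts (Real.tanh R ^ 2) b q W h h1)
    {r c d : ℝ} (hr : 0 < r) (hc : c ∈ Ioc (0 : ℝ) 1) (hd : d ∈ Ioc (0 : ℝ) 1)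
    (hne1 : r ≤ 2 * R → ¬(c = tc R r ∧ d = tc R r)) (hne2 : 2 * R < r → ¬(c = 1 ∧ d = 1)) :
    c * d * (margSeven R b W c + margSeven R b W d + 2 * betaSeven R b * r) <
      Real.sinh r ^ 6 * symX (ptR R b W h h1 r) c d := by
  have hS : 0 < Real.sinh r ^ 6 := pow_pos (Real.sinh_pos_iff.2 hr) 6
  rcases le_or_gt r (2 * R) with h' | h'
  · have ht := tc_mem hR ⟨hr, h'⟩
    rw [ptR, if_pos h']
    exact (pair_in_le hR hs hf rfl ht hc hd).trans_lt
      (mul_lt_mul_of_pos_left (hx.pair_in _ ht c hc d hd (hne1 h')) hS)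
  · rw [ptR, if_neg (not_le.2 h')]
    exact (pair_out_le hR hs hf h' hc hd).trans_lt (mul_lt_mul_of_pos_left
      (hx.pair_out _ _ (Five.outRange hR h'.le) (gc_lt hR h') c hc d hd (hne2 h')) hS)

lemma symX_comm (o : Pt) (c d : ℝ) : symX o c d = symX o d c := by
  simp only [symX]
  ring

/-- The exact kernel meets what is asked of it only on the contact. -/
lemma contact_of_eq (hR : 0 < R) (hs : Base (Real.tanh R ^ 2) b W h h1)
    (hf : CertFacts (Real.tanh R ^ 2) b q W h h1) (hx : StrictFacts (Real.tanh R ^ 2) b q W h h1)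
    {r c d : ℝ} (hr : 0 < r) (hc : c ∈ Icc (-1 : ℝ) 1) (hd : d ∈ Icc (-1 : ℝ) 1)
    (h0 : symX (ptR R b W h h1 r) c d = lowF 7 (aSeven R b W) (betaSeven R b)
      (fun r => 2 * (Real.sinh r ^ 5 * uU R b W h h1 r)) r c d) :
    Real.cosh R * (Real.cosh r - 1) = Real.sinh R * Real.sinh r * c ∨ (c = 1 ∧ 2 * R ≤ r) := by
  have hsr := Real.sinh_pos_iff.2 hr
  obtain ⟨hin, hmix⟩ := gain_all hR hx hr
  have hconv : 2 * (Real.sinh r ^ 5 * uU R b W h h1 r) / Real.sinh r ^ (7 - 1) =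
      2 * ((ptR R b W h h1 r).g * (ptR R b W h h1 r).U) := by
    rw [(ptR_pg hR hr).2, gc, uU, show (7 : ℕ) - 1 = 6 from rfl]
    field_simp
  have hz := aSeven_zero R b W
  rcases lt_or_ge 0 c with hcs | hcs <;> rcases lt_or_ge 0 d with hds | hds
  · have hcI : c ∈ Ioc (0 : ℝ) 1 := ⟨hcs, hc.2⟩
    have hdI : d ∈ Ioc (0 : ℝ) 1 := ⟨hds, hd.2⟩
    by_contra hne
    rw [not_or] at hne
    have h1' := pair_facts_lt hR hs hf hx hr hcI hdI
      (fun _ he => hne.1 (by rw [he.1]; exact contact_sphere hR r))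
      fun h' he => hne.2 ⟨he.1, h'.le⟩
    have h2 := hin c hcI d hdI
    rw [lowF_inward (Ioc_subset_Icc_self hcI) (Ioc_subset_Icc_self hdI)] at h0
    refine (max_lt ?_ ?_).ne' h0
    · rw [div_lt_iff₀ (pow_pos hsr _), aSeven_eq R b W hcI, aSeven_eq R b W hdI,
        show (7 : ℕ) - 1 = 6 from rfl]
      linarith
    · rw [neg_div, mul_div_assoc, hconv]
      linarith
  · obtain ⟨k, rfl⟩ : ∃ k, d = -k := ⟨-d, (neg_neg d).symm⟩
    have hk : k ∈ Icc (0 : ℝ) 1 := ⟨by linarith, by linarith [hd.1]⟩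
    have h' := (hmix c ⟨hcs.le, hc.2⟩ k hk).1
    rw [lowF_mixed hz ⟨hcs.le, hc.2⟩ hk, mul_div_assoc, hconv] at h0
    linarith
  · obtain ⟨k, rfl⟩ : ∃ k, c = -k := ⟨-c, (neg_neg c).symm⟩
    have hk : k ∈ Icc (0 : ℝ) 1 := ⟨by linarith, by linarith [hc.1]⟩
    have h' := (hmix d ⟨hds.le, hd.2⟩ k hk).1
    rw [lowF_mixed' hz ⟨hds.le, hd.2⟩ hk, mul_div_assoc, hconv, symX_comm] at h0
    linarith
  · obtain ⟨k, rfl⟩ : ∃ k, c = -k := ⟨-c, (neg_neg c).symm⟩
    obtain ⟨l, rfl⟩ : ∃ l, d = -l := ⟨-d, (neg_neg d).symm⟩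
    have h' := (hmix k ⟨by linarith, by linarith [hc.1]⟩ l ⟨by linarith, by linarith [hd.1]⟩).2
    rw [lowF_outward hz hcs hds] at h0
    linarith

/-- A solution with the strict forms gives a strict certificate. -/
theorem strictAt_seven (hR : 0 < R) (hs : Base (Real.tanh R ^ 2) b W h h1)
    (hf : CertFacts (Real.tanh R ^ 2) b q W h h1)
    (hx : StrictFacts (Real.tanh R ^ 2) b q W h h1) :
    ∃ kap, Rigid.StrictAt 7 R (aSeven R b W) (betaSeven R b) kap := by
  have hT := tanh_pos hR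
  obtain ⟨M, hM⟩ := isCompact_Icc.exists_bound_of_continuousOn (continuousOn_aSeven hR hs)
  refine ⟨_, Profile2D.strictAt_of_profile (by norm_num) hR (smooth_seven hR hs)
    (facts_seven hR hs hf) (L := fun r => 2 * (Real.sinh r ^ 5 * uU R b W h h1 r)) ?_
    (continuousOn_aSeven hR hs) (aSeven_zero R b W) (mul_nonneg (by positivity) hs.rate_nonneg)
    (measurable_aSeven hR hs) (fun c hc => aSeven_nonpos hR hs hf.down hc)
    ⟨M, fun c hc => (abs_le.1 (hM c hc)).1⟩ (value_aSeven hR hs hf.down)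
    fun r c d hr hc hd h0 => ?_⟩
  · exact continuousOn_const.mul ((Real.continuous_sinh.pow 5).continuousOn.mul fun r hr =>
      (hasDerivAt_uU hR hs hr).1.continuousAt.continuousWithinAt)
  · rw [symU_eq (b := b) (W := W) (h := h) (h1 := h1) hR hr (gain_at hR hf hr).1.slope_nonpos c d]
      at h0
    exact contact_of_eq hR hs hf hx hr hc hd h0

/-- Solutions with the strict forms for every `e` give strict certificates against every ball. -/
theorem strictCert_seven_of_sol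
    (hsol : ∀ e ∈ Ioo (0 : ℝ) 1, ∃ (b q : ℝ) (W : Wt) (h h1 : ℝ → ℝ),
      Base e b W h h1 ∧ CertFacts e b q W h h1 ∧ StrictFacts e b q W h h1) :
    Rigid.StrictCert 7 := by
  intro R hR
  obtain ⟨b, q, W, h, h1, hs, hf, hx⟩ := hsol _ (tanh_sq_mem hR)
  obtain ⟨kap, hk⟩ := strictAt_seven hR hs hf hx
  exact ⟨_, _, kap, hk⟩

end Vale.Agent.P219.CH.Relax.Seven.Strictly
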