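import Vale.Agent.P219.Relax.Seven.Pt

/-!
# P219, dimension seven: the symmetrised kernel at one distance
-/

noncomputable section

open Set

namespace Vale.Agent.P219.CH.Relax.Seven

open Five (Pt)

/-- The symmetrised kernel. -/
def symX (o : Pt) (c d : ℝ) : ℝ :=
  2 + ker o c d + ker o d c +
    o.g * o.G * (|c| + |d|) * (Real.sqrt (1 - c ^ 2) * Real.sqrt (1 - d ^ 2))

/-- The sum of the two tangents at the contact. -/
def tanSum (o : Pt) (t s : ℝ) : ℝ := 2 * diag o t / t ^ 2 + slope o t * (s - 2 * t)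

/-- What every distance provides: signs, the growth of the weight, the gain and the mixed pairs. -/
structure GainPt (o : Pt) : Prop where
  weight_pos : 0 < o.U + o.G
  slope_nonpos : o.G ≤ 0
  mono : 0 ≤ o.U' + 5 * o.p * o.U
  gain : ∀ c ∈ Icc (-1 : ℝ) 1, ∀ d ∈ Icc (-1 : ℝ) 1,
    0 ≤ symX o c d + 2 * |c * d| * (o.g * Real.sqrt ((o.U + c * o.G) * (o.U + d * o.G)))
  mixed : ∀ c ∈ Icc (0 : ℝ) 1, ∀ d ∈ Icc (0 : ℝ) 1,
    2 * (c * d) * (o.g * o.U) ≤ symX o c (-d) ∧ 0 ≤ symX o (-c) (-d)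

end Vale.Agent.P219.CH.Relax.Seven
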