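import Vale.Agent.P219.Relax.Seven.Pt

/-!
# P219, dimension seven: every solution of the tangency equation

For free functions `C`, `F` of `x = t ^ 2` and the rate `b` the weight at the contact is
`a / x + o / t` and the slope in the cosine `pa / t ^ 3 + po / x`, all four smooth on the closed
interval. The tangency equation and the join at the diameter hold identically.
-/

noncomputable section

open Set Filter Topology

namespace Vale.Agent.P219.CH.Relax.Seven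

open Five (yf)

/-- The rate and two free functions of `x = t ^ 2` with three derivatives each. -/
structure Gen where
  /-- The rate of the volume term. -/
  b : ℝ
  /-- The odd free function, less its value at zero. -/
  C : ℝ → ℝ
  /-- Its derivative. -/
  C1 : ℝ → ℝ
  /-- Its second derivative. -/
  C2 : ℝ → ℝ
  /-- Its third derivative. -/
  C3 : ℝ → ℝ
  /-- The even free function. -/
  F : ℝ → ℝ
  /-- Its derivative. -/
  F1 : ℝ → ℝ
  /-- Its second derivative. -/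
  F2 : ℝ → ℝ
  /-- Its third derivative. -/
  F3 : ℝ → ℝ

/-- The derivatives are the derivatives, on the closed unit interval. -/
structure Gen.IsDeriv (q : Gen) : Prop where
  dC : ∀ x ∈ Icc (0 : ℝ) 1, HasDerivAt q.C (q.C1 x) x
  dC1 : ∀ x ∈ Icc (0 : ℝ) 1, HasDerivAt q.C1 (q.C2 x) x
  dC2 : ∀ x ∈ Icc (0 : ℝ) 1, HasDerivAt q.C2 (q.C3 x) x
  dF : ∀ x ∈ Icc (0 : ℝ) 1, HasDerivAt q.F (q.F1 x) x
  dF1 : ∀ x ∈ Icc (0 : ℝ) 1, HasDerivAt q.F1 (q.F2 x) x
  dF2 : ∀ x ∈ Icc (0 : ℝ) 1, HasDerivAt q.F2 (q.F3 x) x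
  contC : ContinuousOn q.C3 (Icc 0 1)
  contF : ContinuousOn q.F3 (Icc 0 1)

namespace Tan

/-- The common factor in `x`. -/
def yl (e x : ℝ) : ℝ := 1 - e * x

/-- The odd free function; its value at zero makes the weight grow no faster than the square. -/
def fa (q : Gen) (x : ℝ) : ℝ := -(2 * q.b) / 3 + x * q.C x

/-- Its derivative. -/
def fa1 (q : Gen) (x : ℝ) : ℝ := q.C x + x * q.C1 x

/-- Its second derivative. -/
def fa2 (q : Gen) (x : ℝ) : ℝ := 2 * q.C1 x + x * q.C2 x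

/-- Its third derivative. -/
def fa3 (q : Gen) (x : ℝ) : ℝ := 3 * q.C2 x + x * q.C3 x

/-- The odd source. -/
def rt (e : ℝ) (q : Gen) (x : ℝ) : ℝ :=
  9 * fa q x - 3 * q.C x - 2 * (1 - x) * fa1 q x - 2 * q.b * e / yl e x

/-- Its derivative. -/
def rt1 (e : ℝ) (q : Gen) (x : ℝ) : ℝ :=
  11 * fa1 q x - 3 * q.C1 x - 2 * (1 - x) * fa2 q x - 2 * q.b * e ^ 2 / yl e x ^ 2

/-- Its second derivative. -/
def rt2 (e : ℝ) (q : Gen) (x : ℝ) : ℝ :=
  13 * fa2 q x - 3 * q.C2 x - 2 * (1 - x) * fa3 q x - 4 * q.b * e ^ 3 / yl e x ^ 3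

/-- The even source. -/
def ro (q : Gen) (x : ℝ) : ℝ := (12 * x - 6) * q.F x - 2 * x * (1 - x) * q.F1 x

/-- Its derivative. -/
def ro1 (q : Gen) (x : ℝ) : ℝ :=
  12 * q.F x + (16 * x - 8) * q.F1 x - 2 * x * (1 - x) * q.F2 x

/-- Its second derivative. -/
def ro2 (q : Gen) (x : ℝ) : ℝ :=
  28 * q.F1 x + (20 * x - 10) * q.F2 x - 2 * x * (1 - x) * q.F3 x

/-- The part of the weight over `x`. -/
def wa (e : ℝ) (q : Gen) (x : ℝ) : ℝ := yl e x ^ 6 * rt e q x / 12

/-- Its derivative. -/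
def wa1 (e : ℝ) (q : Gen) (x : ℝ) : ℝ :=
  (yl e x ^ 6 * rt1 e q x - 6 * e * yl e x ^ 5 * rt e q x) / 12

/-- Its second derivative. -/
def wa2 (e : ℝ) (q : Gen) (x : ℝ) : ℝ :=
  (yl e x ^ 6 * rt2 e q x - 12 * e * yl e x ^ 5 * rt1 e q x +
    30 * e ^ 2 * yl e x ^ 4 * rt e q x) / 12

/-- The part of the weight over `t`. -/
def wo (e : ℝ) (q : Gen) (x : ℝ) : ℝ := (1 + e * x) / yl e x + yl e x ^ 6 * ro q x / 12

/-- Its derivative. -/
def wo1 (e : ℝ) (q : Gen) (x : ℝ) : ℝ :=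
  2 * e / yl e x ^ 2 + (yl e x ^ 6 * ro1 q x - 6 * e * yl e x ^ 5 * ro q x) / 12

/-- Its second derivative. -/
def wo2 (e : ℝ) (q : Gen) (x : ℝ) : ℝ :=
  4 * e ^ 2 / yl e x ^ 3 + (yl e x ^ 6 * ro2 q x - 12 * e * yl e x ^ 5 * ro1 q x +
    30 * e ^ 2 * yl e x ^ 4 * ro q x) / 12

/-- The part of the slope over `t ^ 3`. -/
def pa (e : ℝ) (q : Gen) (x : ℝ) : ℝ :=
  yl e x ^ 5 * fa q x + 2 * x * wa1 e q x - 2 * wa e q x +
    5 * (1 + e * x) * wa e q x / yl e x

/-- Its derivative. -/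
def pa1 (e : ℝ) (q : Gen) (x : ℝ) : ℝ :=
  yl e x ^ 5 * fa1 q x - 5 * e * yl e x ^ 4 * fa q x + 2 * x * wa2 e q x +
    5 * (1 + e * x) * wa1 e q x / yl e x + 10 * e * wa e q x / yl e x ^ 2

/-- The part of the slope over `x`. -/
def po (e : ℝ) (q : Gen) (x : ℝ) : ℝ :=
  x * (yl e x ^ 5 * q.F x + 2 * wo1 e q x) + (5 * (1 + e * x) / yl e x - 1) * wo e q x

/-- Its derivative. -/
def po1 (e : ℝ) (q : Gen) (x : ℝ) : ℝ :=
  yl e x ^ 5 * q.F x + 2 * wo1 e q x +
    x * (yl e x ^ 5 * q.F1 x - 5 * e * yl e x ^ 4 * q.F x + 2 * wo2 e q x) +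
    (5 * (1 + e * x) / yl e x - 1) * wo1 e q x + 10 * e * wo e q x / yl e x ^ 2

/-- The weight of the free functions. -/
def wtOf (e : ℝ) (q : Gen) : Wt where
  V t := wa e q (t ^ 2) / t ^ 2 + wo e q (t ^ 2) / t
  V1 t := 2 * wa1 e q (t ^ 2) / t - 2 * wa e q (t ^ 2) / t ^ 3 + 2 * wo1 e q (t ^ 2) -
    wo e q (t ^ 2) / t ^ 2
  P t := pa e q (t ^ 2) / t ^ 3 + po e q (t ^ 2) / t ^ 2
  P1 t := 2 * pa1 e q (t ^ 2) / t ^ 2 - 3 * pa e q (t ^ 2) / t ^ 4 + 2 * po1 e q (t ^ 2) / t -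
    2 * po e q (t ^ 2) / t ^ 3

variable {e : ℝ} {q : Gen}

lemma yl_pos (he : e ∈ Ioo (0 : ℝ) 1) {x : ℝ} (hx : x ∈ Icc (0 : ℝ) 1) : 0 < yl e x := by
  have := mul_le_mul_of_nonneg_left hx.2 he.1.le
  rw [yl]
  linarith [he.2]

lemma hasDerivAt_yl (e x : ℝ) : HasDerivAt (yl e) (-e) x := by
  unfold yl
  exact (((hasDerivAt_id x).const_mul e).const_sub 1).congr_deriv (by ring)

/-! ## Derivatives -/

lemma deriv_fa (hq : q.IsDeriv) {x : ℝ} (hx : x ∈ Icc (0 : ℝ) 1) :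
    HasDerivAt (fa q) (fa1 q x) x ∧ HasDerivAt (fa1 q) (fa2 q x) x ∧
      HasDerivAt (fa2 q) (fa3 q x) x := by
  have hid := hasDerivAt_id x
  refine ⟨?_, ?_, ?_⟩
  · refine ((hid.mul (hq.dC x hx)).const_add _ : HasDerivAt (fa q) _ x).congr_deriv ?_
    simp only [fa1, id_eq]; ring
  · refine ((hq.dC x hx).add (hid.mul (hq.dC1 x hx)) : HasDerivAt (fa1 q) _ x).congr_deriv ?_
    simp only [fa2, id_eq]; ring
  · refine (((hq.dC1 x hx).const_mul 2).add (hid.mul (hq.dC2 x hx)) :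
      HasDerivAt (fa2 q) _ x).congr_deriv ?_
    simp only [fa3, id_eq]; ring

lemma deriv_rt (he : e ∈ Ioo (0 : ℝ) 1) (hq : q.IsDeriv) {x : ℝ} (hx : x ∈ Icc (0 : ℝ) 1) :
    HasDerivAt (rt e q) (rt1 e q x) x ∧ HasDerivAt (rt1 e q) (rt2 e q x) x := by
  obtain ⟨h0, h1, h2⟩ := deriv_fa hq hx
  have hy := (yl_pos he hx).ne'
  have hw : HasDerivAt (fun z : ℝ => 2 * (1 - z)) (-2) x :=
    (((hasDerivAt_id x).const_sub 1).const_mul 2).congr_deriv (by ring)
  constructor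
  · refine ((((h0.const_mul 9).sub ((hq.dC x hx).const_mul 3)).sub (hw.mul h1)).sub
      ((hasDerivAt_const x (2 * q.b * e)).div (hasDerivAt_yl e x) hy) :
        HasDerivAt (rt e q) _ x).congr_deriv ?_
    simp only [rt1]
    field_simp
    ring
  · refine ((((h1.const_mul 11).sub ((hq.dC1 x hx).const_mul 3)).sub (hw.mul h2)).sub
      ((hasDerivAt_const x (2 * q.b * e ^ 2)).div ((hasDerivAt_yl e x).pow 2) (pow_ne_zero 2 hy)) :
        HasDerivAt (rt1 e q) _ x).congr_deriv ?_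
    simp only [rt2]
    push_cast
    field_simp
    ring

lemma deriv_ro (hq : q.IsDeriv) {x : ℝ} (hx : x ∈ Icc (0 : ℝ) 1) :
    HasDerivAt (ro q) (ro1 q x) x ∧ HasDerivAt (ro1 q) (ro2 q x) x := by
  have hid := hasDerivAt_id x
  have hw : HasDerivAt (fun z : ℝ => 2 * z * (1 - z)) (2 - 4 * x) x :=
    ((hid.const_mul 2).mul (hid.const_sub 1)).congr_deriv (by simp only [id_eq]; ring)
  constructor
  · refine ((((hid.const_mul 12).sub_const 6).mul (hq.dF x hx)).sub (hw.mul (hq.dF1 x hx)) :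
      HasDerivAt (ro q) _ x).congr_deriv ?_
    simp only [ro1, id_eq]; ring
  · refine ((((hq.dF x hx).const_mul 12).add
      (((hid.const_mul 16).sub_const 8).mul (hq.dF1 x hx))).sub (hw.mul (hq.dF2 x hx)) :
      HasDerivAt (ro1 q) _ x).congr_deriv ?_
    simp only [ro2, id_eq]; ring

lemma deriv_wa (he : e ∈ Ioo (0 : ℝ) 1) (hq : q.IsDeriv) {x : ℝ} (hx : x ∈ Icc (0 : ℝ) 1) :
    HasDerivAt (wa e q) (wa1 e q x) x ∧ HasDerivAt (wa1 e q) (wa2 e q x) x := by
  obtain ⟨h0, h1⟩ := deriv_rt he hq hx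
  have hy := hasDerivAt_yl e x
  constructor
  · refine (((hy.pow 6).mul h0).div_const 12 : HasDerivAt (wa e q) _ x).congr_deriv ?_
    simp only [wa1, Pi.pow_apply]
    push_cast
    ring
  · refine ((((hy.pow 6).mul h1).sub (((hy.pow 5).const_mul (6 * e)).mul h0)).div_const 12 :
      HasDerivAt (wa1 e q) _ x).congr_deriv ?_
    simp only [wa2, Pi.pow_apply]
    push_cast
    ring

lemma deriv_wo (he : e ∈ Ioo (0 : ℝ) 1) (hq : q.IsDeriv) {x : ℝ} (hx : x ∈ Icc (0 : ℝ) 1) :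
    HasDerivAt (wo e q) (wo1 e q x) x ∧ HasDerivAt (wo1 e q) (wo2 e q x) x := by
  obtain ⟨h0, h1⟩ := deriv_ro hq hx
  have hy := hasDerivAt_yl e x
  have hy0 := (yl_pos he hx).ne'
  constructor
  · refine (((((hasDerivAt_id x).const_mul e).const_add 1).div hy hy0).add
      (((hy.pow 6).mul h0).div_const 12) : HasDerivAt (wo e q) _ x).congr_deriv ?_
    simp only [wo1, Pi.pow_apply, id_eq]
    push_cast
    field_simp
    simp only [yl]
    ring
  · refine (((hasDerivAt_const x (2 * e)).div (hy.pow 2) (pow_ne_zero 2 hy0)).add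
      ((((hy.pow 6).mul h1).sub (((hy.pow 5).const_mul (6 * e)).mul h0)).div_const 12) :
      HasDerivAt (wo1 e q) _ x).congr_deriv ?_
    simp only [wo2, Pi.pow_apply]
    push_cast
    field_simp
    ring

lemma deriv_slope_parts (he : e ∈ Ioo (0 : ℝ) 1) (hq : q.IsDeriv) {x : ℝ}
    (hx : x ∈ Icc (0 : ℝ) 1) :
    HasDerivAt (pa e q) (pa1 e q x) x ∧ HasDerivAt (po e q) (po1 e q x) x := by
  obtain ⟨hf, -, -⟩ := deriv_fa hq hx
  obtain ⟨ha, ha1⟩ := deriv_wa he hq hx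
  obtain ⟨ho, ho1⟩ := deriv_wo he hq hx
  have hy := hasDerivAt_yl e x
  have hy0 := (yl_pos he hx).ne'
  have hid := hasDerivAt_id x
  have hn : HasDerivAt (fun z : ℝ => 5 * (1 + e * z)) (5 * e) x :=
    (((hid.const_mul e).const_add 1).const_mul 5).congr_deriv (by ring)
  constructor
  · refine (((((hy.pow 5).mul hf).add ((hid.const_mul 2).mul ha1)).sub (ha.const_mul 2)).add
      ((hn.mul ha).div hy hy0) : HasDerivAt (pa e q) _ x).congr_deriv ?_
    simp only [pa1, Pi.pow_apply, id_eq, Pi.mul_apply]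
    push_cast
    field_simp
    simp only [yl]
    ring
  · refine ((hid.mul (((hy.pow 5).mul (hq.dF x hx)).add (ho1.const_mul 2))).add
      (((hn.div hy hy0).sub_const 1).mul ho) : HasDerivAt (po e q) _ x).congr_deriv ?_
    simp only [po1, Pi.pow_apply, id_eq, Pi.mul_apply, Pi.add_apply, Pi.div_apply]
    push_cast
    field_simp
    simp only [yl]
    ring

lemma comp_sq {f : ℝ → ℝ} {f' t : ℝ} (h : HasDerivAt f f' (t ^ 2)) :
    HasDerivAt (fun s => f (s ^ 2)) (f' * (2 * t)) t := by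
  have := HasDerivAt.comp (h := fun s : ℝ => s ^ 2) t h (hasDerivAt_pow 2 t)
  exact this.congr_deriv (by push_cast; ring)

lemma sq_mem {t : ℝ} (ht : t ∈ Icc (0 : ℝ) 1) : t ^ 2 ∈ Icc (0 : ℝ) 1 :=
  ⟨sq_nonneg t, pow_le_one₀ ht.1 ht.2⟩

theorem deriv_V (he : e ∈ Ioo (0 : ℝ) 1) (hq : q.IsDeriv) {t : ℝ} (ht : t ∈ Ioc (0 : ℝ) 1) :
    HasDerivAt (wtOf e q).V ((wtOf e q).V1 t) t := by
  have ht0 := ht.1.ne'
  have hx := sq_mem (Ioc_subset_Icc_self ht)
  refine (((comp_sq (deriv_wa he hq hx).1).div (hasDerivAt_pow 2 t) (pow_ne_zero 2 ht0)).add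
    ((comp_sq (deriv_wo he hq hx).1).div (hasDerivAt_id t) ht0) :
    HasDerivAt (wtOf e q).V _ t).congr_deriv ?_
  simp only [wtOf]
  push_cast
  field_simp
  ring

theorem deriv_P (he : e ∈ Ioo (0 : ℝ) 1) (hq : q.IsDeriv) {t : ℝ} (ht : t ∈ Ioc (0 : ℝ) 1) :
    HasDerivAt (wtOf e q).P ((wtOf e q).P1 t) t := by
  have ht0 := ht.1.ne'
  have hx := sq_mem (Ioc_subset_Icc_self ht)
  refine (((comp_sq (deriv_slope_parts he hq hx).1).div (hasDerivAt_pow 3 t) (pow_ne_zero 3 ht0)).add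
    ((comp_sq (deriv_slope_parts he hq hx).2).div (hasDerivAt_pow 2 t) (pow_ne_zero 2 ht0)) :
    HasDerivAt (wtOf e q).P _ t).congr_deriv ?_
  simp only [wtOf]
  push_cast
  field_simp
  ring

/-! ## The tangency equation -/

/-- The part of the reduced marginal coefficient with the factor `t`. -/
def ma (e : ℝ) (q : Gen) (x : ℝ) : ℝ :=
  ((1 - x) * yl e x * (2 * x * wa1 e q x - 2 * wa e q x) + contactNum e x * wa e q x) / 2

/-- The part with the factor `x`. -/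
def mo (e : ℝ) (q : Gen) (x : ℝ) : ℝ :=
  x + ((1 - x) * yl e x * (2 * x * wo1 e q x - wo e q x) + contactNum e x * wo e q x) / 2

lemma margRat_eq {t : ℝ} :
    margRat e (wtOf e q) t = (t ^ 2 * mo e q (t ^ 2) + t * ma e q (t ^ 2)) / yl e (t ^ 2) ^ 6 := by
  have hy : yf e t = yl e (t ^ 2) := rfl
  rcases eq_or_ne t 0 with rfl | ht
  · simp [margRat]
  rw [margRat, diag_ptIn ht, hy]
  simp only [wtOf, ma, mo]
  field_simp
  ring

/-- The tangency equation holds identically. -/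
theorem tangency (he : e ∈ Ioo (0 : ℝ) 1) (hq : q.IsDeriv) {t : ℝ} (ht : t ∈ Ioc (0 : ℝ) 1) :
    HasDerivAt (margRat e (wtOf e q)) (aSlope e (wtOf e q) t + q.b / yf e t) t := by
  have hx := sq_mem (Ioc_subset_Icc_self ht)
  have hy := (yl_pos he hx).ne'
  have ht0 := ht.1.ne'
  have hid := hasDerivAt_id (t ^ 2)
  have hw : HasDerivAt (fun z : ℝ => (1 - z) * yl e z) (-(1 + e) + 2 * e * t ^ 2) (t ^ 2) :=
    ((hid.const_sub 1).mul (hasDerivAt_yl e _)).congr_deriv (by simp only [id_eq, yl]; ring)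
  have hn : HasDerivAt (contactNum e) (5 * e - 11 + 2 * e * t ^ 2) (t ^ 2) :=
    (((hid.const_mul (5 * e - 11)).const_add 5).add
      ((hasDerivAt_pow 2 (t ^ 2)).const_mul e)).congr_deriv (by push_cast; ring)
  obtain ⟨ha, ha1⟩ := deriv_wa he hq hx
  obtain ⟨ho, ho1⟩ := deriv_wo he hq hx
  have hma : HasDerivAt (ma e q) _ (t ^ 2) :=
    ((hw.mul (((hid.const_mul 2).mul ha1).sub (ha.const_mul 2))).add (hn.mul ha)).div_const 2
  have hmo : HasDerivAt (mo e q) _ (t ^ 2) :=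
    hid.add (((hw.mul (((hid.const_mul 2).mul ho1).sub ho)).add (hn.mul ho)).div_const 2)
  have hd := (((hasDerivAt_pow 2 t).mul (comp_sq hmo)).add
    ((hasDerivAt_id t).mul (comp_sq hma))).div
      ((comp_sq (hasDerivAt_yl e (t ^ 2))).pow 6) (pow_ne_zero 6 hy)
  have hev : margRat e (wtOf e q) =
      fun s => (s ^ 2 * mo e q (s ^ 2) + s * ma e q (s ^ 2)) / yl e (s ^ 2) ^ 6 :=
    funext fun _ => margRat_eq
  rw [hev]
  refine (hd : HasDerivAt (fun s =>
    (s ^ 2 * mo e q (s ^ 2) + s * ma e q (s ^ 2)) / yl e (s ^ 2) ^ 6) _ t).congr_deriv ?_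
  simp only [aSlope, slope, k0, k1, k3, ptIn, wtOf, ma, mo, pa, pa1, po, po1, contactNum,
    Pi.mul_apply, Pi.add_apply, Pi.sub_apply, Pi.pow_apply, id_eq,
    show yf e t = yl e (t ^ 2) from rfl]
  generalize wa1 e q (t ^ 2) = A1
  generalize wa2 e q (t ^ 2) = A2
  generalize wo1 e q (t ^ 2) = O1
  generalize wo2 e q (t ^ 2) = O2
  simp only [wa, wo, rt, ro, fa, fa1]
  generalize q.C (t ^ 2) = c0
  generalize q.C1 (t ^ 2) = c1
  generalize q.F (t ^ 2) = f0
  generalize q.F1 (t ^ 2) = f1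
  push_cast
  field_simp
  simp only [yl]
  ring

/-- The join at the diameter holds identically. -/
theorem join (he : e ∈ Ioo (0 : ℝ) 1) :
    (1 - e) / 2 * ((wtOf e q).V1 1 - (wtOf e q).P 1) =
      (1 + e) / (1 - e) - (1 + 5 * (1 + e) / 2) * (wtOf e q).V 1 - q.b * (1 - e) ^ 5 / 6 := by
  have h : (1 : ℝ) - e ≠ 0 := (sub_pos.2 he.2).ne'
  simp only [wtOf, pa, po, one_pow, mul_one, div_one]
  generalize wa1 e q 1 = A1
  generalize wo1 e q 1 = O1
  simp only [wa, wo, rt, ro, fa, fa1, yl, mul_one]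
  field_simp
  ring

/-! ## Continuity and the centre -/

lemma continuousOn_parts (he : e ∈ Ioo (0 : ℝ) 1) (hq : q.IsDeriv) :
    (ContinuousOn (wa e q) (Icc 0 1) ∧ ContinuousOn (wa1 e q) (Icc 0 1) ∧
      ContinuousOn (wo e q) (Icc 0 1) ∧ ContinuousOn (wo1 e q) (Icc 0 1)) ∧
    (ContinuousOn (pa e q) (Icc 0 1) ∧ ContinuousOn (pa1 e q) (Icc 0 1) ∧
      ContinuousOn (po e q) (Icc 0 1) ∧ ContinuousOn (po1 e q) (Icc 0 1)) := by
  have hC : ContinuousOn q.C (Icc 0 1) := fun x hx => (hq.dC x hx).continuousAt.continuousWithinAt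
  have hC1 : ContinuousOn q.C1 (Icc 0 1) :=
    fun x hx => (hq.dC1 x hx).continuousAt.continuousWithinAt
  have hC2 : ContinuousOn q.C2 (Icc 0 1) :=
    fun x hx => (hq.dC2 x hx).continuousAt.continuousWithinAt
  have hF : ContinuousOn q.F (Icc 0 1) := fun x hx => (hq.dF x hx).continuousAt.continuousWithinAt
  have hF1 : ContinuousOn q.F1 (Icc 0 1) :=
    fun x hx => (hq.dF1 x hx).continuousAt.continuousWithinAt
  have hF2 : ContinuousOn q.F2 (Icc 0 1) :=
    fun x hx => (hq.dF2 x hx).continuousAt.continuousWithinAt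
  have hC3 := hq.contC
  have hF3 := hq.contF
  have hy : ∀ x ∈ Icc (0 : ℝ) 1, yl e x ≠ 0 := fun x hx => (yl_pos he hx).ne'
  have hy2 : ∀ x ∈ Icc (0 : ℝ) 1, yl e x ^ 2 ≠ 0 := fun x hx => pow_ne_zero 2 (hy x hx)
  have hy3 : ∀ x ∈ Icc (0 : ℝ) 1, yl e x ^ 3 ≠ 0 := fun x hx => pow_ne_zero 3 (hy x hx)
  have hylc : ContinuousOn (yl e) (Icc 0 1) := by unfold yl; fun_prop
  refine ⟨⟨?_, ?_, ?_, ?_⟩, ?_, ?_, ?_, ?_⟩
  · unfold wa rt fa fa1; fun_prop (disch := assumption)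
  · unfold wa1 rt rt1 fa fa1 fa2; fun_prop (disch := assumption)
  · unfold wo ro; fun_prop (disch := assumption)
  · unfold wo1 ro ro1; fun_prop (disch := assumption)
  · unfold pa wa wa1 rt rt1 fa fa1 fa2; fun_prop (disch := assumption)
  · unfold pa1 wa wa1 wa2 rt rt1 rt2 fa fa1 fa2 fa3; fun_prop (disch := assumption)
  · unfold po wo wo1 ro ro1; fun_prop (disch := assumption)
  · unfold po1 wo wo1 wo2 ro ro1 ro2; fun_prop (disch := assumption)

theorem cont_V1 (he : e ∈ Ioo (0 : ℝ) 1) (hq : q.IsDeriv) :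
    ContinuousOn (wtOf e q).V1 (Ioc 0 1) := by
  obtain ⟨⟨ha, ha1, ho, ho1⟩, -⟩ := continuousOn_parts he hq
  have hsq : MapsTo (fun t : ℝ => t ^ 2) (Ioc 0 1) (Icc 0 1) :=
    fun t ht => sq_mem (Ioc_subset_Icc_self ht)
  replace ha := ha.comp (continuous_pow 2).continuousOn hsq
  replace ha1 := ha1.comp (continuous_pow 2).continuousOn hsq
  replace ho := ho.comp (continuous_pow 2).continuousOn hsq
  replace ho1 := ho1.comp (continuous_pow 2).continuousOn hsq
  have h1 : ∀ t ∈ Ioc (0 : ℝ) 1, t ≠ 0 := fun t ht => ht.1.ne'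
  exact (((continuousOn_const.mul ha1).div continuousOn_id h1).sub
    ((continuousOn_const.mul ha).div (continuous_pow 3).continuousOn
      fun t ht => pow_ne_zero 3 (h1 t ht))).add (continuousOn_const.mul ho1) |>.sub
    (ho.div (continuous_pow 2).continuousOn fun t ht => pow_ne_zero 2 (h1 t ht))

theorem cont_P1 (he : e ∈ Ioo (0 : ℝ) 1) (hq : q.IsDeriv) :
    ContinuousOn (wtOf e q).P1 (Ioc 0 1) := by
  obtain ⟨-, ha, ha1, ho, ho1⟩ := continuousOn_parts he hq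
  have hsq : MapsTo (fun t : ℝ => t ^ 2) (Ioc 0 1) (Icc 0 1) :=
    fun t ht => sq_mem (Ioc_subset_Icc_self ht)
  replace ha := ha.comp (continuous_pow 2).continuousOn hsq
  replace ha1 := ha1.comp (continuous_pow 2).continuousOn hsq
  replace ho := ho.comp (continuous_pow 2).continuousOn hsq
  replace ho1 := ho1.comp (continuous_pow 2).continuousOn hsq
  have h : ∀ k : ℕ, ∀ t ∈ Ioc (0 : ℝ) 1, t ^ k ≠ 0 := fun k t ht => pow_ne_zero k ht.1.ne'
  exact ((((continuousOn_const.mul ha1).div (continuous_pow 2).continuousOn (h 2)).sub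
    ((continuousOn_const.mul ha).div (continuous_pow 4).continuousOn (h 4))).add
    ((continuousOn_const.mul ho1).div continuousOn_id fun t ht => ht.1.ne')).sub
    ((continuousOn_const.mul ho).div (continuous_pow 3).continuousOn (h 3))

/-- At the centre the weight grows at most like the inverse square, the slope like the inverse
cube. -/
theorem centre (he : e ∈ Ioo (0 : ℝ) 1) (hq : q.IsDeriv) :
    (∃ C, ∀ t ∈ Ioc (0 : ℝ) 1,
      |t ^ 2 * (wtOf e q).V t| ≤ C ∧ |t ^ 3 * (wtOf e q).V1 t| ≤ C) ∧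
      ∃ C, ∀ t ∈ Ioc (0 : ℝ) 1,
        |t ^ 3 * (wtOf e q).P t| ≤ C ∧ |t ^ 4 * (wtOf e q).P1 t| ≤ C := by
  obtain ⟨⟨ha, ha1, ho, ho1⟩, hpa, hpa1, hpo, hpo1⟩ := continuousOn_parts he hq
  have hsq : MapsTo (fun t : ℝ => t ^ 2) (Icc 0 1) (Icc 0 1) := fun t ht => sq_mem ht
  replace ha := ha.comp (continuous_pow 2).continuousOn hsq
  replace ha1 := ha1.comp (continuous_pow 2).continuousOn hsq
  replace ho := ho.comp (continuous_pow 2).continuousOn hsq
  replace ho1 := ho1.comp (continuous_pow 2).continuousOn hsq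
  replace hpa := hpa.comp (continuous_pow 2).continuousOn hsq
  replace hpa1 := hpa1.comp (continuous_pow 2).continuousOn hsq
  replace hpo := hpo.comp (continuous_pow 2).continuousOn hsq
  replace hpo1 := hpo1.comp (continuous_pow 2).continuousOn hsq
  have hid : ContinuousOn (fun t : ℝ => t) (Icc 0 1) := continuousOn_id
  obtain ⟨M1, h1⟩ := isCompact_Icc.exists_bound_of_continuousOn (ha.add (hid.mul ho))
  obtain ⟨M2, h2⟩ := isCompact_Icc.exists_bound_of_continuousOn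
    ((((continuousOn_const (c := (2 : ℝ))).mul (hid.pow 2)).mul ha1).sub
      ((continuousOn_const (c := (2 : ℝ))).mul ha) |>.add
      (((continuousOn_const (c := (2 : ℝ))).mul (hid.pow 3)).mul ho1) |>.sub (hid.mul ho))
  obtain ⟨M3, h3⟩ := isCompact_Icc.exists_bound_of_continuousOn (hpa.add (hid.mul hpo))
  obtain ⟨M4, h4⟩ := isCompact_Icc.exists_bound_of_continuousOn
    ((((continuousOn_const (c := (2 : ℝ))).mul (hid.pow 2)).mul hpa1).sub
      ((continuousOn_const (c := (3 : ℝ))).mul hpa) |>.add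
      (((continuousOn_const (c := (2 : ℝ))).mul (hid.pow 3)).mul hpo1) |>.sub
      (((continuousOn_const (c := (2 : ℝ))).mul hid).mul hpo))
  refine ⟨⟨max M1 M2, fun t ht => ?_⟩, max M3 M4, fun t ht => ?_⟩
  · have ht0 := ht.1.ne'
    have a := h1 t (Ioc_subset_Icc_self ht)
    have b := h2 t (Ioc_subset_Icc_self ht)
    simp only [Real.norm_eq_abs, Pi.add_apply, Pi.sub_apply, Pi.mul_apply, Pi.pow_apply,
      Function.comp_apply] at a b
    refine ⟨le_trans (le_of_eq (congrArg _ ?_)) (a.trans (le_max_left _ _)),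
      le_trans (le_of_eq (congrArg _ ?_)) (b.trans (le_max_right _ _))⟩
    · simp only [wtOf]; field_simp
    · simp only [wtOf]; field_simp
  · have ht0 := ht.1.ne'
    have a := h3 t (Ioc_subset_Icc_self ht)
    have b := h4 t (Ioc_subset_Icc_self ht)
    simp only [Real.norm_eq_abs, Pi.add_apply, Pi.sub_apply, Pi.mul_apply, Pi.pow_apply,
      Function.comp_apply] at a b
    refine ⟨le_trans (le_of_eq (congrArg _ ?_)) (a.trans (le_max_left _ _)),
      le_trans (le_of_eq (congrArg _ ?_)) (b.trans (le_max_right _ _))⟩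
    · simp only [wtOf]; field_simp
    · simp only [wtOf]; field_simp

/-- With this value of the free function at zero the slope grows no faster than the inverse
square. -/
lemma pa_zero (hC : q.C 0 = -(26 * q.b / 15 + 2 * q.b * e / 5)) : pa e q 0 = 0 := by
  simp only [pa, wa, rt, fa, fa1, yl, hC]
  ring

/-- Then the slope is bounded by the inverse square and its derivative by the inverse cube. -/
theorem centre_slope (he : e ∈ Ioo (0 : ℝ) 1) (hq : q.IsDeriv)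
    (hC : q.C 0 = -(26 * q.b / 15 + 2 * q.b * e / 5)) :
    ∃ C, ∀ t ∈ Ioc (0 : ℝ) 1,
      |t ^ 2 * (wtOf e q).P t| ≤ C ∧ |t ^ 3 * (wtOf e q).P1 t| ≤ C := by
  obtain ⟨-, -, hpa1, hpo, hpo1⟩ := continuousOn_parts he hq
  obtain ⟨A, hA⟩ := isCompact_Icc.exists_bound_of_continuousOn hpa1
  obtain ⟨P, hP⟩ := isCompact_Icc.exists_bound_of_continuousOn hpo
  obtain ⟨P', hP'⟩ := isCompact_Icc.exists_bound_of_continuousOn hpo1
  refine ⟨5 * |A| + 2 * |P| + 2 * |P'|, fun t ht => ?_⟩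
  obtain ⟨ht0, ht1⟩ := ht
  have hx : t ^ 2 ∈ Icc (0 : ℝ) 1 := sq_mem ⟨ht0.le, ht1⟩
  have a : |pa e q (t ^ 2)| ≤ |A| * t ^ 2 := by
    have h := (convex_Icc (0 : ℝ) 1).norm_image_sub_le_of_norm_hasDerivWithin_le
      (fun z hz => (deriv_slope_parts he hq hz).1.hasDerivWithinAt)
      (fun z hz => (hA z hz).trans (le_abs_self A)) (left_mem_Icc.2 zero_le_one) hx
    rwa [pa_zero hC, sub_zero, sub_zero, Real.norm_eq_abs, Real.norm_eq_abs,
      abs_of_nonneg (sq_nonneg t)] at h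
  have a1 : |pa1 e q (t ^ 2)| ≤ |A| := (hA _ hx).trans (le_abs_self A)
  have b : |po e q (t ^ 2)| ≤ |P| := (hP _ hx).trans (le_abs_self P)
  have b1 : |po1 e q (t ^ 2)| ≤ |P'| := (hP' _ hx).trans (le_abs_self P')
  have a' : |pa e q (t ^ 2) / t| ≤ |A| := by
    rw [abs_div, abs_of_pos ht0, div_le_iff₀ ht0]
    exact a.trans (mul_le_mul_of_nonneg_left (sq t ▸ mul_le_of_le_one_left ht0.le ht1)
      (abs_nonneg A))
  have hone : ∀ (k : ℕ) (z : ℝ), |t ^ k * z| ≤ |z| := fun k z => by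
    rw [abs_mul, abs_of_pos (pow_pos ht0 k)]
    exact mul_le_of_le_one_left (abs_nonneg z) (pow_le_one₀ ht0.le ht1)
  have := abs_nonneg A
  have := abs_nonneg P
  have := abs_nonneg P'
  refine ⟨?_, ?_⟩
  · rw [show t ^ 2 * (wtOf e q).P t = pa e q (t ^ 2) / t + po e q (t ^ 2) by
      simp only [wtOf]; field_simp]
    linarith [abs_add_le (pa e q (t ^ 2) / t) (po e q (t ^ 2))]
  · rw [show t ^ 3 * (wtOf e q).P1 t = 2 * (t ^ 1 * pa1 e q (t ^ 2)) -
        3 * (pa e q (t ^ 2) / t) + (2 * (t ^ 2 * po1 e q (t ^ 2)) - 2 * po e q (t ^ 2)) by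
      simp only [wtOf]; field_simp; ring]
    refine (abs_add_le _ _).trans (le_trans (add_le_add (abs_sub _ _) (abs_sub _ _)) ?_)
    simp only [abs_mul (2 : ℝ), abs_mul (3 : ℝ), abs_two, abs_of_pos (show (0 : ℝ) < 3 by norm_num)]
    linarith [hone 1 (pa1 e q (t ^ 2)), hone 2 (po1 e q (t ^ 2))]

end Tan

end Vale.Agent.P219.CH.Relax.Seven
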